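import Vale.Agent.P014T.Tg.St
import Vale.Agent.P004Z.Fin.Int
import Vale.Agent.P004Z.H.Glob
import Vale.Agent.P022E.GW.TauG

/-! # P014T, block T: primes which split completely in the field of finitely many numbers -/

set_option autoImplicit false
set_option linter.all false

open UpperHalfPlane NumberField
open scoped Pointwise

noncomputable section

namespace Vale.Agent.P014T.Tg

open P004Z Vale.Agent.P022.H218.L3 Vale.Agent.P022.H236.L3 Vale.Agent.P004H.H666
open Vale.Agent.P022 (Qb GQ)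
open Vale.Agent.P022E.GW (Fb)
open P004Z.Fin (Ov)
open P004Z.H (io ex_io)

namespace Sl

variable {V : AbsoluteValue ℂ ℝ} {l : ℕ}

theorem int_le (h : IsNonarchimedean V) {z : ℂ} (hz : IsIntegral ℤ z) : V z ≤ 1 := by
  by_contra! k
  obtain ⟨p, m, e⟩ := hz
  rw [← Polynomial.aeval_def, Polynomial.aeval_eq_sum_range, Finset.sum_range_succ, m.coeff_natDegree,
    one_smul, add_eq_zero_iff_neg_eq] at e
  have lt : ∀ n ≤ p.natDegree,
      V (∑ i ∈ Finset.range n, p.coeff i • z ^ i) < V z ^ p.natDegree := fun n => by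
    induction n with
    | zero => intro _; simpa using pow_pos (one_pos.trans k) _
    | succ n ih =>
      intro a
      rw [Finset.sum_range_succ]
      refine (h _ _).trans_lt (max_lt (ih (by omega)) ?_)
      rw [zsmul_eq_mul, map_mul, map_pow]
      exact (mul_le_of_le_one_left (by positivity) h.apply_intCast_le_one).trans_lt
        (pow_lt_pow_right₀ k (by omega))
  have := lt _ le_rfl
  rw [← V.map_neg, e, map_pow] at this
  exact this.false

theorem io_le (h : IsNonarchimedean V) (x : 𝓞 Qb) : V (io x) ≤ 1 :=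
  int_le h (x.isIntegral_coe.map (io.restrictScalars ℤ))

/-- the prime of a place -/
def pv (h : IsNonarchimedean V) : Ideal (𝓞 Qb) where
  carrier := {x | V (io x) < 1}
  zero_mem' := by simp
  add_mem' {x y} a b := by
    change V (io ((x + y : 𝓞 Qb) : Qb)) < 1
    rw [show ((x + y : 𝓞 Qb) : Qb) = x + y from rfl, map_add]
    exact (h _ _).trans_lt (max_lt a b)
  smul_mem' c x a := by
    change V (io ((c * x : 𝓞 Qb) : Qb)) < 1
    rw [show ((c * x : 𝓞 Qb) : Qb) = c * x from rfl, map_mul, map_mul]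
    exact mul_lt_one_of_nonneg_of_lt_one_right (io_le h c) (V.nonneg _) a

theorem mem_pv (h : IsNonarchimedean V) {x : 𝓞 Qb} : x ∈ pv h ↔ V (io x) < 1 := Iff.rfl

theorem ov_pv (h : Ov V l) : P022E.GW.Ov l (pv h.na) := by
  refine ⟨h.prime, ⟨(Ideal.ne_top_iff_one _).2 (by simp [mem_pv]), fun {x y} k => ?_⟩, ?_⟩
  · rw [mem_pv, show ((x * y : 𝓞 Qb) : Qb) = x * y from rfl, map_mul, map_mul] at k
    by_contra! n
    simp only [mem_pv, not_lt] at n
    exact k.not_ge (one_le_mul_of_one_le_of_one_le n.1 n.2)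
  · simpa [mem_pv] using h.lt

/-- the elements which fix all the conjugates -/
def fx (Y : Set Qb) : Subgroup GQ where
  carrier := {g | ∀ y ∈ Y, ∀ t : GQ, g (t y) = t y}
  one_mem' _ _ _ := rfl
  mul_mem' a b y m t := by rw [AlgEquiv.mul_apply, b y m, a y m]
  inv_mem' {g} a y m t := by
    rw [← a y m t, ← AlgEquiv.mul_apply, inv_mul_cancel, AlgEquiv.one_apply, a y m]

theorem fx_normal (Y : Set Qb) : (fx Y).Normal := ⟨fun g a s y m t => by
  have := a y m (s⁻¹ * t)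
  rw [AlgEquiv.mul_apply] at this
  rw [AlgEquiv.mul_apply, AlgEquiv.mul_apply, this, ← AlgEquiv.mul_apply, mul_inv_cancel,
    AlgEquiv.one_apply]⟩

theorem orb_fin (y : Qb) : (Set.range fun t : GQ => t y).Finite := by
  have i : IsIntegral ℚ y := ((AlgebraicClosure.isAlgebraic ℚ).1 y).isIntegral
  refine ((minpoly ℚ y).rootSet_finite Qb).subset ?_
  rintro _ ⟨t, rfl⟩
  exact Polynomial.mem_rootSet.2 ⟨minpoly.ne_zero i,
    (Polynomial.aeval_algHom_apply (t : Qb →ₐ[ℚ] Qb) y _).trans (by rw [minpoly.aeval, map_zero])⟩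

theorem fx_open {Y : Set Qb} (h : Y.Finite) : IsOpen (fx Y : Set GQ) := by
  have : (fx Y : Set GQ) = ⋂ y ∈ Y, ⋂ w ∈ Set.range fun t : GQ => t y,
      (MulAction.stabilizer GQ w : Set GQ) := by
    ext g
    simp only [Set.mem_iInter, Set.forall_mem_range]
    rfl
  rw [this]
  exact h.isOpen_biInter fun y _ => (orb_fin y).isOpen_biInter fun w _ =>
    stabilizer_isOpen_of_isIntegral w

end Sl

open Sl

/-- totally split primes -/
theorem spl {Z : Set ℂ} (hZ : Z.Finite) (hi : ∀ z ∈ Z, IsIntegral ℤ z) :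
    ∃ Γ : Subgroup GQ, IsOpen (Γ : Set GQ) ∧ Γ.Normal ∧ ∀ (l : ℕ) P φ, P022E.GW.Ov l P →
      Fb l P φ → φ ∈ Γ → ∀ V, Ov V l → ∀ z ∈ Z, V (z ^ l - z) < 1 := by
  refine ⟨fx (io ⁻¹' Z), fx_open (hZ.preimage io.injective.injOn), fx_normal _,
    fun l P φ o f m V h z k => ?_⟩
  obtain ⟨x, rfl⟩ := ex_io ((hi z k).tower_top (A := ℚ)).isAlgebraic
  have i : IsIntegral ℤ x := (isIntegral_algHom_iff (io.restrictScalars ℤ) io.injective).1 (hi _ k)
  obtain ⟨t, e⟩ := P022E.GW.Tg.trans o (ov_pv h)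
  let y : 𝓞 Qb := ⟨x, i⟩
  have a : φ • t⁻¹ • y = t⁻¹ • y := Subtype.ext (m x k t⁻¹)
  have b : y - y ^ l ∈ pv h.na := by
    rw [e, Ideal.mem_pointwise_smul_iff_inv_smul_mem, smul_sub, smul_pow']
    have c := f (t⁻¹ • y)
    rwa [a] at c
  rw [← V.map_neg, neg_sub]
  rw [mem_pv, show ((y - y ^ l : 𝓞 Qb) : Qb) = x - x ^ l from rfl, map_sub, map_pow] at b
  exact b

theorem jn_int {N : ℕ} (hN : 0 < N) {b : ℍ} (h : ∃ l : Fm, l ≠ 0 ∧ evq l b = 0) :
    IsIntegral ℤ (jn N b) := by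
  obtain ⟨l, n, e⟩ := h
  have p : 0 < ((N : ℂ) * b).im := by simpa using mul_pos (Nat.cast_pos.2 hN) b.im_pos
  refine Fin.int (l.1, l.2.1 * N, l.2.2 * N ^ 2) _ (fun k => n ?_) ?_
  · simp only [Prod.ext_iff, Prod.fst_zero, Prod.snd_zero, mul_eq_zero, pow_eq_zero_iff', ne_eq,
      Nat.cast_eq_zero, hN.ne', false_and, or_false] at k ⊢
    exact k
  · rw [ofComplex_apply_of_im_pos p]
    simp only [evq] at e ⊢
    push_cast
    linear_combination (N : ℂ) ^ 2 * e

/-- the form for finitely many CM points -/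
theorem spl_cm {N : ℕ} (hN : 0 < N) (s : Finset ℍ) (h : ∀ b ∈ s, ∃ l : Fm, l ≠ 0 ∧ evq l b = 0) :
    ∃ Γ : Subgroup GQ, IsOpen (Γ : Set GQ) ∧ Γ.Normal ∧ ∀ (l : ℕ) P φ, P022E.GW.Ov l P →
      Fb l P φ → φ ∈ Γ → ∀ V, Ov V l → ∀ b ∈ s, Sp N l V b := by
  obtain ⟨Γ, o, n, k⟩ := spl (Z := jf '' s ∪ jn N '' s)
    ((s.finite_toSet.image _).union (s.finite_toSet.image _)) (by
      rintro _ (⟨b, m, rfl⟩ | ⟨b, m, rfl⟩)
      · exact let ⟨l, a, e⟩ := h b m; Fin.int l b a e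
      · exact jn_int hN (h b m))
  exact ⟨Γ, o, n, fun l P φ a f m V v b q =>
    ⟨k l P φ a f m V v _ (.inl ⟨b, q, rfl⟩), k l P φ a f m V v _ (.inr ⟨b, q, rfl⟩)⟩⟩

end Vale.Agent.P014T.Tg
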