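import Vale.Agent.P014T.Tg.F0d
import Vale.Agent.P014T.Tg.Spl
import Vale.Agent.P014T.Z.St

/-! # P014T, block T: the kernel congruence and the target -/

set_option autoImplicit false
set_option linter.all false

open UpperHalfPlane CongruenceSubgroup NumberField
open scoped MatrixGroups Classical

noncomputable section

namespace Vale.Agent.P014T.Tg

open P004Z P004Z.Ar P014T.Z Vale.Agent.P004H.H666
open P004N (RN ALw)
open P004Z.H (PlC iE)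
open Vale.Agent.P004M.TE (Pt ga GQ Qb)
open Vale.Agent.P022E (GW.Ov)
open Vale.Agent.P022E.GW (Fb)

/-- the kernel congruence -/
def TK : Prop := ∀ (N : ℕ) [NeZero N] (p d l m : ℕ) (β : ℤ) (W : ZMod l → ZMod m)
  (w : ZMod l → ℤ), Dz N p d β → l.Prime → ¬ l ∣ 2 * N * p * d → Lw l m W → W p = 0 →
  (∀ j, (w j : ZMod m) = W j) → ∀ c : PP N, IsInt c → (∀ i ∈ c.support, p ^ 4 * d * i.1 < l) →
  ∃ (z : ℤ) (κ : ℕ → ℤ) (T : Finset ℕ), pr (fun n r => (Fw p d l β w n r : ℂ)) c = z ∧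
    (∀ q, pr (fun n r => (ka1 p d β q n r : ℂ)) (U1 l c) = κ q) ∧ (∀ q ∈ T, q.Prime) ∧
    (∀ q, q ∉ T → κ q = 0) ∧ (z : ZMod m) = ∑ q ∈ T, (κ q : ZMod m) * W q

/-- **the tame formula of Gross and Zagier** -/
def TGZ : Prop := ∀ (N : ℕ) G a (D : Pz N a) (d : ℕ) (β : ℤ) s₀ V (P : Pt D.A D.B) (i j : ℤ),
  RN N G a → ALw N N G 1 → Van1 a 1 → Hg N d β → Reps (Gamma0 N) (B0 N d β) s₀ → PlC V →
  (∀ g, ga g P = P) → ¬ IsOfFinAddOrder (i • P) → iE (i • P) = j • yK D (B0 N d β) s₀ →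
  ∃ (p L : ℕ) (M : ℤ) (Γ : Subgroup GQ), p.Prime ∧ 0 < M ∧ IsOpen (Γ : Set GQ) ∧ Γ.Normal ∧
    ∀ (l m : ℕ) (W : ZMod l → ZMod m) (σ : ZMod m → ℤ) (Q : Ideal (𝓞 Qb)) (φ : GQ) (ρ : ℚ),
      L < l → GW.Ov l Q → Fb l Q φ → φ ∈ Γ → Lw l m W → W p = 0 →
      (∀ q : ℕ, q.Prime → ¬ Gr D.A D.B q → W q = 0) → σ 0 = 0 → (∀ x, (σ x : ZMod m) = x) →
      xp ((l + 1 - a l) • P) = ρ → l ∣ ρ.den →
      ∃ z : ℤ, (z : ℂ) * L1 a = M * H.hh (Gl.vq V) P *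
          ∑ k ∈ Finset.range l, σ (W k) * Ms G (k / l) ∧
        ((2 * (l + 1 - a l) * z : ℤ) : ZMod m) = -(M * W ρ.num)

end Vale.Agent.P014T.Tg
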