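import Vale.Agent.P014T.Tg.St

/-! # P014T, block T: descent of the plane model -/

set_option autoImplicit false
set_option linter.all false

open scoped Classical

noncomputable section

namespace Vale.Agent.P014T.Tg

open P004Z P004Z.EF P004Z.EF.Gn Vale.Agent.P022 Vale.Agent.P022.H218.L3 Vale.Agent.P022.H231.L3
  Vale.Agent.P022.H236.L3 Vale.Agent.P022.H542.L3 Vale.Agent.P027M.M

namespace Ds

theorem proj {ι : Type} (b : Module.Basis ι ℚ ℂ) {s : Fin 2 → LS} (h : ∀ i, s i ∈ CS ⊥)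
    (v : Fin 2 → ℂ) (P : MvPolynomial (Fin 2) ℂ) : ∃ R : (ℂ →ₗ[ℚ] ℚ) → ℂ,
      (∀ l, ∃ (d : ℕ) (P' : MvPolynomial (Fin 2) ℤ), 0 < d ∧
        (d : LS) * Lm l (MvPolynomial.aeval s P) = MvPolynomial.aeval s P' ∧
        MvPolynomial.aeval v P' = d * R l) ∧
      ∃ T : Finset ι, ∀ T', T ⊆ T' → MvPolynomial.eval v P = ∑ e ∈ T', b e * R (b.coord e) := by
  induction P using MvPolynomial.induction_on' with
  | monomial u c =>
    refine ⟨fun l => l c * u.prod fun i k => v i ^ k, fun l => ⟨(l c).den,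
      MvPolynomial.monomial u (l c).num, (l c).pos, ?_, ?_⟩, (b.repr c).support, fun T hT => ?_⟩
    · have h1 := aeval_mem h (MvPolynomial.monomial u 1)
      rw [MvPolynomial.aeval_monomial, map_one, one_mul] at h1
      rw [MvPolynomial.aeval_monomial, MvPolynomial.aeval_monomial, mul_comm (algebraMap ℂ LS c),
        Lm_mul l fun n => by
          obtain ⟨z, hz⟩ := Subring.mem_bot.1 (h1 n)
          exact ⟨z, by rw [← hz]; simp⟩, mul_left_comm, mul_comm]
      refine congrArg (· * _) ?_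
      have e : Lm l (algebraMap ℂ LS c) = algebraMap ℂ LS (l c) := by
        ext n
        rw [coeff_Lm, algMap_ls, algMap_ls, HahnSeries.C_apply, HahnSeries.C_apply,
          HahnSeries.coeff_single, HahnSeries.coeff_single]
        split_ifs <;> simp
      rw [e, ← map_natCast (algebraMap ℂ LS), ← map_mul, eq_intCast,
        ← map_intCast (algebraMap ℂ LS)]
      refine congrArg _ ?_
      exact_mod_cast Rat.den_mul_eq_num (l c)
    · rw [MvPolynomial.aeval_monomial, ← mul_assoc, eq_intCast]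
      refine congrArg (· * _) ?_
      exact_mod_cast (Rat.den_mul_eq_num (l c)).symm
    · rw [MvPolynomial.eval_monomial]
      simp only [← mul_assoc, ← Finset.sum_mul]
      refine congrArg (· * _) ?_
      have := b.linearCombination_repr c
      rw [Finsupp.linearCombination_apply, Finsupp.sum_of_support_subset _ hT _ (by simp)] at this
      rw [← this]
      refine Finset.sum_congr rfl fun e _ => ?_
      rw [this, Rat.smul_def, mul_comm]
      rfl
  | add p q hp hq =>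
    obtain ⟨R, hR, T, hT⟩ := hp
    obtain ⟨R', hR', T', hT'⟩ := hq
    refine ⟨R + R', fun l => ?_, T ∪ T', fun U hU => ?_⟩
    · obtain ⟨d, P, hd, e, f⟩ := hR l
      obtain ⟨d', Q, hd', e', f'⟩ := hR' l
      refine ⟨d * d', d' * P + d * Q, Nat.mul_pos hd hd', ?_, ?_⟩
      · have : ∀ x y, Lm l (x + y) = Lm l x + Lm l y := fun x y => by
          ext n
          simp only [coeff_Lm, HahnSeries.coeff_add, map_add, Rat.cast_add]
        simp only [map_add, map_mul, map_natCast, this, ← e, ← e', Nat.cast_mul]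
        ring
      · simp only [map_add, map_mul, map_natCast, f, f', Nat.cast_mul, Pi.add_apply]
        ring
    · rw [map_add, hT U (Finset.subset_union_left.trans hU),
        hT' U (Finset.subset_union_right.trans hU), ← Finset.sum_add_distrib]
      exact Finset.sum_congr rfl fun e _ => (mul_add _ _ _).symm

theorem ex_l {s : Fin 2 → LS} (h : ∀ i, s i ∈ CS ⊥) (v : Fin 2 → ℂ) (P : MvPolynomial (Fin 2) ℂ)
    (hv : MvPolynomial.eval v P ≠ 0) : ∃ (l : ℂ →ₗ[ℚ] ℚ) (d : ℕ) (P' : MvPolynomial (Fin 2) ℤ),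
      (d : LS) * Lm l (MvPolynomial.aeval s P) = MvPolynomial.aeval s P' ∧
        MvPolynomial.aeval v P' ≠ 0 := by
  obtain ⟨ι, ⟨b⟩⟩ : ∃ ι : Type, Nonempty (Module.Basis ι ℚ ℂ) :=
    ⟨_, ⟨Module.Basis.ofVectorSpace ℚ ℂ⟩⟩
  obtain ⟨R, hR, T, hT⟩ := proj b h v P
  rw [hT T le_rfl] at hv
  obtain ⟨i, -, h0⟩ := Finset.exists_ne_zero_of_sum_ne_zero hv
  obtain ⟨d, Q, hd, e, f⟩ := hR (b.coord i)
  exact ⟨_, d, Q, e, f ▸ mul_ne_zero (Nat.cast_ne_zero.2 hd.ne') (right_ne_zero_of_mul h0)⟩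

end Ds

theorem dsc : DSC := fun N hN x P Q v ⟨s, hs, hr⟩ e hv => by
  obtain ⟨t, ht, hi⟩ := ex_js hN
  obtain ⟨l, d', Q', e2, f2⟩ := Ds.ex_l hi v Q hv
  obtain ⟨d, P', hd, e1⟩ := Lm_aeval l hi P
  have a1 := hs.mul (exM_aeval ht Q)
  rw [e] at a1
  have e0 := a1.unique one_ne_zero (exM_aeval ht P)
  have h3 := Lm_mul l hr (MvPolynomial.aeval t Q)
  rw [e0] at h3
  have e3 : s * MvPolynomial.aeval t (d * Q' : MvPolynomial (Fin 2) ℤ) =
      MvPolynomial.aeval t (d' * P' : MvPolynomial (Fin 2) ℤ) := by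
    rw [map_mul, map_mul, map_natCast, map_natCast, ← e1, ← e2, h3]
    ring
  have a2 := hs.mul (exM_aevalZ ht (d * Q'))
  rw [e3] at a2
  refine ⟨d' * P', d * Q', Exp.inj a2 (exM_aevalZ ht _), ?_⟩
  rw [map_mul, map_natCast]
  exact mul_ne_zero (Nat.cast_ne_zero.2 hd.ne') f2

end Vale.Agent.P014T.Tg
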