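import Vale.Agent.P004Z.Ar.Ao2
import Vale.Agent.P004Z.Ar.Adj

/-! # P014T, block T (tame Gross-Zagier): words and rows of the geometric half -/

set_option autoImplicit false
set_option linter.all false

open UpperHalfPlane CongruenceSubgroup Real
open scoped MatrixGroups Classical

noncomputable section

namespace Vale.Agent.P014T.Tg

open P004Z P004Z.Ar Vale.Agent.P022.H218.L3 Vale.Agent.P022.H236.L3 Vale.Agent.P004H.H666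
open Vale.Agent.P022K.F0.Cf (od ev Reg)
open P004Z.Fin (Pk Ov)
open P004Z.H (sp Fo lam cc EC cj)
open P004N (RN)

/-- the `l + 1` neighbours -/
def nb (l : ℕ) (j : Option (Fin l)) (z : ℍ) : ℍ := mb (P004N.H461.al l j) z

/-- `z'` is a neighbour of `z` -/
def Nb (l : ℕ) (z z' : ℍ) : Prop := (z' : ℂ) = l * z ∨ ∃ k : ℤ, (z' : ℂ) = (z + k) / l

/-- a CM point of large discriminant -/
structure Cm (N : ℕ) (b : ℍ) : Prop where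
  ex : ∃ l : Fm, l ≠ 0 ∧ evq l b = 0
  big : ∀ l : Fm, l ≠ 0 → evq l b = 0 → disc l < -(4 * N ^ 2)

/-- `j (N z)` -/
def jn (N : ℕ) (z : ℍ) : ℂ := jf (ofComplex (N * z))

/-- rational expansion -/
def Rq (x : Mer) : Prop := ∃ s, ExM 1 s x ∧ EF.RatS s

/-- the Frobenius at `V` fixes the point `b` -/
def Sp (N l : ℕ) (V : AbsoluteValue ℂ ℝ) (b : ℍ) : Prop :=
  V (jf b ^ l - jf b) < 1 ∧ V (jn N b ^ l - jn N b) < 1

/-- the square of the theta function -/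
structure Sq {N : ℕ} {a : ℕ → ℤ} (D : Pz N a) (θ : ℂ → ℂ) (b : ℝ) (S : ℂ → ℂ) : Prop where
  th : Th D.Λ θ b
  ne : ∀ u, S u ≠ 0
  zero : S 0 = 1
  sq : ∀ u, u ∉ D.Λ → S u = θ u ^ 2
  par : ∀ u v, cc (D.ex u) (D.ex v) * (S u ^ 2 * S v ^ 2) = S (u + v) * S (u - v)

/-- the function with the divisor `2 n` -/
def F2 {N : ℕ} {a : ℕ → ℤ} (D : Pz N a) (S : ℂ → ℂ) (h : MF (Gamma0 N)) (t u : ℂ) (z : ℍ) : ℂ :=
  ev z (h : Mer) ^ 2 * (S (D.I z - (t + u)) / S (D.I z - t))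

variable {A B : ℤ}

/-- rational points -/
def Rt (A B : ℤ) : AddSubgroup (EC A B) where
  carrier := {P | ∀ σ, sp σ P = P}
  zero_mem' σ := map_zero _
  add_mem' h h' σ := by rw [map_add, h σ, h' σ]
  neg_mem' h σ := by rw [map_neg, h σ]

/-- the kernel of the reduction -/
def E1 (V : AbsoluteValue ℂ ℝ) (P : EC A B) : Prop := P = 0 ∨ 1 < V (xp P)

/-- `nu V P • (xp P, zp P)` is primitive -/
def nu (V : AbsoluteValue ℂ ℝ) (P : EC A B) : ℂ := if 1 < V (xp P) then (xp P)⁻¹ else 1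

/-- the reduced factor of the parallelogram law -/
def cr (V : AbsoluteValue ℂ ℝ) (P Q : EC A B) : ℂ :=
  cc P Q * (nu V P ^ 2 * nu V Q ^ 2) / (nu V (P + Q) * nu V (P - Q))

/-- good reduction -/
def Gr (A B : ℤ) (l : ℕ) : Prop := ¬ (l : ℤ) ∣ 2 * (4 * A ^ 3 + 27 * B ^ 2)

/-- the rational number `x (P)` (`1` at the origin) -/
def xq (P : EC A B) : ℚ := if h : ∃ x : ℚ, (x : ℂ) = xp P then h.choose else 0

/-- `den x / nu` modulo `l` -/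
def mu (l : ℕ) (P : EC A B) : ℤ := if l ∣ (xq P).den then (xq P).num else (xq P).den

/-- a tame logarithm -/
structure Lw (l m : ℕ) (W : ZMod l → ZMod m) : Prop where
  zero : W 0 = 0
  neg : W (-1) = 0
  mul : ∀ x y, x ≠ 0 → y ≠ 0 → W (x * y) = W x + W y

/-! ## rows -/

def VSD : Prop := ∀ N a (D : Pz N a), ∃ θ b S, Sq D θ b S

/-- the Hecke operator on decompositions -/
def HK : Prop := ∀ N G a (D : Pz N a) θ b S (s : Finset ℍ) (l : ℕ) n n' h t u t', RN N G a →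
  Sq D θ b S → l.Prime → ¬ l ∣ N → Dec D s n h t u → u ∉ D.Λ → (a l - l - 1) * u ∉ D.Λ →
  (∀ z, n' z = ∑ j, n (nb l j z) - (l + 1) * n z) →
  (∀ z ∈ s, ∀ j, n (nb l j z) = 0 ∧ D.pi (nb l j z) ≠ D.ex t ∧ D.pi (nb l j z) ≠ D.ex (t + u)) →
  D.Nc t' → D.Nc (t' + (a l - l - 1) * u) →
  (∀ z ∈ s, D.pi z ≠ D.ex t' ∧ D.pi z ≠ D.ex (t' + (a l - l - 1) * u)) →
  ∃ h', Dec D s n' h' t' ((a l - l - 1) * u) ∧ ∀ z ∈ s,
    F2 D S h' t' ((a l - l - 1) * u) z * F2 D S h t u z ^ (l + 1) = ∏ j, F2 D S h t u (nb l j z)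

/-- fixed numbers are rational -/
def FIX : Prop := ∀ z : ℂ, (∀ σ : ℂ ≃+* ℂ, σ z = z) → ∃ q : ℚ, (q : ℂ) = z

/-- eigenfunctions have rational expansions -/
def AUT : Prop := ∀ (N : ℕ) [NeZero N] (f : MF (Gamma0 N)), f ≠ 0 →
  ((∀ σ, ∃ c r χ, Act N 1 σ c r χ ∧ c f = f) → Rq f) ∧
  ((∀ σ, ∃ c r χ κ, Act N 1 σ c r χ ∧ (c f : Mer) = algebraMap ℂ Mer κ * f) →
    ∃ κ : ℂ, κ ≠ 0 ∧ Rq (algebraMap ℂ Mer κ * f))

/-- the plane model is smooth over `j b` -/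
def LAG : Prop := ∀ (N : ℕ) (hN : 0 < N) (b : ℍ), Cm N b → ∀ x ∈ MF (Gamma0 N),
  (∀ z, jf z = jf b → Reg z x) → ∃ P Q : MvPolynomial (Fin 2) ℂ,
    x * MvPolynomial.aeval ![jM, EF.jN N hN] Q = MvPolynomial.aeval ![jM, EF.jN N hN] P ∧
    MvPolynomial.eval ![jf b, jn N b] Q ≠ 0

/-- descent -/
def DSC : Prop := ∀ (N : ℕ) (hN : 0 < N) (x : Mer) (P Q : MvPolynomial (Fin 2) ℂ) (v : Fin 2 → ℂ),
  Rq x → x * MvPolynomial.aeval ![jM, EF.jN N hN] Q = MvPolynomial.aeval ![jM, EF.jN N hN] P →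
  MvPolynomial.eval v Q ≠ 0 → ∃ P' Q' : MvPolynomial (Fin 2) ℤ,
    x * MvPolynomial.aeval ![jM, EF.jN N hN] Q' = MvPolynomial.aeval ![jM, EF.jN N hN] P' ∧
    MvPolynomial.aeval v Q' ≠ 0

/-- the congruence of Kronecker -/
def KRO : Prop := ∀ (l : ℕ) V (z z' : ℍ), Ov V l → V (jf z) ≤ 1 → V (jf z ^ l - jf z) < 1 →
  Nb l z z' → V (jf z' - jf z) < 1

/-- values at the neighbours (hypotheses allowed: `LAG DSC KRO`) -/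
def CONG : Prop := ∀ (N : ℕ) (b : ℍ), 0 < N → Cm N b → ∀ x ∈ MF (Gamma0 N), Rq x →
  (∀ z, jf z = jf b → Reg z x) → IsAlgebraic ℚ (ev b x) ∧ ∃ L : ℕ, ∀ (l : ℕ) V, L < l → Ov V l →
    V (ev b x) ≤ 1 ∧ (Sp N l V b → ∀ j, Reg (nb l j b) x ∧ V (ev (nb l j b) x - ev b x) < 1)

/-- reduction of points -/
def RED : Prop := ∀ (A B : ℤ) (l : ℕ) V, Ov V l → Gr A B l →
  (∀ P Q : EC A B, E1 V P → E1 V Q → E1 V (P - Q)) ∧
  (∀ P Q : EC A B, V (cr V P Q) = 1) ∧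
  (∀ P P' Q : EC A B, E1 V (P - P') → V (cr V P Q - cr V P' Q) < 1) ∧
  (∀ P Q : EC A B, E1 V Q → V (cr V P Q - 1) < 1) ∧
  (∀ P Q : EC A B, ¬ E1 V P → ¬ E1 V Q → V (xp P - xp Q) < 1 → E1 V (P - Q) ∨ E1 V (P + Q)) ∧
  ∀ P : EC A B, 2 * lam V P = - log (V (nu V P))

/-- algebraic points do not meet at large primes -/
def SEP : Prop := ∀ (A B : ℤ) (P : EC A B), P ∈ Fo A B → P ≠ 0 →
  ∃ L : ℕ, ∀ (l : ℕ) V, L < l → Ov V l → ¬ E1 V P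

/-- the neighbours have the same reduction (hypotheses allowed: `CONG AUT RED SEP`) -/
def PIC : Prop := ∀ (N : ℕ) [NeZero N] a (D : Pz N a) xm (b : ℍ),
  Pk N (D.A : ℂ) (D.B : ℂ) D.pi D.e xm → xm 0 = D.x → (∀ τ, 0 < D.e τ) →
  (∀ σ, ∃ c r χ, Act N 1 σ c r χ) → (Rt D.A D.B : Set D.E).Infinite → Cm N b → D.pi b ∈ Fo D.A D.B →
  ∃ L : ℕ, ∀ (l : ℕ) V, L < l → Ov V l → Sp N l V b → ∀ j, E1 V (D.pi (nb l j b) - D.pi b)

/-- coordinates of rational points (hypothesis allowed: `FIX`) -/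
def XQ : Prop := ∀ (A B : ℤ) (l : ℕ) V, Ov V l → ∀ P ∈ Rt A B, (xq P : ℂ) = xp P ∧
  ¬ (l : ℤ) ∣ mu l P ∧ (E1 V P → mu l P = (xq P).num) ∧ V ((xq P).den / nu V P - mu l P) < 1

/-- the tame height on rational points (hypotheses allowed: `RED FIX XQ LW`) -/
def HQ : Prop := ∀ (A B : ℤ) (l m : ℕ) (W : ZMod l → ZMod m) V, Ov V l → Gr A B l → Lw l m W →
  (∀ q : ℕ, q.Prime → ¬ Gr A B q → W q = 0) → ∃ f : Rt A B → Rt A B →+ ZMod m,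
    (∀ P Q, E1 V P.1 → f P Q = 2 * (W (mu l (P + Q).1) - W (mu l P.1) - W (mu l Q.1))) ∧
    (∀ P P', E1 V P.1 → E1 V P'.1 → f (P + P') = f P + f P') ∧
    (∀ P, E1 V P.1 → f P P = 4 * W (mu l P.1)) ∧ ∀ P : Rt A B, W (mu l (-P).1) = W (mu l P.1)

/-- the product formula -/
def LW : Prop := ∀ (l m : ℕ) (W : ZMod l → ZMod m) V (S T : Finset ℕ) (κ : ℕ → ℤ) (ρ : ℚ) (x y : ℤ),
  Ov V l → Lw l m W → (∀ q ∈ S, W q = 0) → ρ ≠ 0 → ¬ (l : ℤ) ∣ x → ¬ (l : ℤ) ∣ y →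
  V (ρ * y - x) < 1 → (∀ q ∈ T, q.Prime) → (∀ q, q ∉ T → κ q = 0) →
  (∀ q : ℕ, q.Prime → q ≠ l → q ∉ S →
    ∃ V', Ov V' q ∧ V' q = (q : ℝ)⁻¹ ∧ log (V' ρ) = -(κ q * log q)) →
  ∑ q ∈ T, (κ q : ZMod m) * W q = W x - W y

/-- **the geometric half** -/
def T2 : Prop := ∀ (N : ℕ) [NeZero N] G a (D : Pz N a) B s θ xm n h t u (k : ℕ) (Y U : Rt D.A D.B),
  RN N G a → Cx D 1 B s θ xm → (∀ b ∈ s, Cm N b) → Eg N 1 n → Dec D s n h t u →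
  D.ex t ∈ Rt D.A D.B → U.1 = D.ex u → D.Gd s (D.ex t) → D.Gd s (D.ex t + D.ex u) →
  (∀ b ∈ s, ∀ z, jf z = jf b → n z = 0 ∧ D.pi z ≠ D.ex t ∧ D.pi z ≠ D.ex (t + u)) →
  (∀ j : ℤ, j ≠ 0 → j • U ≠ 0) → Y.1 = k • ∑ b ∈ s, B b • D.pi b →
  ∃ L : ℕ, ∀ (l m : ℕ) (W : ZMod l → ZMod m) n' (T : Finset ℕ) (κ : ℕ → ℤ), L < l → l.Prime →
    (∀ V, Ov V l → ∀ b ∈ s, Sp N l V b) → Lw l m W →
    (∀ q : ℕ, q.Prime → ¬ Gr D.A D.B q → W q = 0) →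
    (∀ z, n' z = ∑ j, n (nb l j z) - (l + 1) * n z) → Eg N 1 n' →
    (∀ q ∈ T, q.Prime) → (∀ q, q ∉ T → κ q = 0) →
    (∀ q : ℕ, q.Prime → ∃ V, Ov V q ∧ V q = (q : ℝ)⁻¹ ∧ ∀ h' t' u', Dec D s n' h' t' u' →
      D.ex t' ∈ Rt D.A D.B → D.ex u' ∈ Rt D.A D.B → D.Gd s (D.ex t') → D.Gd s (D.ex t' + D.ex u') →
      Sy D B s V h' t' u' + Sy D B s (cV V) h' t' u' = -(κ q * log q)) →
    (∀ V, Ov V l → E1 V ((a l - l - 1) • Y.1)) ∧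
    -(8 * k * ∑ q ∈ T, (κ q : ZMod m) * W q) = 8 * (W (mu l ((a l - l - 1) • Y - U).1) -
      W (mu l ((a l - l - 1) • Y).1) - W (mu l U.1))

end Vale.Agent.P014T.Tg
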