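import Vale.Agent.P004Z.Fin.R2
import Vale.Agent.P014T.Tg.St

/-! # P014T, block T: the congruence of Kronecker and the values at the neighbours -/

set_option autoImplicit false
set_option linter.all false

open UpperHalfPlane hiding I
open CongruenceSubgroup
open scoped MatrixGroups Classical

noncomputable section

namespace Vale.Agent.P014T.Tg.Kr

open Vale.Agent.P022.H218.L3 Vale.Agent.P022.H231.L3 Vale.Agent.P022.H236.L3
  Vale.Agent.P022D.Irr Vale.Agent.P027M.M P004Z P004Z.Fin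

variable {O : ValuationSubring ℂ} {V : AbsoluteValue ℂ ℝ} {p : ℕ}

theorem cusp (hp : p.Prime) {γ : SL(2, ℤ)} (h : γ ∉ Gamma0 p) : ∃ (g : SL(2, ℤ)) (b : ℤ),
    dg p * γ = g * !![((1 : ℕ) : ℤ), b; 0, (p : ℤ)] := by
  obtain ⟨g, a, d, b, ha, hd, e⟩ := Pbm.hermite _ (pos_mul (dg_pos hp.pos) (SL_pos γ))
  have e1 : γ 1 0 = g 1 0 * a := by
    simpa [dg, Matrix.mul_apply, Fin.sum_univ_two] using congrFun (congrFun e 1) 0
  have e2 : a * d = p := by
    have := congrArg Matrix.det e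
    rw [Matrix.det_mul, Matrix.det_mul, γ.det_coe, g.det_coe, dg_det, Matrix.det_fin_two_of] at this
    exact_mod_cast (by linarith : (a : ℤ) * d = p)
  rcases (Nat.dvd_prime hp).1 (Dvd.intro _ e2) with rfl | rfl
  · obtain rfl : d = p := (one_mul d).symm.trans e2
    exact ⟨g, b, e⟩
  · exact absurd (Hd.g0_dvd.2 ⟨_, e1.trans (mul_comm _ _)⟩) h

theorem j_shift {σ τ : ℍ} {b : ℤ} (h : (σ : ℂ) = τ + b) : jf σ = jf τ := by
  rw [← jf_smul (ModularGroup.T ^ b) τ]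
  congr 1
  apply UpperHalfPlane.ext
  rw [h, ModularGroup.coe_T_zpow_smul_eq]

theorem tri_up (hp : 0 < p) (b : ℤ) (σ : ℍ) :
    jf (mo (dg p) (mo !![((1 : ℕ) : ℤ), b; 0, (p : ℤ)] σ)) = jf σ := j_shift (b := b) (by
  have : (p : ℂ) ≠ 0 := by exact_mod_cast hp.ne'
  rw [Fin.dg_coe hp, tri_coe b one_pos hp]
  field_simp
  simp)

/-- the full congruence -/
theorem full (hp : p.Prime) : (fun τ => (p : ℂ)⁻¹ *
    ((jf (mo (dg p) τ) - jf τ ^ p) * (jf (mo (dg p) τ) ^ p - jf τ))) ∈ RR O := by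
  have m0 := mo_RR (dg_pos hp.pos) (jf_RR (O := O))
  have m := sub_mem m0 (pow_mem jf_RR p)
  have m' := sub_mem (pow_mem m0 p) jf_RR
  refine RR_div (mul_mem m m') _ fun g => ?_
  by_cases hg : g ∈ Gamma0 p
  · refine Iq_sm (one_mem _) (mul_mem (kro_q hp) (m'.2.2 g)) fun σ => ?_
    have := nv_j hp.pos g hg σ
    simp only [Pi.mul_apply, Pi.sub_apply, Pi.pow_apply, jf_smul] at this ⊢
    rw [this, one_mul, mul_assoc]
  · obtain ⟨γ, b, e⟩ := cusp hp hg
    refine Iq_sm (neg_mem (one_mem _)) (mul_mem (m.2.2 g)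
      (Iq_tri b one_pos hp.pos (kro_q hp))) fun σ => ?_
    have k : jf (mo (dg p) (g • σ)) = jf (mo !![((1 : ℕ) : ℤ), b; 0, (p : ℤ)] σ) := by
      rw [← mo_SL, ← mo_mul (dg_pos hp.pos) (SL_pos g), e,
        mo_mul (SL_pos γ) (tri_pos b one_pos hp.pos), mo_SL, jf_smul]
    simp only [Pi.mul_apply, Pi.sub_apply, Pi.pow_apply, jf_smul, k, tri_up hp.pos]
    ring

theorem mul_lt (h : Ov V p) {x y : ℂ} (a : V x < 1) (b : V y ≤ 1) : V (x * y) < 1 := by
  rw [map_mul]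
  exact mul_lt_one_of_nonneg_of_lt_one_left (V.nonneg _) a b

theorem frob (h : Ov V p) {x y : ℂ} (a : V x ≤ 1) (b : V y ≤ 1) (c : V (x ^ p - y ^ p) < 1) :
    V (x - y) < 1 := by
  obtain ⟨r, e⟩ := exists_add_pow_prime_eq h.prime (⟨x, a⟩ - ⟨y, b⟩ : vO h.na) ⟨y, b⟩
  have e' : (x - y) ^ p = x ^ p - y ^ p - p * ((x - y) * y * r) := by
    have := congrArg Subtype.val e
    push_cast at this
    rw [sub_add_cancel] at this
    linear_combination -this
  have k : V ((x - y) ^ p) < 1 := e' ▸ h.sub_lt c (mul_lt h h.lt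
    (mul_mem (mul_mem (sub_mem (show x ∈ vO h.na from a) b) b) r.2))
  rw [map_pow] at k
  exact lt_of_pow_lt_pow_left₀ p zero_le_one (by rwa [one_pow])

theorem two (h : Ov V p) {τ : ℍ} (a : V (jf τ) ≤ 1) :
    V (jf (mo (dg p) τ) - jf τ ^ p) < 1 ∨ V (jf (mo (dg p) τ) ^ p - jf τ) < 1 := by
  have p0 : (p : ℂ) ≠ 0 := by exact_mod_cast h.prime.ne_zero
  have k := mul_lt h h.lt (h.val (full h.prime) a)
  rw [mul_inv_cancel_left₀ p0, map_mul] at k
  by_contra! c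
  exact k.not_ge (one_le_mul_of_one_le_of_one_le c.1 c.2)

theorem fin (h : Ov V p) {x y : ℂ} (a : V x ≤ 1) (b : V y ≤ 1) (c : V (x ^ p - x) < 1)
    (d : V (y - x ^ p) < 1 ∨ V (y ^ p - x) < 1) : V (y - x) < 1 := by
  rcases d with d | d
  · simpa using h.add_lt d c
  · exact frob h b a (by simpa using h.sub_lt d c)

theorem core (h : Ov V p) {z z' : ℍ} (a : V (jf z) ≤ 1) (c : V (jf z ^ p - jf z) < 1)
    (n : (z' : ℂ) = p * z ∨ ∃ k : ℤ, (z' : ℂ) = (z + k) / p) : V (jf z' - jf z) < 1 := by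
  have hp := h.prime.pos
  rcases n with n | ⟨k, n⟩
  · obtain rfl : z' = mo (dg p) z := UpperHalfPlane.ext (n.trans (Fin.dg_coe hp z).symm)
    exact fin h a (h.val (mo_RR (dg_pos hp) jf_RR) a) c (two h a)
  · obtain rfl : z' = mo !![((1 : ℕ) : ℤ), k; 0, (p : ℤ)] z :=
      UpperHalfPlane.ext (by rw [n, tri_coe k one_pos hp]; simp)
    have b := h.val (mo_RR (tri_pos k one_pos hp) jf_RR) a
    have t := two h b
    rw [tri_up hp] at t
    refine fin h a b c (t.symm.imp (fun e => ?_) fun e => ?_) <;> rwa [V.map_sub]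

/-- congruent arguments give congruent values -/
theorem poly (h : Ov V p) {v w : Fin 2 → ℂ} (a : ∀ i, V (w i) ≤ 1) (b : ∀ i, V (v i - w i) < 1)
    (P : MvPolynomial (Fin 2) ℤ) : V (MvPolynomial.aeval w P) ≤ 1 ∧
      V (MvPolynomial.aeval v P - MvPolynomial.aeval w P) < 1 := by
  induction P using MvPolynomial.induction_on with
  | C r => simpa using h.le r
  | add P Q i j =>
    rw [map_add (MvPolynomial.aeval w), map_add (MvPolynomial.aeval v), add_sub_add_comm]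
    exact ⟨h.add_le i.1 j.1, h.add_lt i.2 j.2⟩
  | mul_X P i j =>
    simp only [map_mul, MvPolynomial.aeval_X]
    refine ⟨mul_le_one₀ j.1 (V.nonneg _) (a i), ?_⟩
    have c : V (v i) ≤ 1 := by simpa using h.add_le (b i).le (a i)
    have := h.add_lt (mul_lt h j.2 c) (mul_lt h (b i) j.1)
    rwa [show ∀ x y z w : ℂ, (x - y) * z + (z - w) * y = x * z - y * w from
      fun _ _ _ _ => by ring] at this

theorem quo (h : Ov V p) {a b c d : ℂ} (h1 : V b ≤ 1) (h2 : V d = 1) (h3 : V (a - b) < 1)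
    (h4 : V (c - d) < 1) : c ≠ 0 ∧ V (a / c - b / d) < 1 := by
  have e : V c = 1 := by
    have := h.add_eq (h4.trans_eq h2.symm)
    rwa [sub_add_cancel, h2] at this
  have c0 : c ≠ 0 := fun z => by simp [z] at e
  have d0 : d ≠ 0 := fun z => by simp [z] at h2
  refine ⟨c0, ?_⟩
  rw [show a / c - b / d = ((a - b) * d - (c - d) * b) / (c * d) by field_simp; ring, map_div₀,
    map_mul V c, e, h2, one_mul, div_one]
  exact h.sub_lt (mul_lt h h3 h2.le) (mul_lt h h4 h1)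

end Vale.Agent.P014T.Tg.Kr

namespace Vale.Agent.P014T.Tg

open Vale.Agent.P022.H218.L3 Vale.Agent.P022.H231.L3 Vale.Agent.P022.H236.L3
  P004Z P004Z.Fin
open P004Z.Ar (coe_mb)
open Vale.Agent.P022K.F0.Cf (jm ev Reg ev_eq)

theorem kro : KRO := fun _ _ _ _ h a c n => Kr.core h a c n

namespace Kr

variable {N : ℕ}

theorem up_eq (hN : 0 < N) (z : ℍ) : ofComplex (N * z) = mo (dg N) z := by
  rw [← Fin.dg_coe hN, ofComplex_apply]

/-- the two generators as holomorphic functions -/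
def gs (hN : 0 < N) : Fin 2 → Hol := ![⟨jf, jf_mem⟩, ⟨fun τ => jf (mo (dg N) τ),
  mo_hol (dg_pos hN) jf_mem⟩]

theorem gs_jm (hN : 0 < N) : ![jM, EF.jN N hN] = fun i => jm (gs hN i) := by
  refine funext (Fin.forall_fin_two.2 ⟨rfl, ?_⟩)
  refine (pb_inc _ _ jf_mem).trans (inc_congr _ (funext fun τ => ?_))
  exact congrArg jf (mo_eq (dg_pos hN) τ).symm

theorem gs_val (hN : 0 < N) (z : ℍ) : (fun i => (gs hN i).1 z) = ![jf z, jn N z] :=
  funext (Fin.forall_fin_two.2 ⟨rfl, congrArg jf (up_eq hN z).symm⟩)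

theorem ae (hN : 0 < N) (P : MvPolynomial (Fin 2) ℤ) : ∃ f : Hol,
    MvPolynomial.aeval ![jM, EF.jN N hN] P = jm f ∧
      ∀ z, f.1 z = MvPolynomial.aeval ![jf z, jn N z] P := by
  induction P using MvPolynomial.induction_on with
  | C r => exact ⟨r, by simp, fun z => by simp⟩
  | add P Q i j =>
    obtain ⟨f, a, b⟩ := i
    obtain ⟨g, c, d⟩ := j
    exact ⟨f + g, by rw [map_add, a, c]; exact (map_add _ _ _).symm, fun z => by rw [map_add, ← b, ← d]; rfl⟩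
  | mul_X P i j =>
    obtain ⟨f, a, b⟩ := j
    refine ⟨f * gs hN i, by
      rw [map_mul, a, MvPolynomial.aeval_X, gs_jm]; exact (map_mul _ _ _).symm, fun z => ?_⟩
    rw [map_mul, ← b, MvPolynomial.aeval_X, ← gs_val hN z]
    rfl

theorem nb_nb {l : ℕ} (hl : 0 < l) (hN : 0 < N) (j : Option (Fin l)) (z : ℍ) :
    Nb l z (nb l j z) ∧ Nb l (mo (dg N) z) (mo (dg N) (nb l j z)) := by
  have d : 0 < (P004N.H461.al l j).det := by
    rw [P004N.H461.al_det]
    exact_mod_cast hl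
  have e := coe_mb d z
  simp only [Nb, Fin.dg_coe hN, nb, e]
  cases j with
  | none => exact ⟨Or.inl (by simp [P004N.H461.al]), Or.inl (by simp [P004N.H461.al]; ring)⟩
  | some j => exact ⟨Or.inr ⟨j, by simp [P004N.H461.al]⟩,
      Or.inr ⟨N * j, by simp [P004N.H461.al]; ring⟩⟩

theorem up_int (hN : 0 < N) {b : ℍ} (h : Cm N b) (i : Fin 2) :
    IsIntegral ℤ (![jf b, jn N b] i) := by
  obtain ⟨l, h0, e⟩ := h.ex
  revert i
  refine Fin.forall_fin_two.2 ⟨Fin.int l b h0 e, ?_⟩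
  refine Fin.int (l.1, N * l.2.1, N ^ 2 * l.2.2) _ (fun z => fst_ne h0 e (congrArg (·.1) z)) ?_
  rw [up_eq hN, Fin.dg_coe hN]
  simp only [evq] at e ⊢
  push_cast
  linear_combination (N : ℂ) ^ 2 * e

theorem int_le {V : AbsoluteValue ℂ ℝ} {p : ℕ} (h : Ov V p) {z : ℂ} (hz : IsIntegral ℤ z) :
    V z ≤ 1 := by
  obtain ⟨P, h1, h2⟩ := hz
  exact root_int (O := vO h.na) (P := P.map (algebraMap ℤ ℂ))
    (fun i => by rw [Polynomial.coeff_map]; exact h.le _)
    (by rw [(h1.map _).leadingCoeff, map_one]) (by rwa [Polynomial.eval_map])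

theorem ae_int {v : Fin 2 → ℂ} (h : ∀ i, IsIntegral ℤ (v i)) (P : MvPolynomial (Fin 2) ℤ) :
    IsIntegral ℤ (MvPolynomial.aeval v P) := by
  induction P using MvPolynomial.induction_on with
  | C r => simpa using isIntegral_algebraMap (R := ℤ) (A := ℂ) (x := r)
  | add P Q i j => exact map_add (MvPolynomial.aeval v) P Q ▸ i.add j
  | mul_X P i j =>
    rw [map_mul, MvPolynomial.aeval_X]
    exact j.mul (h i)

end Kr

theorem cong (lag : LAG) (dsc : DSC) : CONG := fun N b hN hb x hx hq hr => by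
  obtain ⟨P₀, Q₀, e₀, n₀⟩ := lag N hN b hb x hx hr
  obtain ⟨P, Q, e, n⟩ := dsc N hN x P₀ Q₀ _ hq e₀ n₀
  obtain ⟨f, f1, f2⟩ := Kr.ae hN P
  obtain ⟨g, g1, g2⟩ := Kr.ae hN Q
  rw [f1, g1] at e
  have i := Kr.up_int hN hb
  have eb := ev_eq (a := b) (g2 b ▸ n) e
  rw [f2, g2] at eb
  obtain ⟨L, hL⟩ := (unit_fin (Kr.ae_int i Q) n).bddAbove
  refine ⟨eb ▸ ?_, L, fun l V hl h => ?_⟩
  · exact ((Kr.ae_int i P).tower_top.isAlgebraic).mul (Kr.ae_int i Q).tower_top.isAlgebraic.inv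
  have a : ∀ k, V (![jf b, jn N b] k) ≤ 1 := fun k => Kr.int_le h (i k)
  have u : V (MvPolynomial.aeval ![jf b, jn N b] Q) = 1 :=
    le_antisymm (Kr.int_le h (Kr.ae_int i Q)) (not_lt.1 fun c => hl.not_ge (hL ⟨V, h, c⟩))
  refine ⟨by rw [eb, map_div₀, u, div_one]; exact Kr.int_le h (Kr.ae_int i P), fun s j => ?_⟩
  obtain ⟨n1, n2⟩ := Kr.nb_nb h.prime.pos hN j b
  have c : ∀ k, V (![jf (nb l j b), jn N (nb l j b)] k - ![jf b, jn N b] k) < 1 :=
    Fin.forall_fin_two.2 ⟨Kr.core h (a 0) s.1 n1, by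
      have a1 := a 1
      have s2 := s.2
      simp only [jn, Kr.up_eq hN, Matrix.cons_val_one, Matrix.cons_val_zero] at a1 s2 ⊢
      exact Kr.core h a1 s2 n2⟩
  obtain ⟨q1, q2⟩ := Kr.quo h (Kr.poly h a c P).1 u (Kr.poly h a c P).2 (Kr.poly h a c Q).2
  rw [← g2] at q1
  refine ⟨⟨f, g, q1, e⟩, ?_⟩
  rwa [ev_eq q1 e, eb, f2, g2]

end Vale.Agent.P014T.Tg
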