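import Vale.Agent.P014T.Tg.St
import Vale.Agent.P004Z.Ar.Plc

/-! # P014T, block T: the plane model of `X₀(N)` is smooth over a CM point (helper93) -/

set_option autoImplicit false
set_option linter.all false

open UpperHalfPlane CongruenceSubgroup Polynomial
open scoped MatrixGroups Classical

noncomputable section

namespace Vale.Agent.P014T.Tg

open P004Z P004Z.Ar.Fn Vale.Agent.P022.H236.L3 Vale.Agent.P022.H231.L3
open Vale.Agent.P022.H218.L3 hiding pl
open Vale.Agent.P022K.F0.Cf (ev Reg pl ev_mul ev_add ev_jm ev_const reg_jm reg_const)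
open EF (jN)

namespace La

variable {N : ℕ} (hN : 0 < N) (b : ℍ)

theorem val_jN : Reg b (jN N hN) ∧ ev b (jN N hN) = jn N b := by
  have e : jN N hN = _ := pb_inc _ (gl_pos _ (diag_pos hN)) jf_mem
  rw [e, jn, ← dg_coe hN, ofComplex_apply]
  exact ⟨reg_jm b _, ev_jm b _⟩

theorem val_ae (P : MvPolynomial (Fin 2) ℂ) : Reg b (MvPolynomial.aeval ![jM, jN N hN] P) ∧
    ev b (MvPolynomial.aeval ![jM, jN N hN] P) = MvPolynomial.eval ![jf b, jn N b] P := by
  induction P using MvPolynomial.induction_on with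
  | C a => rw [MvPolynomial.aeval_C, MvPolynomial.eval_C]; exact ⟨reg_const b a, ev_const b a⟩
  | add p q hp hq => rw [map_add, map_add, ev_add hp.1 hq.1, hp.2, hq.2]; exact ⟨hp.1.add hq.1, rfl⟩
  | mul_X p i hp =>
    have : Reg b (![jM, jN N hN] i) ∧ ev b (![jM, jN N hN] i) = ![jf b, jn N b] i := by
      fin_cases i
      exacts [⟨reg_j b, ev_j b⟩, val_jN hN b]
    rw [map_mul, map_mul, MvPolynomial.aeval_X, MvPolynomial.eval_X, ev_mul hp.1 this.1, hp.2, this.2]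
    exact ⟨hp.1.mul this.1, rfl⟩

/-- the local ring of the plane model -/
def Lc : Subring Mer where
  carrier := {x | ∃ P Q : MvPolynomial (Fin 2) ℂ, x * MvPolynomial.aeval ![jM, jN N hN] Q =
    MvPolynomial.aeval ![jM, jN N hN] P ∧ MvPolynomial.eval ![jf b, jn N b] Q ≠ 0}
  mul_mem' := fun ⟨P, Q, e, n⟩ ⟨P', Q', e', n'⟩ => ⟨P * P', Q * Q', by
    rw [map_mul, map_mul, ← e, ← e']; ring, by rw [map_mul]; exact mul_ne_zero n n'⟩
  add_mem' := fun ⟨P, Q, e, n⟩ ⟨P', Q', e', n'⟩ => ⟨P * Q' + P' * Q, Q * Q', by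
    simp only [map_mul, map_add, ← e, ← e']; ring, by rw [map_mul]; exact mul_ne_zero n n'⟩
  one_mem' := ⟨1, 1, by simp, by simp⟩
  zero_mem' := ⟨0, 1, by simp, by simp⟩
  neg_mem' := fun ⟨P, Q, e, n⟩ => ⟨-P, Q, by rw [map_neg, ← e, neg_mul], n⟩

variable {b}

theorem lc_ev {x : Mer} (h : Reg b x) {P Q : MvPolynomial (Fin 2) ℂ}
    (e : x * MvPolynomial.aeval ![jM, jN N hN] Q = MvPolynomial.aeval ![jM, jN N hN] P) :
    ev b x * MvPolynomial.eval ![jf b, jn N b] Q = MvPolynomial.eval ![jf b, jn N b] P := by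
  rw [← (val_ae hN b P).2, ← e, ev_mul h (val_ae hN b Q).1, (val_ae hN b Q).2]

theorem lc_top {x : Mer} (m : x ∈ MF ⊤) (h : Reg b x) : x ∈ Lc hN b := by
  obtain ⟨P, Q, n, e⟩ := MF_top_rep m
  have Q0 : Q ≠ 0 := by rintro rfl; exact n (map_zero _)
  obtain ⟨P', Q', g, rfl, rfl, c⟩ : ∃ P' Q' g, P = g * P' ∧ Q = g * Q' ∧ IsCoprime P' Q' :=
    ⟨_, _, _, (EuclideanDomain.mul_div_cancel' (gcd_ne_zero_of_right Q0) (gcd_dvd_left P Q)).symm,
      (EuclideanDomain.mul_div_cancel' (gcd_ne_zero_of_right Q0) (gcd_dvd_right P Q)).symm,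
      isCoprime_div_gcd_div_gcd Q0⟩
  rw [map_mul] at n
  have k (R : ℂ[X]) : MvPolynomial.aeval ![jM, jN N hN] (R.toMvPolynomial 0) = aeval jM R := by
    rw [MvPolynomial.aeval_toMvPolynomial]; rfl
  have k' (R : ℂ[X]) : MvPolynomial.eval ![jf b, jn N b] (R.toMvPolynomial 0) = R.eval (jf b) := by
    rw [MvPolynomial.eval_toMvPolynomial]; rfl
  have e' : x * MvPolynomial.aeval ![jM, jN N hN] (Q'.toMvPolynomial 0) =
      MvPolynomial.aeval ![jM, jN N hN] (P'.toMvPolynomial 0) := by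
    rw [k, k, e, map_mul, map_mul, mul_div_mul_left _ _ (left_ne_zero_of_mul n),
      div_mul_cancel₀ _ (right_ne_zero_of_mul n)]
  refine ⟨_, _, e', fun z => ?_⟩
  have := lc_ev hN h e'
  rw [z, mul_zero, k'] at this
  rw [k'] at z
  obtain ⟨u, v, w⟩ := c
  have w' := congrArg (eval (jf b)) w
  rw [eval_add, eval_mul, eval_mul, z, ← this, eval_one] at w'
  simp at w'

theorem den (g : SL(2, ℤ)) (z : ℍ) :
    ((g • z : ℍ) : ℂ) * (g 1 0 * z + g 1 1) = g 0 0 * z + g 0 1 := by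
  rw [coe_specialLinearGroup_apply]
  exact div_mul_cancel₀ _ (by simpa [denom] using denom_ne_zero (g : GL (Fin 2) ℝ) z)

include hN in
/-- the values of the conjugates of `j_N` at `b` differ from `j (N b)` -/
theorem sep (c : Cm N b) {δ : SL(2, ℤ)} (h : jn N (δ • b) = jn N b) : δ ∈ Gamma0 N := by
  rw [jn, jn, ← dg_coe hN, ← dg_coe hN, ofComplex_apply, ofComplex_apply] at h
  obtain ⟨g, e⟩ := j_inj h.symm
  have e1 := den g (gl _ (diag_pos hN) • b)
  have e2 := den δ b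
  have d1 := g.det_coe
  have d2 := δ.det_coe
  rw [e, dg_coe hN, dg_coe hN] at e1
  rw [Matrix.det_fin_two] at d1 d2
  rw [Gamma0_mem, ZMod.intCast_zmod_eq_zero_iff_dvd]
  generalize δ.1 0 0 = a at *
  generalize δ.1 0 1 = a' at *
  generalize δ.1 1 0 = k at *
  generalize δ.1 1 1 = d at *
  generalize g.1 0 0 = r at *
  generalize g.1 0 1 = f at *
  generalize g.1 1 0 = u at *
  generalize g.1 1 1 = v at *
  have z : ((N ^ 2 * a * u - N * r * k, N * a * v + N ^ 2 * a' * u - N * r * d - f * k,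
      N * a' * v - f * d) : Fm) = 0 := by
    by_contra n
    have := c.big _ n (by
      simp only [evq]
      push_cast
      linear_combination (k * b + d : ℂ) * e1 - N * (u * (N * b) + v) * e2)
    simp only [disc] at this
    have q := sq_nonneg (d * r * N - N ^ 2 * a' * u - k * f + N * a * v)
    have : (N * a * v + N ^ 2 * a' * u - N * r * d - f * k) ^ 2 -
        4 * (N ^ 2 * a * u - N * r * k) * (N * a' * v - f * d) =
        (d * r * N - N ^ 2 * a' * u - k * f + N * a * v) ^ 2 - 4 * N ^ 2 := by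
      linear_combination (-4 * N ^ 2 * (a * d - a' * k)) * d1 - 4 * N ^ 2 * d2
    omega
  simp only [Prod.mk_eq_zero] at z
  obtain ⟨z1, z2, z3⟩ := z
  obtain ⟨p, hp⟩ : ∃ p : ℤ, p = d * r * N - N ^ 2 * a' * u := ⟨_, rfl⟩
  have p1 : p * k = N * (N * u) := by linear_combination k * hp - d * z1 + N ^ 2 * u * d2
  have p2 : (p - N) * (p + N) = 0 := by
    linear_combination (p + (d * r * N - N ^ 2 * a' * u)) * hp -
      (d * r * N - N ^ 2 * a' * u) * z2 - (N * a' * v - f * d) * z1 +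
      N ^ 2 * (a * d - a' * k) * d1 + N ^ 2 * d2
  have n0 : (N : ℤ) ≠ 0 := by omega
  rcases mul_eq_zero.1 p2 with p3 | p3
  · exact ⟨u, mul_left_cancel₀ n0 (by linear_combination p1 - k * p3)⟩
  · exact ⟨-u, mul_left_cancel₀ n0 (by linear_combination -p1 + k * p3)⟩

variable [NeZero N]

local instance fq : Fintype (SL(2, ℤ) ⧸ Gamma0 N) := Fintype.ofFinite _

/-- the conjugates -/
def cq {x : Mer} (m : x ∈ MF (Gamma0 N)) : SL(2, ℤ) ⧸ Gamma0 N → Mer :=
  cj fun _ => act_eq_self m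

/-- the different -/
def dl : Mer := ∏ q ∈ Finset.univ.erase ((1 : SL(2, ℤ)) : SL(2, ℤ) ⧸ Gamma0 N),
  (jN N hN - cq (EF.Gn.jN_mem hN) q)

theorem cq_mk {x : Mer} (m : x ∈ MF (Gamma0 N)) (s : SL(2, ℤ)) : cq m s = act s⁻¹⁻¹ x := by
  rw [inv_inv]; rfl

theorem dl_ne (c : Cm N b) : Reg b (dl hN) ∧ ev b (dl hN) ≠ 0 := by
  refine Finset.prod_induction _ (fun y => Reg b y ∧ ev b y ≠ 0) (fun x y h k =>
    ⟨h.1.mul k.1, by rw [ev_mul h.1 k.1]; exact mul_ne_zero h.2 k.2⟩) ⟨(pl b).one_mem, ?_⟩ ?_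
  · rw [← map_one (algebraMap ℂ Mer), ev_const]
    exact one_ne_zero
  intro q hq
  obtain ⟨s, rfl⟩ := QuotientGroup.mk_surjective q
  have r := (reg_act s⁻¹ b (jN N hN)).2 (val_jN hN _).1
  rw [cq_mk, ev_sub (val_jN hN b).1 r, ev_act, (val_jN hN _).2, (val_jN hN _).2]
  exact ⟨(pl b).sub_mem (val_jN hN b).1 r, fun e => Finset.ne_of_mem_erase hq
    (QuotientGroup.eq.2 (by rw [mul_one]; exact sep hN c (sub_eq_zero.1 e).symm))⟩

theorem cq_mem {x : Mer} (m : x ∈ MF (Gamma0 N)) (h : ∀ z, jf z = jf b → Reg z x)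
    (q : SL(2, ℤ) ⧸ Gamma0 N) :
    cq m q ∈ (MF (Gamma0 N).normalCore).toSubring ⊓ (pl b).toSubring := by
  obtain ⟨s, rfl⟩ := QuotientGroup.mk_surjective q
  refine ⟨act_mem s (fun γ hγ => ?_) m, ?_⟩
  · simpa using hγ s⁻¹
  · rw [cq_mk]
    exact (reg_act s⁻¹ b _).2 (h _ (EF.Qt.jf_smul _ _))

/-- **Lagrange interpolation** -/
theorem lag0 {x : Mer} (m : x ∈ MF (Gamma0 N)) (h : ∀ z, jf z = jf b → Reg z x) :
    x * dl hN ∈ Lc hN b := by
  have mj := EF.Gn.jN_mem hN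
  obtain ⟨G, hG⟩ : ∃ G : Mer[X], G = ∑ q, C (cq m q) *
    ∏ q' ∈ Finset.univ.erase q, (X - C (cq mj q')) := ⟨_, rfl⟩
  have e : G.eval (jN N hN) = x * dl hN := by
    have o : ∀ {y : Mer} (k : y ∈ MF (Gamma0 N)), cq k (1 : SL(2, ℤ)) = y := fun k => by
      rw [cq_mk, inv_inv, map_one, AlgEquiv.one_apply]
    rw [hG, eval_finset_sum, Finset.sum_eq_single_of_mem ((1 : SL(2, ℤ)) : SL(2, ℤ) ⧸ Gamma0 N)
      (Finset.mem_univ _) fun q _ n => ?_]
    · simp only [eval_mul, eval_C, eval_prod, eval_sub, eval_X, o, dl]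
    · rw [eval_mul, eval_prod, Finset.prod_eq_zero (Finset.mem_erase.2 ⟨n.symm, Finset.mem_univ _⟩)
        (by rw [o, eval_sub, eval_X, eval_C, sub_self]), mul_zero]
  have f (γ : SL(2, ℤ)) : G.map ((act γ : Mer ≃ₐ[ℂ] Mer) : Mer →+* Mer) = G := by
    rw [hG, Polynomial.map_sum]
    refine Fintype.sum_equiv (MulAction.toPerm γ) _ _ fun q => ?_
    rw [Polynomial.map_mul, map_C, Polynomial.map_prod]
    refine congrArg₂ _ (congrArg C (act_cj _ γ q)) (Finset.prod_equiv (MulAction.toPerm γ)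
      (fun q' => by simp) fun q' _ => ?_)
    rw [Polynomial.map_sub, map_X, map_C]
    exact congrArg (fun y => X - C y) (act_cj _ γ q')
  have l : G ∈ liftsRing ((MF (Gamma0 N).normalCore).toSubring ⊓ (pl b).toSubring).subtype := by
    rw [hG]
    exact sum_mem fun q _ => mul_mem (C'_mem_lifts ⟨⟨_, cq_mem m h q⟩, rfl⟩) (prod_mem fun q' _ =>
      sub_mem (X_mem_lifts _) (C'_mem_lifts ⟨⟨_, cq_mem mj (fun z _ => (val_jN hN z).1) q'⟩, rfl⟩))
  rw [← e, eval_eq_sum_range]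
  refine sum_mem fun i _ => mul_mem ?_ (pow_mem
    (show jN N hN ∈ Lc hN b from ⟨MvPolynomial.X 1, 1, by simp, by simp⟩) i)
  obtain ⟨⟨y, y1, y2⟩, ey⟩ := (lifts_iff_coeff_lifts G).1 l i
  have := fun γ => congrArg (fun P => P.coeff i) (f γ)
  simp only [coeff_map, ← ey] at this ⊢
  exact lc_top hN (mem_MF_of_fixed ⊤ y1 fun γ _ => this γ) y2

end La

open La in
theorem lag : LAG := fun N hN b c x m h => by
  have : NeZero N := ⟨hN.ne'⟩
  obtain ⟨P, Q, e, n⟩ := lag0 hN m h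
  obtain ⟨P1, Q1, e1, n1⟩ := lag0 (b := b) hN (one_mem _) fun z _ => (pl z).one_mem
  rw [one_mul] at e1
  refine ⟨P * Q1, P1 * Q, by rw [map_mul, map_mul, ← e, ← e1]; ring, ?_⟩
  rw [map_mul, ← lc_ev hN (dl_ne hN c).1 e1]
  exact mul_ne_zero (mul_ne_zero (dl_ne hN c).2 n1) n

end Vale.Agent.P014T.Tg
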