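import Vale.Agent.P014T.Tg.St
import Vale.Agent.P004Z.Ar.Plc

/-! # P014T, block T: the neighbours have the same reduction -/

set_option linter.all false

open UpperHalfPlane CongruenceSubgroup
open scoped MatrixGroups Classical

noncomputable section

namespace Vale.Agent.P014T.Tg

open P004Z P004Z.Ar Vale.Agent.P022.H218.L3 Vale.Agent.P004H.H666
open Vale.Agent.P022K.F0.Cf (ev Reg reg_iff reg_const pl)
open P004Z.Fin (Pk Ov)
open P004Z.H (sp Fo xp_sp)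

namespace Pic

variable {N : ℕ} [NeZero N] {a : ℕ → ℤ} {D : Pz N a} {xm : D.E → Mer}
  (pk : Pk N (D.A : ℂ) (D.B : ℂ) D.pi D.e xm) (x0 : xm 0 = D.x) (e0 : ∀ τ, 0 < D.e τ) {M : D.E}

theorem fib (b : ℍ) : (D.pi '' {z | jf z = jf b}).Finite := by
  refine (Set.finite_range fun q : SL(2, ℤ) ⧸ Gamma0 N => D.pi (q.out⁻¹ • b)).subset ?_
  rintro _ ⟨z, h, rfl⟩
  obtain ⟨γ, rfl⟩ := Fn.j_inj h
  obtain ⟨k, e⟩ := QuotientGroup.mk_out_eq_mul (Gamma0 N) γ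
  exact ⟨γ, by simp only [e, mul_inv_rev, mul_smul, inv_smul_smul, D.pi_inv _ (inv_mem k.2) z]⟩

include pk e0

theorem pole {z : ℍ} (h : Reg z (xm M)) : D.pi z ≠ M := fun e => by
  obtain ⟨Z, hZ⟩ := D.ex_nz
  have := (reg_iff.1 ((pl z).sub_mem h (reg_const z (xp Z)))).resolve_left (sub_ne_zero.2 (pk.ne M _))
  rw [pk.ord M Z z hZ, e, if_neg (by simpa), if_neg (by simpa [eq_sub_iff_add_eq]), if_pos rfl] at this
  have := e0 z
  omega

include x0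

theorem fix {σ c r χ} (h : Act N 1 σ c r χ) (hM : sp σ M = M) :
    c ⟨xm M, pk.mem M⟩ = ⟨xm M, pk.mem M⟩ := by
  refine Subtype.ext (Fn.eq_of_ev (τ := I) ?_)
  filter_upwards [Fn.ev_reg I (xm M)] with z hz zn
  have p := pole pk e0 (hz zn)
  obtain ⟨τ, γ, hγ, rfl⟩ := h.surj z
  rw [D.pi_inv γ hγ] at p
  have e := h.pi_eq D pk x0 e0 τ
  rw [Fn.ev_MF (c _).2 hγ, Fn.ev_MF (pk.mem M) hγ, h.ev_eq, (pk.val M _ p).2,
    (pk.val M τ fun k => p (by rw [e, k, hM])).2, e, ← xp_sp, map_sub, hM]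

theorem one (cong : CONG) (aut : AUT) (red : RED) (ac : ∀ σ, ∃ c r χ, Act N 1 σ c r χ) {b : ℍ}
    (cm : Cm N b) (hM : M ∈ Rt D.A D.B) (hb : M ∉ D.pi '' {z | jf z = jf b}) :
    ∃ L : ℕ, ∀ (l : ℕ) V, L < l → Ov V l → Gr D.A D.B l → Sp N l V b → ∀ j,
      E1 V (D.pi (nb l j b) - D.pi b) ∨ E1 V (D.pi (nb l j b) + D.pi b - 2 • M) := by
  have n : ∀ z, jf z = jf b → D.pi z ≠ M := fun z h e => hb ⟨z, h, e⟩
  obtain ⟨-, L, hL⟩ := cong N b (NeZero.pos N) cm _ (pk.mem M) ((aut N ⟨xm M, pk.mem M⟩ (fun e =>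
    pk.ne M 0 ((congrArg Subtype.val e).trans (map_zero _).symm))).1 fun σ =>
      let ⟨c, r, χ, h⟩ := ac σ; ⟨c, r, χ, h, fix pk x0 e0 h (hM σ)⟩) fun z h => (pk.val M z (n z h)).1
  refine ⟨L, fun l V hl o g s j => ?_⟩
  obtain ⟨h1, h2⟩ := hL l V hl o
  obtain ⟨h2, h3⟩ := h2 s j
  have p := pole pk e0 h2
  rw [(pk.val M b (n b rfl)).2] at h1 h3
  rw [(pk.val M _ p).2] at h3
  have := (red _ _ l V o g).2.2.2.2.1 _ _ (not_or.2 ⟨sub_ne_zero.2 p, not_lt.2 ?_⟩)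
    (not_or.2 ⟨sub_ne_zero.2 (n b rfl), h1.not_gt⟩) h3
  · rwa [sub_sub_sub_cancel_right, sub_add_sub_comm, ← two_nsmul] at this
  · rw [← sub_add_cancel (xp _) (xp (D.pi b - M))]
    exact (o.na _ _).trans (max_le h3.le h1)

end Pic

open Pic in
theorem pic (cong : CONG) (aut : AUT) (red : RED) (sep : SEP) : PIC := by
  intro N _ a D xm b pk x0 e0 ac inf cm _
  obtain ⟨M, m1, m2⟩ := inf.exists_notMem_finite (fib (D := D) b)
  obtain ⟨M', m3, m4⟩ := inf.exists_notMem_finite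
    ((fib (D := D) b).union ((D.fin_tors two_pos).image (· + M)))
  obtain ⟨L, h⟩ := one pk x0 e0 cong aut red ac cm m1 m2
  obtain ⟨L', h'⟩ := one pk x0 e0 cong aut red ac cm m3 fun e => m4 (.inl e)
  obtain ⟨K, k⟩ := sep _ _ (2 • (M' - M)) ((Set.finite_singleton _).subset (by
    rintro _ ⟨σ, rfl⟩
    exact nsmul_mem (sub_mem m3 m1) 2 σ)) fun e => m4 (.inr ⟨_, e, sub_add_cancel _ _⟩)
  refine ⟨L + L' + K + (2 * (4 * D.A ^ 3 + 27 * D.B ^ 2)).natAbs, fun l V hl o s j => ?_⟩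
  have g : Gr D.A D.B l := fun d => by
    have := Nat.le_of_dvd (Int.natAbs_pos.2 (mul_ne_zero two_ne_zero D.par.disc)) (Int.natCast_dvd.1 d)
    omega
  refine (h l V (by omega) o g s j).elim id fun p => (h' l V (by omega) o g s j).resolve_right fun q =>
    k l V (by omega) o ?_
  have := (red _ _ l V o g).1 _ _ p q
  rwa [sub_sub_sub_cancel_left, ← nsmul_sub] at this

end Vale.Agent.P014T.Tg
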