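import Vale.Agent.P014T.Tg.St
import Vale.Agent.P014T.Rb.Vs

/-! # P014T, block T, row VSD: the square of the theta function -/

set_option autoImplicit false
set_option linter.all false

open Filter Topology Complex
open scoped Classical Real ComplexConjugate

noncomputable section

namespace Vale.Agent.P014T.Tg

open Vale.Agent.P004H.H666 Vale.Agent.P004Z Vale.Agent.P004Z.H Vale.Agent.P004Z.Ar
open Vale.Agent.P027H (IsLat wp dwp mem_of_eq)
open Vale.Agent.P014T.Rb.Vn

theorem sq_of {A B : ℤ} (hD' : 16 * (4 * (A : ℂ) ^ 3 + 27 * (B : ℂ) ^ 2) ≠ 0) {Λ : Submodule ℤ ℂ}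
    (hL : IsLat Λ) (ex : ℂ →+ EC A B) (ker : ∀ u, ex u = 0 ↔ u ∈ Λ)
    (xe : ∀ u, u ∉ Λ → xp (ex u) = wp Λ u) {θ : ℂ → ℂ} {b : ℝ} (h : Th Λ θ b) :
    ∃ S : ℂ → ℂ, (∀ u, S u ≠ 0) ∧ S 0 = 1 ∧ (∀ u, u ∉ Λ → S u = θ u ^ 2) ∧
      ∀ u v, cc (ex u) (ex v) * (S u ^ 2 * S v ^ 2) = S (u + v) * S (u - v) := by
  obtain ⟨v0, -, hv, -⟩ := hL.exists_two
  have a := h.an.continuous
  let G : ℂ → ℂ := fun u => θ u ^ 2 * wp Λ v0 - θ (u + v0) * θ (u - v0) / θ v0 ^ 2
  let S : ℂ → ℂ := fun u => if u ∈ Λ then G u else θ u ^ 2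
  have cG : Continuous G := by fun_prop
  have z0 := (h.zero 0).2 Λ.zero_mem
  have S0 : S 0 = 1 := by
    have := h.ne' hv
    simp only [S, G, if_pos Λ.zero_mem, z0, zero_add, zero_sub, h.odd]
    field_simp
    ring
  have ne : ∀ u, S u ≠ 0 := fun u => by
    by_cases k : u ∈ Λ
    · obtain ⟨η, n, -, e⟩ := eta hL h k
      have n0 : η ≠ 0 := fun q => by simp [q] at n
      have := h.ne' hv
      simp only [S, G, if_pos k, (h.zero u).2 k]
      rw [add_comm u, sub_eq_neg_add u, e, e, h.odd]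
      simp [n0, this]
    · simp only [S, if_neg k]
      exact pow_ne_zero _ (h.ne' k)
  have eX : ∀ u, G u = S u * xp (ex u) := fun u => by
    by_cases k : u ∈ Λ
    · simp only [S, if_pos k, (ker u).2 k, xp_zero, mul_one]
    · have := h.ne' k
      have := h.ne' hv
      simp only [S, if_neg k, xe u k, G]
      rw [sub_eq_iff_eq_add.1 (h.sub hL k hv)]
      field_simp
      ring
  have eZ : ∀ u, θ u ^ 2 = S u * zp (ex u) := fun u => by
    by_cases k : u ∈ Λ
    · simp [(ker u).2 k, (h.zero u).2 k]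
    · simp only [S, if_neg k, zp_one (mt (ker u).1 k), mul_one]
  have red : ∀ u v, FF (A : ℂ) B (st (G u) (θ u ^ 2) (G v) (θ v ^ 2)) =
        (cc (ex u) (ex v) * (S u ^ 2 * S v ^ 2)) •
          st (xp (ex (u + v))) (zp (ex (u + v))) (xp (ex (u - v))) (zp (ex (u - v))) ∧
      st (G (u + v)) (θ (u + v) ^ 2) (G (u - v)) (θ (u - v) ^ 2) = (S (u + v) * S (u - v)) •
          st (xp (ex (u + v))) (zp (ex (u + v))) (xp (ex (u - v))) (zp (ex (u - v))) := fun u v => by
    refine ⟨?_, by rw [eX, eX, eZ, eZ, st_smul]⟩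
    rw [eX, eX, eZ, eZ, st_smul, FF_smul, (cc_spec hD' _ _).2, smul_smul, map_add, map_sub]
    congr 1
    ring
  have c2 : Continuous fun u => θ u ^ 2 := by fun_prop
  have gen : ∀ u v, FF (A : ℂ) B (st (G u) (θ u ^ 2) (G v) (θ v ^ 2)) =
      st (G (u + v)) (θ (u + v) ^ 2) (G (u - v)) (θ (u - v) ^ 2) := by
    have cn := Te.cnt hL
    have g1 : ∀ v, v ∉ Λ → ∀ u, FF (A : ℂ) B (st (G u) (θ u ^ 2) (G v) (θ v ^ 2)) =
        st (G (u + v)) (θ (u + v) ^ 2) (G (u - v)) (θ (u - v) ^ 2) := fun v k => by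
      refine congrFun (Continuous.ext_on
        ((cn.union ((cn.image (· - v)).union (cn.image (· + v)))).dense_compl ℂ)
        ((cFF _ _).comp (cst cG c2 continuous_const continuous_const))
        (cst (cG.comp (by fun_prop)) (c2.comp (f := fun u => u + v) (by fun_prop))
          (cG.comp (by fun_prop)) (c2.comp (f := fun u => u - v) (by fun_prop))) fun u hu => ?_)
      have k0 : u ∉ Λ := fun e => hu (Or.inl e)
      have k1 : u + v ∉ Λ := fun e => hu (Or.inr (Or.inl ⟨_, e, add_sub_cancel_right _ _⟩))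
      have k2 : u - v ∉ Λ := fun e => hu (Or.inr (Or.inr ⟨_, e, sub_add_cancel _ _⟩))
      change FF (A : ℂ) B (st (G u) (θ u ^ 2) (G v) (θ v ^ 2)) =
        st (G (u + v)) (θ (u + v) ^ 2) (G (u - v)) (θ (u - v) ^ 2)
      rw [(red u v).1, (red u v).2, cc_aff (mt (ker u).1 k0) (mt (ker v).1 k)
        (map_add ex u v ▸ mt (ker _).1 k1) (map_sub ex u v ▸ mt (ker _).1 k2), xe u k0, xe v k,
        h.sub hL k0 k]
      have := h.ne' k0
      have := h.ne' k
      simp only [S, if_neg k0, if_neg k, if_neg k1, if_neg k2]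
      congr 1
      field_simp
    intro u
    refine congrFun (Continuous.ext_on (cn.dense_compl ℂ)
      ((cFF _ _).comp (cst continuous_const continuous_const cG c2))
      (cst (cG.comp (by fun_prop)) (c2.comp (f := fun v => u + v) (by fun_prop))
        (cG.comp (by fun_prop)) (c2.comp (f := fun v => u - v) (by fun_prop))) fun v hv => g1 v hv u)
  refine ⟨S, ne, S0, fun u k => if_neg k, fun u v => ?_⟩
  have e := gen u v
  rw [(red u v).1, (red u v).2] at e
  exact smul_left_injective ℂ (st_ne (xz_ne _) (xz_ne _)) e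

/-- **Row `VSD`.** -/
theorem vsd : VSD := fun N a D => by
  obtain ⟨θ, b, h⟩ := the _ D.par.lat
  obtain ⟨S, h1, h2, h3, h4⟩ := sq_of (A := D.A) (B := D.B)
    (mul_ne_zero (by norm_num) (by exact_mod_cast D.par.disc)) D.par.lat D.ex D.ker
    (fun u k => by obtain ⟨n, e⟩ := D.xy u k; rw [e]; rfl) h
  exact ⟨θ, b, S, h, h1, h2, h3, h4⟩

end Vale.Agent.P014T.Tg
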