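import Vale.Agent.P014T.Tg.T2
import Vale.Agent.P014T.Tg.Vsd
import Vale.Agent.P014T.Tg.Kro
import Vale.Agent.P014T.Tg.Lag
import Vale.Agent.P014T.Tg.Dsc
import Vale.Agent.P014T.Tg.Pic

/-! # P014T, block T: the geometric half, closed -/

namespace Vale.Agent.P014T.Tg

theorem t2_all : T2 := t2 vsd (cong lag dsc) (pic (cong lag dsc) aut red sep)

end Vale.Agent.P014T.Tg
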