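import Vale.Agent.P014T.Tg.Tk1
import Vale.Agent.P014T.Tg.St2
import Vale.Agent.P014T.Z.Ker1

/-!
# P014T, block T: row TK (helper41)
-/

set_option autoImplicit false
set_option linter.all false

open Finset
open scoped NumberTheorySymbols Classical

noncomputable section

namespace Vale.Agent.P014T.Tg

open P004Z P004Z.Kf P014T.Z Tk

theorem ka_kz {N : ℕ} (p d : ℕ) (β : ℤ) (q n : ℕ) (r : ZMod (2 * N)) :
    ka1 p d β q n r = kz (tv p (ps N p d (β * r))) (p ^ 4 * d * n) q := by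
  rw [ka1, kz, ← sum_Fs, mul_sum]
  simp only [Int.natAbs_natCast]

theorem pr_uq' {N : ℕ} [NeZero N] (p : ℕ) (ι : ℕ → ℕ → ZMod (2 * N) → ℚ) (q : ℕ) (c : PP N) :
    pr (fun n r => (ι q n r : ℂ)) (U1 p c) = pr (fun n r => (uq p ι q n r : ℂ)) c := by
  have e : (fun n r => (uq p ι q n r : ℂ)) = TT 1 p (fun n r => (ι q n r : ℂ)) +
      (-(p + 1) : ℂ) • fun n r => (ι q n r : ℂ) := by
    funext n r
    simp only [uq, TT, Pi.add_apply, Pi.smul_apply, smul_eq_mul, Nat.cast_one, one_mul,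
      jacobiSym.one_right]
    split_ifs <;> push_cast <;> ring
  rw [e, Gl.add_pr, Gl.smul_pr, ← Gl.pr_tt, U1, LinearMap.sub_apply, sub_eq_add_neg, Gl.pr_add,
    LinearMap.smul_apply, ← _root_.neg_smul, Gl.pr_smul]
  rfl

/-- **row TK** -/
theorem tk_row (K : KL1) : TK := fun N _ p d l m β W w h hl hn hW h0 hw c hc hs => by
  obtain ⟨β', t, w', k1, k2, -⟩ := K N p d _ 4 β h (dvd_pow_self _ four_ne_zero) dvd_rfl
  have hM : 2 * N * p ^ 4 ∣ (2 * N * p) ^ 4 := ⟨(2 * N) ^ 3, by ring⟩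
  have hS := K1.sp_of h k2
  have o := fun n hD r => one_cf h.pr.ne_zero h.dat.sq hS.m4 hl hn hW h0 hw (β := β) (n := n)
    (fun r n k hk => K1.pg_eq h.toPz1 hM hS k1 r ▸ ((K1.cd h hM hS k1).iv r hk).1) hD r
  choose e he using hc
  have l1 := hl.one_lt
  have l2 := pow_pos hl.pos 2
  have d0 : 0 < p ^ 4 * d := mul_pos (pow_pos h.pr.pos 4) (by have := hS.big; omega)
  refine ⟨∑ i ∈ c.support, e i * Fw p d l β w i.1 i.2, fun q => ∑ i ∈ c.support, e i *
    (kz (tv p (ps N p d (β * (l * i.2)))) (p ^ 4 * d * (l ^ 2 * i.1)) q + (J(-i.1 | l) - (l + 1)) *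
      kz (tv p (ps N p d (β * i.2))) (p ^ 4 * d * i.1) q), (range (l ^ 3)).filter Nat.Prime,
    by simp [pr, Finsupp.sum, he], fun q => ?_, fun q hq => (mem_filter.1 hq).2, fun q hq =>
      sum_eq_zero fun i hi => ?_, ?_⟩
  · rw [pr_uq', pr, Finsupp.sum, Int.cast_sum]
    refine sum_congr rfl fun i hi => ?_
    have := hs i hi
    rw [he, Int.cast_mul, uq, ite_eq_right_iff.2 fun k => ?_]
    · simp only [ka_kz]
      push_cast
      ring
    · rw [Nat.eq_zero_of_dvd_of_lt k (by nlinarith), Nat.zero_div, ka_kz, mul_zero, kz_nil]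
      simp
  · have := hs i hi
    rw [kz_zero _ (by nlinarith) hq, kz_zero _ (by nlinarith) hq, mul_zero, add_zero, mul_zero]
  · simp only [Int.cast_sum, Int.cast_mul _ (_ + _), sum_mul, mul_assoc (_ : ZMod m)]
    rw [sum_comm]
    exact sum_congr rfl fun i hi => by rw [Int.cast_mul, o _ (hs i hi), mul_sum]

end Vale.Agent.P014T.Tg

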