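import Vale.Agent.P014T.Tg.Top
import Vale.Agent.P014T.Tg.T2c
import Vale.Agent.P014T.Tg.Tk

/-! # P014T, block T: the tame formula of Gross and Zagier, closed -/

namespace Vale.Agent.P014T.Tg

theorem tgz_all : TGZ := tgz t2_all (tk_row Z.kl1)

end Vale.Agent.P014T.Tg
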