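import Vale.Agent.P014T.Tg.St

/-! # P014T, block T: rows FIX and AUT -/

set_option autoImplicit false
set_option linter.all false

open UpperHalfPlane CongruenceSubgroup
open scoped MatrixGroups Classical

noncomputable section

namespace Vale.Agent.P014T.Tg

open P004Z P004Z.Ar Vale.Agent.P022.H218.L3 Vale.Agent.P022.H236.L3 Vale.Agent.P022.H231.L3
  Vale.Agent.P022.H542.L3
open P004Z.EF P004Z.EF.Gn

theorem fix : FIX := fun z h => by
  obtain ⟨x, rfl⟩ := H.ex_io (H.alg_of_fin ((Set.finite_singleton z).subset (by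
    rintro _ ⟨σ, rfl⟩
    exact h σ)))
  have := H.gal
  obtain ⟨q, hq⟩ := (InfiniteGalois.mem_range_algebraMap_iff_fixed x).2 fun g => by
    obtain ⟨σ, e⟩ := H.ex_ext g
    exact H.io.injective ((e x).symm.trans (h σ))
  exact ⟨q, by rw [← hq, AlgHom.commutes]; rfl⟩

namespace Au

theorem cm_ae (σ : ℂ ≃+* ℂ) {t : Fin 2 → LS} (hi : ∀ i, t i ∈ CS ⊥) (P : MvPolynomial (Fin 2) ℂ) :
    cm σ (MvPolynomial.aeval t P) = MvPolynomial.aeval t (MvPolynomial.map (σ : ℂ →+* ℂ) P) := by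
  induction P using MvPolynomial.induction_on with
  | C a => rw [MvPolynomial.map_C, MvPolynomial.aeval_C, MvPolynomial.aeval_C, algMap_ls,
      algMap_ls, cm_C]; rfl
  | add p q hp hq => simp only [map_add, hp, hq]
  | mul_X p i hp =>
    simp only [map_mul, hp, MvPolynomial.map_X, MvPolynomial.aeval_X]
    refine congrArg _ ?_
    ext n
    obtain ⟨z, hz⟩ := Subring.mem_bot.1 (hi i n)
    rw [coeff_cm, ← hz, map_intCast]

theorem ex_s {N : ℕ} (hN : 0 < N) (f : MF (Gamma0 N)) : ∃ s, ExM 1 s (f : Mer) := by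
  obtain ⟨t, ht, -⟩ := ex_js hN
  obtain ⟨P, Q, e⟩ := (rep hN).1 f.2
  exact ⟨_, e ▸ (exM_aeval ht P).div one_ne_zero (exM_aeval ht Q)⟩

/-- the action on functions is the action on the coefficients -/
theorem act_ex {N δ : ℕ} (hN : 0 < N) {σ : ℂ ≃+* ℂ} {c : MF (Gamma0 N) ≃+* MF (Gamma0 N)}
    {r : ℍ → ℍ} {χ : ℤ} (h : Act N δ σ c r χ) (f : MF (Gamma0 N)) {s : LS}
    (hs : ExM 1 s (f : Mer)) : ExM 1 (cm σ s) (c f : Mer) := by
  obtain ⟨t, ht, hi⟩ := ex_js hN
  let v : Fin 2 → MF (Gamma0 N) := ![jK N, ⟨jN N hN, jN_mem hN⟩]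
  have v1 : ∀ i, (v i : Mer) = ![jM, jN N hN] i := Fin.forall_fin_two.2 ⟨rfl, rfl⟩
  have v2 : ∀ i, c (v i) = v i := fun i => h.rat _ _ (v1 i ▸ ht i) fun n => by
    obtain ⟨z, hz⟩ := Subring.mem_bot.1 (hi i n)
    exact ⟨z, by rw [← hz, Rat.cast_intCast]⟩
  have v3 (P : MvPolynomial (Fin 2) ℂ) : ((MvPolynomial.aeval v P : MF (Gamma0 N)) : Mer) =
      MvPolynomial.aeval ![jM, jN N hN] P := by
    rw [← funext v1]
    exact MvPolynomial.comp_aeval_apply (φ := (MF (Gamma0 N)).val) v P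
  have v4 (P : MvPolynomial (Fin 2) ℂ) : c (MvPolynomial.aeval v P) =
      MvPolynomial.aeval v (MvPolynomial.map (σ : ℂ →+* ℂ) P) := by
    induction P using MvPolynomial.induction_on with
    | C a => rw [MvPolynomial.map_C, MvPolynomial.aeval_C, MvPolynomial.aeval_C, h.cst]; rfl
    | add p q hp hq => simp only [map_add, hp, hq]
    | mul_X p i hp => simp only [map_mul, hp, MvPolynomial.map_X, MvPolynomial.aeval_X, v2]
  obtain ⟨P, Q, e⟩ := (rep hN).1 f.2
  have e' : f = MvPolynomial.aeval v P / MvPolynomial.aeval v Q :=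
    Subtype.ext (by rw [e, ← v3, ← v3]; rfl)
  rw [hs.unique one_ne_zero (e ▸ (exM_aeval ht P).div one_ne_zero (exM_aeval ht Q)), map_div₀,
    cm_ae σ hi, cm_ae σ hi, e', map_div₀, v4, v4]
  have := (exM_aeval ht (MvPolynomial.map (σ : ℂ →+* ℂ) P)).div one_ne_zero
    (exM_aeval ht (MvPolynomial.map (σ : ℂ →+* ℂ) Q))
  rwa [← v3, ← v3] at this

end Au

open Au

theorem aut : AUT := fun N _ f f0 => by
  have hN := NeZero.pos N
  obtain ⟨s, hs⟩ := ex_s hN f
  refine ⟨fun h => ⟨s, hs, fun n => (fix _ fun σ => ?_).imp fun _ e => e.symm⟩, fun h => ?_⟩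
  · obtain ⟨c, r, χ, a, e⟩ := h σ
    have := act_ex hN a f hs
    rw [e] at this
    rw [← coeff_cm, this.unique one_ne_zero hs]
  · have s0 : s ≠ 0 := fun e => f0 (Subtype.ext (P027M.M.Exp.inj hs (by
      simpa [e] using ExM.const 1 0)))
    have a0 : s.coeff s.order ≠ 0 := HahnSeries.coeff_order_eq_zero.not.2 s0
    refine ⟨_, inv_ne_zero a0, _, (ExM.const 1 _).mul hs,
      fun n => (fix _ fun σ => ?_).imp fun _ e => e.symm⟩
    obtain ⟨c, r, χ, κ, a, e⟩ := h σ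
    have := act_ex hN a f hs
    rw [e] at this
    have k (m : ℤ) : σ (s.coeff m) = κ * s.coeff m := by
      rw [← coeff_cm, this.unique one_ne_zero ((ExM.const 1 κ).mul hs), HahnSeries.C_apply,
        HahnSeries.coeff_single_zero_mul]
    have k0 : κ ≠ 0 := fun z => (map_ne_zero σ).2 a0 (by rw [k, z, zero_mul])
    rw [HahnSeries.C_apply, HahnSeries.coeff_single_zero_mul, map_mul, map_inv₀, k, k]
    field_simp

end Vale.Agent.P014T.Tg
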