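import Vale.Agent.P014T.Gx.Glu

/-! # P014T, block T: an integral principal part which is dual to the eigenforms -/

set_option linter.all false

open Complex UpperHalfPlane
open scoped ComplexConjugate NumberTheorySymbols

noncomputable section

namespace Vale.Agent.P014T.Tg.Ci

open P004N (RN)
open P004Z P004Z.Lf P004Z.Gl Gx

variable {N : ℕ} [NeZero N] {d S : ℕ} {ρ : ZMod (2 * N)} {G : ℍ → ℂ} {a : ℕ → ℤ}

/-- a rational form of an array -/
def ra (μ : ℂ →ₗ[ℚ] ℚ) (y : Cf N) : Cf N := fun n r => μ (y n r)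

/-- a rational form of a principal part -/
def rp (μ : ℂ →ₗ[ℚ] ℚ) (c : PP N) : PP N := c.mapRange (fun z => (μ z : ℂ)) (by simp)

theorem mu_mul (μ : ℂ →ₗ[ℚ] ℚ) (q : ℚ) (z : ℂ) : μ (q * z) = q * μ z := by
  rw [← Rat.smul_def, map_smul, smul_eq_mul]

theorem mu_int (μ : ℂ →ₗ[ℚ] ℚ) (q : ℤ) (z : ℂ) : μ (q * z) = q * μ z := by
  simpa using mu_mul μ q z

theorem sep {z : ℂ} (h : ∀ μ : ℂ →ₗ[ℚ] ℚ, μ z = 0) : z = 0 :=
  (Module.forall_dual_apply_eq_zero_iff ℚ z).1 h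

theorem key (μ ν : ℂ →ₗ[ℚ] ℚ) (y : Cf N) (c : PP N) :
    μ (pr y (rp ν c)) = ν (pr (ra μ y) c) := by
  rw [pr, rp, Finsupp.sum_mapRange_index (by simp), pr, Finsupp.sum, Finsupp.sum, map_sum, map_sum]
  refine Finset.sum_congr rfl fun i _ => ?_
  rw [mu_mul, ra, mul_comm (c i), mu_mul, mul_comm]

theorem ra_pr (μ : ℂ →ₗ[ℚ] ℚ) (y : Cf N) {c : PP N} (hc : IsInt c) :
    pr (ra μ y) c = μ (pr y c) := by
  choose k hk using hc
  simp only [pr, Finsupp.sum, hk, map_sum, mu_int, ra]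
  push_cast
  rfl

theorem ra_s (μ : ℂ →ₗ[ℚ] ℚ) {y : Cf N} (hy : IsS 1 y) : IsS 1 (ra μ y) :=
  serre1 (fun r => by simp [ra, hy.zero]) (fun n r h => hy.sup n r fun e => h (by simp [ra, e]))
    (fun n r => by simp [ra, (pets1 hy).1, eps_one]) fun c hc => by
      obtain ⟨b, hb⟩ := id hc
      have : pet (fn y) (fn (0 : Cf N)) = 0 := by simp [pet, fn]
      rw [ra_pr μ y (WH.int hc), (pair1 hb).2 y hy, this, map_zero, Rat.cast_zero]

theorem ra_tt (μ : ℂ →ₗ[ℚ] ℚ) (l : ℕ) (y : Cf N) : ra μ (TT 1 l y) = TT 1 l (ra μ y) := by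
  funext n r
  have := mu_int μ l
  simp only [Int.cast_natCast] at this
  simp only [ra, TT, map_add, mu_int]
  split_ifs <;> simp [this]

theorem ra_eig (μ : ℂ →ₗ[ℚ] ℚ) {y : Cf N} (he : Eig 1 S a y) : Eig 1 S a (ra μ y) :=
  fun l hl h => by
    rw [← ra_tt, he l hl h]
    funext n r
    simp [ra, mu_int]

theorem rp_mm (μ : ℂ →ₗ[ℚ] ℚ) {c : PP N} (hc : c ∈ MM N 1 d) : rp μ c ∈ MM N 1 d := by
  have : ∀ z : ℂ, rp μ (z • c) ∈ MM N 1 d := by
    induction hc using Submodule.span_induction with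
    | mem c h =>
      intro z
      have : rp μ (z • c) = (μ z : ℂ) • c := by
        obtain ⟨i, -, rfl⟩ := h
        ext j
        obtain ⟨k, hk⟩ := bb_int (δ := 1) i j
        simp only [rp, Finsupp.mapRange_apply, Finsupp.smul_apply, hk, smul_eq_mul]
        rw [mul_comm, mu_int]
        push_cast
        ring
      exact this ▸ Submodule.smul_mem _ _ (Submodule.subset_span h)
    | zero => intro z; simp [rp]
    | add c c' _ _ h h' =>
      intro z
      have : rp μ (z • (c + c')) = rp μ (z • c) + rp μ (z • c') := by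
        ext j
        simp [rp, mul_add]
      exact this ▸ add_mem (h z) (h' z)
    | smul k c _ h => intro z; rw [smul_smul]; exact h _
  simpa using this 1

theorem den (μ : ℂ →ₗ[ℚ] ℚ) (c : PP N) : ∃ k : ℕ, 0 < k ∧ IsInt ((k : ℂ) • rp μ c) := by
  refine ⟨∏ i ∈ c.support, (μ (c i)).den, Finset.prod_pos fun i _ => Rat.den_pos _, fun i => ?_⟩
  by_cases h : i ∈ c.support
  · obtain ⟨m, hm⟩ := Finset.dvd_prod_of_mem (fun i => (μ (c i)).den) h
    refine ⟨m * (μ (c i)).num, ?_⟩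
    have := congrArg (Rat.cast : ℚ → ℂ) (Rat.den_mul_eq_num (μ (c i)))
    simp only [Finsupp.smul_apply, hm, rp, Finsupp.mapRange_apply, smul_eq_mul]
    push_cast at this ⊢
    linear_combination m * this
  · exact ⟨0, by simp [rp, Finsupp.notMem_support_iff.1 h]⟩

/-- **an integral principal part off the squares which is an eigenvector and evaluates the
eigenforms at the index `(d, ρ)`** -/
theorem cint (h : Du1 N d ρ) (hG : RN N G a) (hS : S ≠ 0) (h2 : 2 * N ∣ S) :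
    ∃ (k : ℕ) (c : PP N), 0 < k ∧ c ∈ MM N 1 d ∧ IsInt c ∧
      (∀ l : ℕ, l.Prime → ¬ l ∣ 2 * N → ∀ y, IsS 1 y → pr y (Tt 1 l c) = a l * pr y c) ∧
      ∀ x, IsS 1 x → Eig 1 S a x → pr x c = k * x d ρ := by
  set t := conj ((cS N 1 d * pet2 N G G)⁻¹) with ht
  have hs := Wl.isS_smul t (sn_s1 h hG.s2)
  have he : Eig 1 (2 * N) a (t • sn d ρ G) := by
    simpa using eig_comb t (sn_eig2 h hG) (y := 0) fun l _ _ => by
      funext n r
      simp [TT]
  obtain ⟨c, hc, e⟩ := ex_c1 h hG (S := 2 * N) (mul_ne_zero two_ne_zero (NeZero.ne N)) dvd_rfl hs he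
  obtain ⟨ν, hν⟩ : ∃ ν : ℂ →ₗ[ℚ] ℚ, ν 1 = 1 := by
    obtain ⟨ν, hν⟩ := not_forall.1 fun q => one_ne_zero (sep (z := 1) q)
    exact ⟨(ν 1)⁻¹ • ν, by simp [hν]⟩
  obtain ⟨k, hk, hi⟩ := den ν c
  refine ⟨k, _, hk, Submodule.smul_mem _ _ (rp_mm ν hc), hi, fun l hl h1 y hy => ?_,
    fun x hx ex => ?_⟩
  · rw [pr_tt, pr_smul, pr_smul, mul_left_comm]
    congr 1
    refine sub_eq_zero.1 (sep fun μ => ?_)
    rw [map_sub, mu_int, key, key, ra_tt, e _ (hecke1 hl h1 (ra_s μ hy)),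
      B_tt1 hs he (ra_s μ hy) hl h1 h1, mu_int, e _ (ra_s μ hy), sub_self]
  · rw [pr_smul]
    congr 1
    refine sub_eq_zero.1 (sep fun μ => ?_)
    obtain ⟨p, w⟩ := ax0 N
    have n := w.cS (d := d) ▸ cS_ne (h.dual w)
    have n' := pet2_ne hG
    have q : B (ra μ x) (t • sn d ρ G) = (μ (x d ρ) : ℚ) * 1 := by
      rw [B_conj, B_smul, B_conj _ (sn d ρ G), sn_B1 h hG hS (ra_s μ hx) (ra_eig μ ex), ht,
        ← map_mul, conj_conj, ra]
      field_simp
    rw [map_sub, key, e _ (ra_s μ hx), q, mu_mul, hν, mul_one, sub_self]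

end Vale.Agent.P014T.Tg.Ci
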