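import Vale.Agent.P014T.Tg.St

/-! # P014T, block T: reduction of points -/

set_option autoImplicit false
set_option linter.all false

open Real
open scoped Classical

noncomputable section

namespace Vale.Agent.P014T.Tg

open P004Z P004Z.Ar Vale.Agent.P004H.H666 P004M.TE
open P004Z.Fin (Ov)
open P004Z.H

namespace Rd

variable {V : AbsoluteValue ℂ ℝ} {l : ℕ}

/-- congruent integers -/
structure Cg (V : AbsoluteValue ℂ ℝ) (a b : ℂ) : Prop where
  le : V a ≤ 1
  lt : V (a - b) < 1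

theorem add_lt (h : Ov V l) {x y : ℂ} (a : V x < 1) (b : V y < 1) : V (x + y) < 1 :=
  (h.na x y).trans_lt (max_lt a b)

theorem add_le (h : Ov V l) {x y : ℂ} (a : V x ≤ 1) (b : V y ≤ 1) : V (x + y) ≤ 1 :=
  (h.na x y).trans (max_le a b)

theorem mul_lt {x y : ℂ} (a : V x ≤ 1) (b : V y < 1) : V (x * y) < 1 := by
  rw [map_mul]
  exact mul_lt_one_of_nonneg_of_lt_one_right a (V.nonneg _) b

theorem of_ndvd (h : Ov V l) {n : ℤ} (d : ¬ (l : ℤ) ∣ n) : V n = 1 := by
  refine le_antisymm h.na.apply_intCast_le_one (not_lt.1 fun e => ?_)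
  obtain ⟨a, b, hab⟩ := (Nat.prime_iff_prime_int.1 h.prime).irreducible.coprime_iff_not_dvd.2 d
  have e1 : ((a * l + b * n : ℤ) : ℂ) = 1 := by rw [hab, Int.cast_one]
  have := add_lt h (mul_lt (x := a) h.na.apply_intCast_le_one h.lt)
    (mul_lt (x := b) h.na.apply_intCast_le_one e)
  push_cast at e1
  rw [e1, map_one] at this
  exact this.false

namespace Cg

variable {a b c d : ℂ}

theorem rfl' (h : V a ≤ 1) : Cg V a a := ⟨h, by simp⟩

theorem one : Cg V 1 1 := rfl' (by simp)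

theorem zero (h : V a < 1) : Cg V a 0 := ⟨h.le, by simpa using h⟩

theorem small (k : Cg V a 0) : V a < 1 := by simpa using k.lt

theorem of_eq (k : Cg V a b) (e : a = c) (e' : b = d) : Cg V c d := e ▸ e' ▸ k

variable (h : Ov V l)
include h

theorem int (n : ℤ) : Cg V n n := rfl' h.na.apply_intCast_le_one

theorem le' (k : Cg V a b) : V b ≤ 1 := by
  have := add_le h k.le (show V (-(a - b)) ≤ 1 by rw [V.map_neg]; exact k.lt.le)
  rwa [show a + -(a - b) = b by ring] at this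

theorem symm (k : Cg V a b) : Cg V b a := ⟨k.le' h, by rw [V.map_sub]; exact k.lt⟩

theorem trans (k : Cg V a b) (k' : Cg V b c) : Cg V a c :=
  ⟨k.le, by simpa using add_lt h k.lt k'.lt⟩

theorem add (k : Cg V a b) (k' : Cg V c d) : Cg V (a + c) (b + d) :=
  ⟨add_le h k.le k'.le, by rw [add_sub_add_comm]; exact add_lt h k.lt k'.lt⟩

theorem mul (k : Cg V a b) (k' : Cg V c d) : Cg V (a * c) (b * d) :=
  ⟨by rw [map_mul]; exact mul_le_one₀ k.le (V.nonneg _) k'.le, by
    rw [show a * c - b * d = a * (c - d) + d * (a - b) by ring]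
    exact add_lt h (mul_lt k.le k'.lt) (mul_lt (k'.le' h) k.lt)⟩

theorem sub (k : Cg V a b) (k' : Cg V c d) : Cg V (a - c) (b - d) :=
  (k.add h ((int h (-1)).mul h k')).of_eq (by push_cast; ring) (by push_cast; ring)

theorem sq (k : Cg V a b) : Cg V (a ^ 2) (b ^ 2) := (k.mul h k).of_eq (by ring) (by ring)

theorem two : Cg V 2 2 := (int h 2).of_eq (by simp) (by simp)

theorem four : Cg V 4 4 := (int h 4).of_eq (by simp) (by simp)

theorem unit (k : Cg V a b) (e : V b = 1) : V a = 1 := by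
  refine le_antisymm k.le (not_lt.1 fun e' => ?_)
  exact (((k.symm h).trans h (zero e')).small).ne e

theorem FF (A B : ℤ) {x y : Fin 3 → ℂ} (k : ∀ i, Cg V (x i) (y i)) (i : Fin 3) :
    Cg V (FF (A : ℂ) B x i) (FF (A : ℂ) B y i) := by
  have a := int h A
  have b := (four h).mul h (int h B)
  fin_cases i
  · exact (((k 0).sub h (a.mul h (k 2))).sq h).sub h ((b.mul h (k 1)).mul h (k 2))
  · exact (((two h).mul h ((k 0).add h (a.mul h (k 2)))).mul h (k 1)).add h (b.mul h ((k 2).sq h))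
  · exact ((k 1).sq h).sub h (((four h).mul h (k 0)).mul h (k 2))

theorem st {x z x' z' y w y' w' : ℂ} (k1 : Cg V x y) (k2 : Cg V z w) (k3 : Cg V x' y')
    (k4 : Cg V z' w') (i : Fin 3) : Cg V (st x z x' z' i) (st y w y' w' i) := by
  fin_cases i
  · exact k1.mul h k3
  · exact (k1.mul h k4).add h (k2.mul h k3)
  · exact k2.mul h k4

theorem canc {u u' : ℂ} (hu : V u = 1) (ha : V a ≤ 1) (hb : V b ≤ 1) (k : Cg V u u')
    (k' : Cg V (a * u) (b * u')) : Cg V a b := by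
  refine ⟨ha, ?_⟩
  have := (k'.trans h ((rfl' hb).mul h (k.symm h))).lt
  rwa [← sub_mul, map_mul, hu, mul_one] at this

end Cg

variable {A B : ℤ}

/-- primitive coordinates -/
def cx (V : AbsoluteValue ℂ ℝ) (P : EC A B) : ℂ := nu V P * xp P

/-- primitive coordinates -/
def cz (V : AbsoluteValue ℂ ℝ) (P : EC A B) : ℂ := nu V P * zp P

theorem xp0 : xp (0 : EC A B) = 1 := rfl

theorem zp0 : zp (0 : EC A B) = 0 := rfl

theorem nu_ne (P : EC A B) : nu V P ≠ 0 := by
  unfold nu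
  split_ifs with h
  · exact inv_ne_zero fun e => by simp [e, not_lt.2 zero_le_one] at h
  · exact one_ne_zero

theorem of_e1 {P : EC A B} (h : E1 V P) : cx V P = 1 ∧ V (cz V P) < 1 := by
  by_cases h0 : P = 0
  · subst h0
    simp [cx, cz, nu, xp0, zp0]
  · have h1 := h.resolve_left h0
    have n : xp P ≠ 0 := fun e => by simp [e, not_lt.2 zero_le_one] at h1
    rw [cx, cz, nu, if_pos h1, zp_one h0, mul_one, map_inv₀]
    exact ⟨inv_mul_cancel₀ n, inv_lt_one_of_one_lt₀ h1⟩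

theorem of_ne1 {P : EC A B} (h : ¬ E1 V P) : cx V P = xp P ∧ V (xp P) ≤ 1 ∧ cz V P = 1 := by
  rw [E1, not_or] at h
  rw [cx, cz, nu, if_neg h.2, zp_one h.1]
  exact ⟨one_mul _, not_lt.1 h.2, one_mul _⟩

theorem e1_of {P : EC A B} (h : V (cz V P) < 1) : E1 V P := by
  by_contra e
  rw [(of_ne1 e).2.2, map_one] at h
  exact h.false

theorem cx_le (P : EC A B) : Cg V (cx V P) (cx V P) := by
  by_cases h : E1 V P
  · rw [(of_e1 h).1]
    exact Cg.one
  · rw [(of_ne1 h).1]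
    exact Cg.rfl' (of_ne1 h).2.1

theorem cz_le (P : EC A B) : Cg V (cz V P) (cz V P) := by
  by_cases h : E1 V P
  · exact Cg.rfl' (of_e1 h).2.le
  · rw [(of_ne1 h).2.2]
    exact Cg.one

theorem cx_one {P : EC A B} (h : E1 V P) : Cg V (cx V P) 1 := Cg.one.of_eq (of_e1 h).1.symm rfl

theorem cz_zero {P : EC A B} (h : E1 V P) : Cg V (cz V P) 0 := Cg.zero (of_e1 h).2

theorem cz_one {P : EC A B} (h : ¬ E1 V P) : Cg V (cz V P) 1 :=
  Cg.one.of_eq (of_ne1 h).2.2.symm rfl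

/-- the symmetric product of primitive coordinates -/
def ss (V : AbsoluteValue ℂ ℝ) (P Q : EC A B) : Fin 3 → ℂ := st (cx V P) (cz V P) (cx V Q) (cz V Q)

theorem ss_eq (P Q : EC A B) : ss V P Q = (nu V P * nu V Q) • st (xp P) (zp P) (xp Q) (zp Q) := by
  ext i
  fin_cases i <;> simp [ss, st, cx, cz] <;> ring

variable (h : Ov V l)
include h

theorem ss_le (P Q : EC A B) (i : Fin 3) : V (ss V P Q i) ≤ 1 :=
  (Cg.st h (cx_le P) (cz_le P) (cx_le Q) (cz_le Q) i).le

theorem ss_unit (P Q : EC A B) : ∃ i, V (ss V P Q i) = 1 := by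
  by_cases a : E1 V P <;> by_cases b : E1 V Q
  · exact ⟨0, (Cg.st h (cx_one a) (cz_zero a) (cx_one b) (cz_zero b) 0).unit h (by simp [st])⟩
  · exact ⟨1, (Cg.st h (cx_one a) (cz_zero a) (cx_le Q) (cz_one b) 1).unit h (by simp [st])⟩
  · exact ⟨1, (Cg.st h (cx_le P) (cz_one a) (cx_one b) (cz_zero b) 1).unit h (by simp [st])⟩
  · exact ⟨2, (Cg.st h (cx_le P) (cz_one a) (cx_le Q) (cz_one b) 2).unit h (by simp [st])⟩

theorem ss_nm (P Q : EC A B) : nm V (ss V P Q) = 1 := by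
  obtain ⟨i, hi⟩ := ss_unit h P Q
  obtain ⟨j, hj⟩ := ex_nm (v := V) (ss V P Q)
  exact le_antisymm (hj ▸ ss_le h P Q j) (hi ▸ le_nm _ i)

variable (g : Gr A B l)
include g

theorem sz : Sz V (A : ℂ) (B : ℂ) 1 := by
  refine sz_one h.na h.na.apply_intCast_le_one h.na.apply_intCast_le_one ?_
  have h1 := of_ndvd h g
  have h2 := of_ndvd h (n := 2) fun e => g (e.mul_right _)
  push_cast at h1 h2
  rw [show (16 : ℂ) * (4 * A ^ 3 + 27 * B ^ 2) = 2 ^ 3 * (2 * (4 * A ^ 3 + 27 * B ^ 2)) by ring,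
    map_mul, map_pow, h1, h2]
  simp

theorem ff (P Q : EC A B) (i : Fin 3) :
    FF (A : ℂ) B (ss V P Q) i = cr V P Q * ss V (P + Q) (P - Q) i := by
  have n1 := nu_ne (V := V) (P + Q)
  have n2 := nu_ne (V := V) (P - Q)
  rw [ss_eq, FF_smul, (cc_spec (sz h g).ne P Q).2, ss_eq, cr]
  simp only [Pi.smul_apply, smul_eq_mul]
  field_simp

theorem cr_unit (P Q : EC A B) : V (cr V P Q) = 1 := by
  obtain ⟨n, hn⟩ := (sz h g).core
  obtain ⟨a, b⟩ := hn _ (ss_nm h P Q)
  rw [show FF (A : ℂ) B (ss V P Q) = cr V P Q • ss V (P + Q) (P - Q) from funext (ff h g P Q),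
    nm_smul, ss_nm h, one_pow, mul_one] at a b
  rw [one_mul] at b
  exact le_antisymm a b

theorem key {Q : EC A B} (b : E1 V Q) (P : EC A B) :
    Cg V (cr V P Q * (cx V (P + Q) * cx V (P - Q))) (cx V P ^ 2) ∧
    Cg V (cr V P Q * (cx V (P + Q) * cz V (P - Q) + cz V (P + Q) * cx V (P - Q)))
      (2 * cx V P * cz V P) ∧
    Cg V (cr V P Q * (cz V (P + Q) * cz V (P - Q))) (cz V P ^ 2) := by
  have k := Cg.FF h A B (Cg.st h (cx_le P) (cz_le P) (cx_one b) (cz_zero b))
  exact ⟨(k 0).of_eq (ff h g P Q 0) (by simp [FF, st]), (k 1).of_eq (ff h g P Q 1)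
    (by simp [FF, st]), (k 2).of_eq (ff h g P Q 2) (by simp [FF, st])⟩

theorem e1_sub {P Q : EC A B} (a : E1 V P) (b : E1 V Q) : E1 V (P - Q) := by
  by_contra c
  obtain ⟨-, k1, k2⟩ := key h g b P
  have u := cr_unit h g P Q
  have k3 := (k2.trans h ((cz_zero a).sq h)).lt
  rw [(of_ne1 c).2.2, mul_one, zero_pow two_ne_zero, sub_zero, map_mul, u, one_mul] at k3
  have d := e1_of k3
  have k4 := (k1.trans h (((Cg.two h).mul h (cx_le P)).mul h (cz_zero a))).lt
  rw [mul_zero, sub_zero, map_mul, u, one_mul] at k4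
  exact k4.ne ((Cg.st h (cx_one d) (cz_zero d) (cx_le _) (cz_one c) 1).unit h (by simp [st]))

theorem e1_neg {P : EC A B} (a : E1 V P) : E1 V (-P) := by
  simpa using e1_sub h g (Or.inl rfl) a

theorem e1_add {P Q : EC A B} (a : E1 V P) (b : E1 V Q) : E1 V (P + Q) := by
  simpa using e1_sub h g a (e1_neg h g b)

theorem cr_one {Q : EC A B} (b : E1 V Q) (P : EC A B) : Cg V (cr V P Q) 1 := by
  obtain ⟨k0, -, k2⟩ := key h g b P
  by_cases a : E1 V P
  · rw [(of_e1 (e1_add h g a b)).1, (of_e1 (e1_sub h g a b)).1, (of_e1 a).1] at k0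
    exact k0.of_eq (by ring) (by ring)
  · have c : ¬ E1 V (P + Q) := fun c => a (by simpa using e1_sub h g c b)
    have d : ¬ E1 V (P - Q) := fun d => a (by simpa using e1_add h g d b)
    rw [(of_ne1 c).2.2, (of_ne1 d).2.2, (of_ne1 a).2.2] at k2
    exact k2.of_eq (by ring) (by ring)

theorem cong {P P' : EC A B} (b : E1 V (P - P')) :
    Cg V (cx V P') (cx V P) ∧ Cg V (cz V P') (cz V P) := by
  by_cases a : E1 V P
  · have a' : E1 V P' := by simpa using e1_sub h g a b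
    exact ⟨(cx_one a').trans h ((cx_one a).symm h), (cz_zero a').trans h ((cz_zero a).symm h)⟩
  · have c : ¬ E1 V (P + (P - P')) := fun c => a (by simpa using e1_sub h g c b)
    have d : ¬ E1 V P' := fun d => a (by simpa using e1_add h g b d)
    refine ⟨?_, (cz_one d).trans h ((cz_one a).symm h)⟩
    obtain ⟨k0, k1, -⟩ := key h g b P
    have u := cr_one h g b P
    rw [sub_sub_cancel] at k0 k1
    rw [(of_ne1 c).2.2, (of_ne1 d).2.2, (of_ne1 a).2.2] at k1
    have x1 := cx_le (V := V) (P + (P - P'))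
    have x2 := cx_le (V := V) P'
    have x3 := cx_le (V := V) P
    have k2 := ((u.symm h).mul h (x1.mul h x2)).trans h k0
    have k3 := ((u.symm h).mul h ((x1.mul h Cg.one).add h (Cg.one.mul h x2))).trans h k1
    have k4 := ((x2.mul h k3).sub h k2).sub h ((((Cg.two h).mul h x2).mul h x3).sub h (x3.sq h))
    have k5 : V ((cx V P' - cx V P) ^ 2) < 1 := (k4.of_eq (by ring) (by ring)).small
    rw [map_pow] at k5
    exact ⟨x2.le, (pow_lt_one_iff_of_nonneg (V.nonneg _) two_ne_zero).1 k5⟩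

theorem cr_cong {P P' : EC A B} (Q : EC A B) (b : E1 V (P - P')) :
    Cg V (cr V P' Q) (cr V P Q) := by
  obtain ⟨i, hi⟩ := ss_unit h (P' + Q) (P' - Q)
  have c0 := cong h g b
  have c1 := cong h g (P := P + Q) (P' := P' + Q) (by rwa [add_sub_add_right_eq_sub])
  have c2 := cong h g (P := P - Q) (P' := P' - Q) (by rwa [sub_sub_sub_cancel_right])
  refine Cg.canc h hi (cr_unit h g _ _).le (cr_unit h g _ _).le
    (Cg.st h c1.1 c1.2 c2.1 c2.2 i) ?_
  exact (Cg.FF h A B (Cg.st h c0.1 c0.2 (cx_le Q) (cz_le Q)) i).of_eq (ff h g P' Q i) (ff h g P Q i)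

theorem dich {P Q : EC A B} (a : ¬ E1 V P) (b : ¬ E1 V Q) (e : V (xp P - xp Q) < 1) :
    E1 V (P - Q) ∨ E1 V (P + Q) := by
  by_contra c
  rw [not_or] at c
  have k := ff h g P Q 2
  have e1 : FF (A : ℂ) B (ss V P Q) 2 = (xp P - xp Q) ^ 2 := by
    simp [FF, ss, st, (of_ne1 a).1, (of_ne1 a).2.2, (of_ne1 b).1, (of_ne1 b).2.2]
    ring
  have e2 : ss V (P + Q) (P - Q) 2 = 1 := by
    simp [ss, st, (of_ne1 c.1).2.2, (of_ne1 c.2).2.2]
  rw [e1, e2, mul_one] at k
  have := cr_unit h g P Q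
  rw [← k, map_pow] at this
  exact (pow_lt_one₀ (V.nonneg _) e two_ne_zero).ne this

theorem lam_eq (P : EC A B) : 2 * lam V P = - log (V (nu V P)) := by
  rw [lam_good (sz h g), H.nh, nu]
  split_ifs with a
  · have : P ≠ 0 := fun e => by simp [e, xp0] at a
    rw [zp_one this, map_one, max_eq_left a.le, map_inv₀, log_inv]
    ring
  · by_cases e : P = 0
    · simp [e, xp0, zp0]
    · rw [zp_one e, map_one, max_eq_right (not_lt.1 a)]
      simp

end Rd

open Rd

theorem red : RED := fun _ _ _ _ h g =>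
  ⟨fun _ _ => e1_sub h g, cr_unit h g, fun _ _ Q b => ((cr_cong h g Q b).symm h).lt,
    fun P _ b => (cr_one h g b P).lt, fun _ _ => dich h g, lam_eq h g⟩

/-- algebraic numbers are integral at large primes -/
theorem alg_le {z : ℂ} (hz : IsAlgebraic ℚ z) :
    ∃ L : ℕ, ∀ (l : ℕ) (V : AbsoluteValue ℂ ℝ), L < l → Ov V l → V z ≤ 1 := by
  obtain ⟨d, d0, hd⟩ :=
    ((IsFractionRing.isAlgebraic_iff ℤ ℚ ℂ).2 hz).exists_integral_multiple
  refine ⟨d.natAbs, fun l V hl h => ?_⟩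
  have e : V d = 1 := of_ndvd h fun k =>
    hl.not_ge (Nat.le_of_dvd (Int.natAbs_pos.2 d0) (Int.natCast_dvd.1 k))
  let O : Subring ℂ :=
    { carrier := {x | V x ≤ 1}
      mul_mem' := fun a b => ((Cg.rfl' a).mul h (Cg.rfl' b)).le
      one_mem' := by simp
      add_mem' := add_le h
      zero_mem' := by simp
      neg_mem' := fun a => by simpa using a }
  let W : ValuationSubring ℂ := ⟨O, fun x => (le_total (V x) 1).imp id fun a => by
    show V x⁻¹ ≤ 1
    rw [map_inv₀]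
    exact inv_le_one_of_one_le₀ a⟩
  have k : d • z ∈ W := by
    obtain ⟨y, hy⟩ := IsIntegrallyClosed.isIntegral_iff (R := W) (K := ℂ) |>.1 (hd.tower_top)
    exact hy ▸ y.2
  have k' : V (d • z) ≤ 1 := k
  rwa [zsmul_eq_mul, map_mul, e, one_mul] at k'

theorem sep : SEP := fun _ _ P hP h0 => by
  obtain ⟨L, hL⟩ := alg_le (Fo.alg hP)
  exact ⟨L, fun l V hl h e => (e.resolve_left h0).not_ge (hL l V hl h)⟩

end Vale.Agent.P014T.Tg
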