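import Vale.Agent.P014T.Tg.Hq
import Vale.Agent.P014T.Tg.Red
import Vale.Agent.P014T.Tg.Aut
import Vale.Agent.P004Z.Fin.Int

/-! # P014T, block T: the arithmetic of the tame height -/

set_option autoImplicit false
set_option linter.all false

noncomputable section

namespace Vale.Agent.P014T.Tg

open P004Z.Fin (Ov)

theorem dd {A B : ℤ} {l m : ℕ} {W : ZMod l → ZMod m} {V : AbsoluteValue ℂ ℝ} (o : Ov V l)
    (g : Gr A B l) (w : Lw l m W) (w0 : ∀ q : ℕ, q.Prime → ¬ Gr A B q → W q = 0) {P Y : Rt A B}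
    {c M i j : ℤ} {x : ZMod m} (eY : E1 V (c • Y.1)) (eP : E1 V (c • P.1)) (e : i • P = j • Y)
    (h : -x = 8 * (W (mu l (c • Y - M • Y).1) - W (mu l (c • Y).1) - W (mu l (M • Y).1))) :
    c * j ^ 2 * x = 16 * M * i ^ 2 * W (xq (c • P.1)).num := by
  obtain ⟨f, f1, f2, f3, f4⟩ := hq P004Z.Fin.ext red fix A B l m W V o g w w0
  have r := (red A B l V o g).1
  let K : AddSubgroup (Rt A B) :=
    { carrier := {P | E1 V P.1}
      zero_mem' := Or.inl rfl
      add_mem' := fun {P Q} a b => by simpa using r _ _ a (r _ _ (Or.inl rfl) b)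
      neg_mem' := fun {P} a => by simpa using r _ _ (Or.inl rfl) a }
  let F : K →+ Rt A B →+ ZMod m := AddMonoidHom.mk' (fun P => f P) fun P Q => f2 _ _ P.2 Q.2
  have a1 := f1 (c • Y) (-(M • Y)) eY
  have a2 := f3 (c • P) eP
  have a3 : F (i • ⟨c • P, eP⟩) (i • c • P) = F (j • ⟨c • Y, eY⟩) (j • c • Y) := by
    have : i • c • P = j • c • Y := by rw [smul_comm, e, smul_comm]
    rw [this]
    exact congrArg (F · _) (Subtype.ext this)
  simp only [map_zsmul, AddMonoidHom.zsmul_apply, zsmul_eq_mul] at a3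
  change _ * (_ * (_ * f (c • P) P)) = _ * (_ * (_ * f (c • Y) Y)) at a3
  rw [f4, ← sub_eq_add_neg, map_neg, map_zsmul, zsmul_eq_mul] at a1
  rw [map_zsmul, zsmul_eq_mul, (xq_row fix A B l V o _ (c • P).2).2.2.1 eP] at a2
  change _ = 4 * W (xq (c • P.1)).num at a2
  linear_combination (-(c * j ^ 2)) * h + (4 * c * j ^ 2) * a1 - 4 * M * a3 + 4 * M * i ^ 2 * a2

end Vale.Agent.P014T.Tg
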