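import Vale.Agent.P014T.Z.Defs
import Vale.Agent.P014T.Z.Ari0
import Vale.Agent.P004Z.Kf.Li

/-! # P014T, block T: the holomorphic kernel, words -/

open Complex UpperHalfPlane MeasureTheory
open scoped ComplexConjugate

noncomputable section

namespace Vale.Agent.P014T.Tg

open P004Z P004Z.Kf P014T.Z
open P004N (EF)

/-- modular symbols -/
def Ms (G : ℍ → ℂ) (x : ℝ) : ℂ := ∫ y in Set.Ioi (0 : ℝ), G (ofComplex (x + Complex.I * y))

/-- the weighted sum over the translates -/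
def tk (l p : ℕ) (w : ZMod l → ℤ) (φ : Fm → ℤ) (m : Fm) : ℤ :=
  ∑ j ∈ Finset.range l, w j * Function.extend (up l (p * j)) φ 0 m

/-- the coefficients of the holomorphic kernel -/
def Fw {N : ℕ} (p d l : ℕ) (β : ℤ) (w : ZMod l → ℤ) (n : ℕ) (r : ZMod (2 * N)) : ℤ :=
  ∑ k ∈ Pm (p ^ 4 * d * l ^ 2 * n), 2 * ∑ i ∈ k.2.divisorsAntidiagonal,
    tk l p w (tv p (ps N p d (β * r))) (-i.1, k.1, i.2)

def F0X : Prop := ∀ (N : ℕ) [NeZero N] (p d l : ℕ) (β : ℤ) (w : ZMod l → ℤ), Dz N p d β → l.Prime →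
  ¬ l ∣ 2 * N * p * d → w 0 = 0 → (∀ j, w (-j) = w j) → (∀ j, w (p * j) = w j) →
  ∀ b (x : Cf N) c, Harm 1 b x c → Off 1 d c → ∀ G a (k : ℂ), EF N G a →
    (∀ z, shi d (β : ZMod (2 * N)) x z = k * G z) →
    pr (fun n r => (Fw p d l β w n r : ℂ)) c = conj (k * (a p - p - 1) ^ 2 *
      (∑ j ∈ Finset.range l, w j * Ms G (j / l)) / (√(N * d) : ℝ))

end Vale.Agent.P014T.Tg
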