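import Vale.Agent.P014T.Tg.F0d
import Vale.Agent.P014T.Z.Ka3
import Vale.Agent.P014T.Z.Ker1
import Vale.Agent.P014T.Z.Kl

/-! # P014T, block T: the holomorphic kernel -/

open Complex MeasureTheory Filter Topology Set
open scoped Real ComplexConjugate NumberTheorySymbols UpperHalfPlane

noncomputable section

namespace Vale.Agent.P014T.Tg

open P004N (S2 QE TE EF)
open P004Z P004Z.Kf P004Z.Kf.Ar P014T.Z P014T.Z.K1 Gx
open UpperHalfPlane (ofComplex ofComplex_apply)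

namespace F0

variable {k μ ν p l : ℕ} {φ : Fm → ℤ} {w : ZMod l → ℤ} {τ z : ℂ}

/-- periodic -/
def PZ (μ : ℕ) (φ : Fm → ℤ) : Prop :=
  ∀ l m : Fm, φ (l.1 + μ * m.1, l.2.1 + 2 * μ * m.2.1, l.2.2 + μ * m.2.2) = φ l

theorem ext_per (h0 : k ≠ 0) (h : PZ μ φ) (j : ℤ) : PZ (μ * k ^ 2) (Function.extend (up k j) φ 0) :=
  fun l m => by
    rw [ext_of (x := 1) (j' := j) (l' := l) (φ' := φ) h0 (fun m' e => ?_) fun c => ?_, one_mul]
    · obtain ⟨a, b, c⟩ := m'
      refine ⟨(a + μ * (k ^ 2 * m.1), b + 2 * μ * (k * (m.2.1 - m.1 * j)),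
        c + μ * (m.2.2 - 2 * m.2.1 * j + m.1 * j ^ 2)), ?_, (h (a, b, c) (_, _, _)).trans
          (one_mul _).symm⟩
      rw [← e]
      simp only [up]
      refine Prod.ext ?_ (Prod.ext ?_ ?_) <;> simp only <;> push_cast <;> ring
    · obtain ⟨⟨b, h1⟩, c, h2⟩ := mem_up.1 c
      push_cast at h1 h2
      exact mem_up.2 ⟨⟨b - 2 * μ * (k * (m.2.1 - m.1 * j)), by linear_combination h1⟩,
        c - μ * (m.2.2 - 2 * m.2.1 * j + m.1 * j ^ 2), by linear_combination h2⟩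

theorem up_up (j t : ℤ) (m : Fm) : up k j (up 1 t m) = up k (j + k * t) m ∧
    up 1 t (up k j m) = up k (j + t) m := by
  constructor <;> simp only [up] <;> refine Prod.ext rfl (Prod.ext ?_ ?_) <;> simp only <;>
    push_cast <;> ring

theorem ext_tr (h0 : k ≠ 0) {t : ℤ} (h : ∀ m, φ (up 1 (-t) m) = φ m) (j : ℤ) (x : Fm) :
    Function.extend (up k (j + k * t)) φ 0 x = Function.extend (up k j) φ 0 x := by
  rw [ext_of (x := 1) (j' := j) (l' := x) (φ' := φ) h0 (fun m e => ⟨up 1 (-t) m, by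
    rw [(up_up _ _ _).1, ← e, mul_neg, add_neg_cancel_right], by rw [h, one_mul]⟩)
      fun ⟨m, e⟩ => ⟨up 1 t m, by rw [(up_up _ _ _).1, e]⟩, one_mul]

theorem ext_up (h0 : k ≠ 0) (j t : ℤ) (x : Fm) :
    Function.extend (up k (j + t)) φ 0 (up 1 t x) = Function.extend (up k j) φ 0 x := by
  rw [ext_of (x := 1) (j' := j) (l' := x) (φ' := φ) h0 (fun m e => ⟨m, by
    rw [← e, (up_up _ _ _).2], (one_mul _).symm⟩)
      fun ⟨m, e⟩ => ⟨m, Kf.up_inj one_pos t (by rw [(up_up _ _ _).2, e])⟩, one_mul]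

theorem ext_fl (h0 : k ≠ 0) (h : ∀ l : Fm, φ (-l.1, l.2.1, -l.2.2) = -φ l) (j : ℤ) (x : Fm) :
    Function.extend (up k (-j)) φ 0 (-x.1, x.2.1, -x.2.2) = -Function.extend (up k j) φ 0 x := by
  rw [ext_of (x := -1) (j' := j) (l' := x) (φ' := φ) h0 (fun m e => ⟨(-m.1, m.2.1, -m.2.2), ?_, by
    rw [h, neg_one_mul]⟩) fun c => ?_, neg_one_mul]
  · rw [← e]
    simp only [up]
    refine Prod.ext rfl (Prod.ext ?_ ?_) <;> simp only <;> ring
  · obtain ⟨a, b⟩ := mem_up.1 c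
    exact mem_up.2 ⟨a.trans (dvd_of_eq (by ring)), (dvd_neg.2 b).trans (dvd_of_eq (by ring))⟩

theorem tv_tr (h0 : p ≠ 0) (h : ∀ t m, φ (up 1 t m) = φ m) (t : ℤ) (m : Fm) :
    tv p φ (up 1 (p * t) m) = tv p φ m := Finset.sum_congr rfl fun j _ => by
  rw [← ext_tr h0 (h (-t)) j, ext_up h0]

theorem tk_odd (h0 : l ≠ 0) (h : ∀ t m, φ (up 1 (p * t) m) = φ m)
    (o : ∀ l : Fm, φ (-l.1, l.2.1, -l.2.2) = -φ l) (hw : ∀ j, w (-j) = w j) (x : Fm) :
    tk l p w φ (-x.1, x.2.1, -x.2.2) = -tk l p w φ x := by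
  have := NeZero.mk h0
  have e : ∀ x, tk l p w φ x = ∑ j : ZMod l, w j * Function.extend (up l (p * j.val)) φ 0 x :=
    fun x => by
      rw [← Gq.sum_zmod]
      exact Finset.sum_congr rfl fun j hj => by rw [ZMod.val_cast_of_lt (Finset.mem_range.1 hj)]
  rw [e, e, ← Equiv.sum_comp (Equiv.neg _), ← Finset.sum_neg_distrib]
  refine Finset.sum_congr rfl fun j _ => ?_
  obtain ⟨t, ht⟩ : (l : ℤ) ∣ (-j).val + j.val := (ZMod.intCast_zmod_eq_zero_iff_dvd _ _).1 (by simp)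
  rw [Equiv.neg_apply, hw, show (p * (-j).val : ℤ) = -(p * j.val) + l * (p * t) by
    linear_combination p * ht, ext_tr h0 fun m => by rw [← mul_neg, h], ext_fl h0 o, mul_neg]

theorem tk_a (hl : l.Prime) (hp : ¬ l ∣ p) (hμ : ¬ l ∣ μ) (h : ∀ t m, φ (up 1 (p * t) m) = φ m)
    (q : PZ μ φ) (hw : w 0 = 0) (x : ℤ) : tk l p w φ (x, 0, 0) =
      (∑ j ∈ Finset.range l, w j) * if (l : ℤ) ^ 2 ∣ x then φ (x, 0, 0) else 0 := by
  rw [Finset.sum_mul]
  refine Finset.sum_congr rfl fun j hj => ?_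
  rcases j.eq_zero_or_pos with rfl | j0
  · simp [hw]
  congr 1
  split_ifs with c
  · obtain ⟨s, rfl⟩ := c
    obtain ⟨u, v, e⟩ := Nat.isCoprime_iff_coprime.2 (hl.coprime_iff_not_dvd.2 hμ)
    have e1 : ((l : ℤ) ^ 2 * s, (0 : ℤ), (0 : ℤ)) =
        up l (p * j) (l ^ 2 * s, -(2 * l * s * (p * j)), s * (p * j) ^ 2) := by
      simp only [up]
      refine Prod.ext rfl (Prod.ext ?_ ?_) <;> simp only <;> ring
    rw [← q (_, 0, 0) (0, -(l * s * p * v * j), s * p ^ 2 * μ * v ^ 2 * j ^ 2), e1,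
      (Ar.up_inj hl.ne_zero _).extend_apply, ← h (u * j), ← e1]
    simp only [up]
    refine congrArg φ (Prod.ext (by simp) (Prod.ext ?_ ?_)) <;> simp only <;> push_cast
    · linear_combination 2 * l * s * p * j * e
    · linear_combination s * p ^ 2 * j ^ 2 * (u * l - 1 - v * μ) * e
  · refine Function.extend_apply' _ _ _ fun e => c ?_
    have := (mem_up.1 e).2
    simp only [zero_mul, sub_zero, zero_add] at this
    refine IsCoprime.dvd_of_dvd_mul_right (IsCoprime.pow ?_) this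
    exact_mod_cast Nat.isCoprime_iff_coprime.2 (hl.coprime_iff_not_dvd.2 fun d =>
      (hl.dvd_mul.1 d).elim hp (Nat.not_dvd_of_pos_of_lt j0 (Finset.mem_range.1 hj)))

theorem tk_ne (h0 : l ≠ 0) {x : Fm} (h : tk l p w φ x ≠ 0) : ∃ j m, up l j m = x ∧ φ m ≠ 0 := by
  obtain ⟨j, -, hj⟩ := Finset.exists_ne_zero_of_sum_ne_zero h
  have h1 := right_ne_zero_of_mul hj
  by_cases k : ∃ m, up l (p * j) m = x
  · obtain ⟨m, rfl⟩ := k
    exact ⟨_, m, rfl, by rwa [(Ar.up_inj h0 _).extend_apply] at h1⟩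
  · exact (h1 (Function.extend_apply' _ _ _ k)).elim

theorem th_tk (hν : 0 < ν) (hl : 0 < l) (hτ : 0 < τ.im) (hz : 0 < z.im) {B : ℝ}
    (h : ∀ l, ‖(φ l : ℂ)‖ ≤ B) : th1 (ν * l ^ 2) (fun m => tk l p w φ m) τ z =
      ∑ j ∈ Finset.range l, w j * th1 ν (fun l => φ l) τ (((p * j : ℕ) + z) / l) := by
  have s := (gsum (ν := ν * l ^ 2) (by positivity) hτ hz).2
  have k := ((hasSum_sum fun (j : ℕ) (_ : j ∈ Finset.range l) => (((Kf.up_inj hl (p * j)).hasSum_iff
    (f := fun m => (Function.extend (up l (p * j)) φ 0 m : ℤ) *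
      (evq m (conj z) / z.im ^ 2 * gau (ν * l ^ 2) m τ z)) fun m hm => by
        simp [Function.extend_apply' _ _ _ hm]).1 ((bsum h (s.comp_injective
          (Kf.up_inj hl (p * j)))).of_norm.hasSum.congr_fun fun m => by
            simp [(Kf.up_inj hl _).extend_apply])).mul_left (w j : ℂ)).congr_fun (g := fun m =>
              tk l p w φ m * (evq m (conj z) / z.im ^ 2 * gau (ν * l ^ 2) m τ z)) fun m => by
      simp [tk, Finset.sum_mul, mul_assoc]).tsum_eq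
  simp only [th1, mul_assoc, k, Function.comp_apply, gau_up hl hz, Finset.mul_sum, mul_left_comm,
    Int.cast_mul, Int.cast_natCast, Nat.cast_mul, fun j m => (gau_up (ν := ν) (τ := τ) hl hz j m).2]

variable {N d M : ℕ} [NeZero N] {β β' : ℤ} {G : ℍ → ℂ} {a : ℕ → ℤ}

theorem fd (h : Z.Dz N p d β) (hM : 2 * N * p ^ 4 ∣ M) (hS : Sp M d β') (hβ : (2 * N : ℤ) ∣ β' - β)
    (hl : l.Prime) (hn : ¬ l ∣ 2 * N * p * d) (w0 : w 0 = 0) (w1 : ∀ j, w (-j) = w j) :
    Ka.Fd (N := N) p (p ^ 4 * d * l ^ 2) fun r m => tk l p w (tv p (ps N p d (β * r))) m := by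
  have D := cd h hM hS hβ
  have E := pg_eq h.toPz1 hM hS hβ
  have A := fun r : ZMod (2 * N) => ari1 r h.pr h.one hM hS hβ
  have p0 := h.pr.pos
  have l0 := hl.pos
  have N0 := NeZero.pos N
  have d0 := D.d1
  have lp : ¬ l ∣ p := fun e => hn ((e.mul_left _).mul_right d)
  have B := fun r : ZMod (2 * N) => tv_bd (p := p) (ps_bd (p := p) (e := d) ((β : ZMod (2 * N)) * r))
  have T : ∀ (r : ZMod (2 * N)) t m, tv p (ps N p d r) (up 1 (p * t) m) = tv p (ps N p d r) m :=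
    fun r => tv_tr p0.ne' fun t m => by
      rw [Ps.up_eq, ps_fa (du h).ok.odd _ _ (Hd.g0_dvd.2 (dvd_zero _))]
      simp [Ps.dg]
  have P : ∀ r : ZMod (2 * N), PZ (N * d * p ^ 2 * p ^ 2) (tv p (ps N p d r)) := fun r x m =>
    Finset.sum_congr rfl fun j _ => by
      rw [ext_per p0.ne' (fun x m => Int.cast_injective (α := ℂ) (ps_per p0.ne' r x m))]
  have n : N * (p ^ 4 * d * l ^ 2) = N * p ^ 4 * d * l ^ 2 := by ring
  refine ⟨D.ok, ⟨by positivity, ⟨∑ j ∈ Finset.range l, ‖(w j : ℂ)‖ *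
    ∑ j ∈ Finset.range p, ‖(rh p j : ℂ)‖ * (p + 1), fun r m => ?_⟩,
    fun r m => ?_, ⟨N * d * p ^ 2 * p ^ 2 * l ^ 2, by positivity, fun r b x m => ?_⟩,
    fun τ z hτ hz r => ?_⟩, fun r m e => ?_, fun r => Ka.dz0 fun x => ?_, fun r => ?_⟩
  · rw [← norm_intCast, tk, Int.cast_sum]
    refine norm_sum_le_of_le _ fun j _ => ?_
    rw [Int.cast_mul, norm_mul]
    exact mul_le_mul_of_nonneg_left (ext_bd (B r) _ m) (norm_nonneg _)
  · rw [tk_odd l0.ne' (T _) (fun x => Int.cast_injective (α := ℝ) (by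
      simpa only [Ka.pf, E, Int.cast_neg] using D.odd r x)) w1, Int.cast_neg]
  · have q := fun j => ext_per l0.ne' (P ((β : ZMod (2 * N)) * r)) j
    have q1 := fun j => q j (0, b, x) (0, 0, m)
    have q2 := fun j => q j (x, b, 0) (m, 0, 0)
    simp only [mul_zero, add_zero] at q1 q2
    simp only [tk, q1, q2, and_self]
  · have := fun z hz => D.l1 τ z hτ hz r
    simp only [E] at this
    simp only [n, ofReal_intCast, th_tk D.gk.pos l0 hτ hz (B _), th_tk D.gk.pos l0 (S_pos hτ) hz (B _),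
      this _ (im_j l0 hz _), Finset.mul_sum, mul_left_comm (w _ : ℂ)]
    exact Finset.sum_comm
  · obtain ⟨j, m, rfl, e⟩ := tk_ne l0.ne' (Int.cast_ne_zero.1 e)
    obtain ⟨b, e1, e2⟩ := D.sup r m (by rwa [E])
    exact ⟨b, by rw [disc_up, e1]; push_cast; ring, e2⟩
  · refine Int.cast_eq_zero.2 (by_contra fun e => ?_)
    obtain ⟨j, ⟨a, b, c⟩, e1, e⟩ := tk_ne l0.ne' e
    simp only [up, Prod.mk.injEq] at e1
    obtain ⟨rfl, e2, -⟩ := e1
    obtain rfl : b = 0 := by simpa [l0.ne'] using e2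
    exact e (by rw [(A r).2.2.1, ((A r).2.2.2.2 c).1, zero_mul, ite_self])
  · have c : IsCoprime (p : ℤ) N := (Nat.isCoprime_iff_coprime.2 D.ok.cop).symm
    have c' : IsCoprime (p : ℤ) (l ^ 2) :=
      (Nat.isCoprime_iff_coprime.2 (hl.coprime_iff_not_dvd.2 lp)).symm.pow_right
    refine Ka.dz_poly (μ := N * d * l ^ 2) (by positivity) p0 (B := 1) (g := fun j =>
      ((if (l : ℤ) ^ 2 ∣ j ∧ (N : ℤ) ∣ j ∧ (β * r : ZMod (2 * N)) = 0 then gc d (j, 0, 0)
        else 0 : ℤ) : ℝ)) (fun j m => ?_) (fun j => ?_) (fun j => ?_) (Finset.range 5)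
      (fun i => (∑ j ∈ Finset.range l, w j : ℤ) * ((1 - p) *
        ![(1 : ℝ), -(p + 1), p - 1, p + 1, -p] (Fin.ofNat 5 i)))
      (by simp [Finset.sum_range_succ, Fin.ofNat]; ring)
      (by simp [Finset.sum_range_succ, Fin.ofNat]; ring) fun j => ?_
    · have q : ∀ t ∈ d.primeFactors, (t : ℤ) ∣ (N * d * l ^ 2 : ℕ) * m := fun t ht =>
        (Int.natCast_dvd_natCast.2 (((Nat.dvd_of_mem_primeFactors ht).mul_left N).mul_right
          _)).mul_right m
      have g2 : gc d (j + (N * d * l ^ 2 : ℕ) * m, 0, 0) = gc d (j, 0, 0) := Finset.prod_congr rfl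
        fun t ht => by simp only [dvd_add_left (q t ht), Hd.J_congr (n := t)
          (a := j + (N * d * l ^ 2 : ℕ) * m) (b := j) (by simpa using q t ht)]
      simp only [g2, dvd_add_left (show (N : ℤ) ∣ (N * d * l ^ 2 : ℕ) * m from
        ⟨d * l ^ 2 * m, by push_cast; ring⟩), dvd_add_left (show (l : ℤ) ^ 2 ∣ (N * d * l ^ 2 : ℕ) * m
          from ⟨N * d * m, by push_cast; ring⟩)]
    · split_ifs
      · simpa only [norm_intCast] using Ka.gc_bd d _
      · simp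
    · have := Hd.gc_smul h.dat.sq (Hd.cop_d h.dat).of_mul_left_right (j, 0, 0)
      simp only [Prod.smul_mk, smul_eq_mul, mul_zero, (spl h).2, one_mul] at this
      simp only [this, Hd.dv_iff c, Hd.dv_iff c']
    · rw [tk_a hl lp (fun e => hn ?_) (T _) (P _) w0]
      · simp only [(A r).2.2.1, ((A r).2.2.2.2 j).2, disc, Finset.sum_range_succ, Fin.ofNat]
        generalize ∑ j ∈ Finset.range l, w j = C
        by_cases e : (N : ℤ) ∣ j ∧ (β * r : ZMod (2 * N)) = 0 <;> by_cases e' : (l : ℤ) ^ 2 ∣ j <;>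
          simp [e, e']
        split_ifs <;> ring
      · simp only [hl.dvd_mul, hl.prime.dvd_pow_iff_dvd two_ne_zero] at e ⊢
        tauto

omit [NeZero N] in
theorem ms_sc (e : EF N G a) (hl : 0 < l) (n : ℕ) {c : ℝ} (hc : 0 < c) :
    IntegrableOn (fun y : ℝ => G (ofComplex (n / l + I * (c * y : ℝ)))) (Ioi 0) ∧
    ∫ y in Ioi (0 : ℝ), G (ofComplex (n / l + I * (c * y : ℝ))) =
      Ms G ((n : ZMod l).val / l) / c := by
  obtain ⟨C, C0, b⟩ := Lf.Wx.ray_le e.pos e.s2 hl (-n)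
  let F : ℝ → ℂ := fun y => G (ofComplex (n / l + I * y))
  have i : IntegrableOn F (Ioi 0) := (integrable_inv_one_add_sq.const_mul C).integrableOn.mono'
    (((UpperHalfPlane.mdifferentiable_iff.1 e.s2.holo).continuousOn.comp
      (f := fun y : ℝ => (n / l + I * y : ℂ)) (by fun_prop) fun y hy => by
        simpa using hy).aestronglyMeasurable measurableSet_Ioi)
    (ae_restrict_of_forall_mem measurableSet_Ioi fun y hy => by
      have := b y 0 hy
      rw [← ofComplex_apply (Lf.pt _ _), Lf.Wx.pt_ray hy] at this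
      simpa [F, mul_comm, add_comm, neg_div] using this)
  refine ⟨(integrableOn_Ioi_comp_mul_left_iff F 0 hc).2 (by rwa [mul_zero]), ?_⟩
  rw [integral_comp_mul_left_Ioi F 0 hc, mul_zero, real_smul, ofReal_inv, div_eq_inv_mul, Ms]
  refine congrArg _ (setIntegral_congr_fun measurableSet_Ioi fun y hy => ?_)
  refine (tw_one e.qe (by simpa using hy)).1.unique ((tw_one e.qe (by simpa using hy)).1.congr_fun
    fun m => congrArg _ (Gq.ee_congr (m * (n / l : ℕ)) ?_))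
  have : (l : ℂ) ≠ 0 := Nat.cast_ne_zero.2 hl.ne'
  have q : (n : ℂ) = (n % l : ℕ) + l * (n / l : ℕ) := by exact_mod_cast (Nat.mod_add_div n l).symm
  rw [ZMod.val_natCast, Int.cast_mul, Int.cast_natCast, Int.cast_natCast]
  generalize n / l = u at *
  rw [q]
  push_cast
  field_simp
  ring

end F0

open F0 in
/-- **row F0X** -/
theorem f0x : F0X := fun N _ p d l β w h hl hn w0 w1 w2 b x c H o G a k e hk => by
  obtain ⟨β', t, v, k1, k2, -⟩ := kl1 N p d _ 4 β h (dvd_pow_self _ four_ne_zero) dvd_rfl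
  have hM : 2 * N * p ^ 4 ∣ (2 * N * p) ^ 4 := ⟨(2 * N) ^ 3, by ring⟩
  have hS := sp_of h k2
  have p0 := h.pr.pos
  have l0 := hl.pos
  have := NeZero.mk l0.ne'
  have p1 : (0 : ℝ) < p := Nat.cast_pos.2 p0
  have l1 : (0 : ℝ) < l := Nat.cast_pos.2 l0
  have p2 : (p : ℂ) ≠ 0 := Nat.cast_ne_zero.2 p0.ne'
  have l2 : (l : ℂ) ≠ 0 := Nat.cast_ne_zero.2 l0.ne'
  have := (fd h hM hS k1 hl hn w0 w1).f0 ((ax h.toPz1).harm.2 H) fun i hi q => o i hi
    ((Kq.sq_iff (k := p ^ 2 * l) (by positivity)).1 (by convert q using 1; ring))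
  refine Eq.trans (congrArg (pr · c) ?_) (this.trans (congrArg _ ?_))
  · funext n r
    simp only [Fw, Ka.sg, Int.cast_sum, Int.cast_mul, Int.cast_ofNat, ofReal_intCast]
  have i1 := fun j => ms_sc e l0 (p * j) (inv_pos.2 l1)
  have i2 := fun j => ms_sc e l0 (p * (p * j)) (div_pos p1 l1)
  have i3 := fun j => ms_sc e l0 j (inv_pos.2 (mul_pos l1 p1))
  obtain ⟨u, hu⟩ : IsUnit (p : ZMod l) := (ZMod.isUnit_iff_coprime _ _).2
    (hl.coprime_iff_not_dvd.2 fun e => hn ((e.mul_left _).mul_right d)).symm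
  have q : ∀ f : ZMod l → ℂ, ∑ j, w j * f (p * j) = ∑ j, w j * f j := fun f => by
    rw [← Equiv.sum_comp u.mulLeft fun j => w j * f j]
    simp only [Units.mulLeft_apply, hu, w2]
  have q0 : ∑ j ∈ Finset.range l, w j * Ms G (j / l) = ∑ j : ZMod l, w j * Ms G (j.val / l) := by
    rw [← Gq.sum_zmod]
    exact Finset.sum_congr rfl fun j hj => by rw [ZMod.val_cast_of_lt (Finset.mem_range.1 hj)]
  rw [setIntegral_congr_fun measurableSet_Ioi (g := fun y : ℝ => ∑ j ∈ Finset.range l, w j *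
    (k * p ^ 2 * (a p - p - 1) * (a p * G (ofComplex ((p * j : ℕ) / l + I * ((l : ℝ)⁻¹ * y : ℝ))) -
      p * G (ofComplex ((p * (p * j) : ℕ) / l + I * (p / l * y : ℝ))) -
        G (ofComplex (j / l + I * (((l : ℝ) * p)⁻¹ * y : ℝ)))))) fun y hy => ?_,
    integral_finsetSum _ fun j _ => by exact (((((i1 j).1.const_mul _).sub ((i2 j).1.const_mul
      _)).sub (i3 j).1).const_mul _).const_mul _, Finset.sum_congr rfl fun j _ => by
        rw [integral_const_mul, integral_const_mul, integral_sub (by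
          exact ((i1 j).1.const_mul _).sub ((i2 j).1.const_mul _)) (i3 j).1, integral_sub
            ((i1 j).1.const_mul _) ((i2 j).1.const_mul _), integral_const_mul, integral_const_mul,
          (i1 j).2, (i2 j).2, (i3 j).2, Nat.cast_mul, Nat.cast_mul, Nat.cast_mul],
    Gq.sum_zmod l fun j => w j * (k * p ^ 2 * (a p - p - 1) * (a p * (Ms G ((p * j).val / l) /
      ((l : ℝ)⁻¹ : ℝ)) - p * (Ms G ((p * (p * j)).val / l) / (p / l : ℝ)) -
        Ms G (j.val / l) / (((l : ℝ) * p)⁻¹ : ℝ))), q0,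
    show ((N * (p ^ 4 * d * l ^ 2) : ℕ) : ℝ) = (p ^ 2 * l) ^ 2 * (N * d) by push_cast; ring,
    Real.sqrt_mul (sq_nonneg _), Real.sqrt_sq (by positivity)]
  · have q1 := q fun j => Ms G (j.val / l)
    have q2 := (q fun j => Ms G ((p * j).val / l)).trans q1
    simp only [mul_sub, Finset.sum_sub_distrib, ← mul_div_assoc, mul_left_comm (w _ : ℂ),
      ← Finset.sum_div, ← Finset.mul_sum, q1, q2]
    push_cast
    field_simp
    ring
  · have y0 : 0 < (I * y).im := by simpa using hy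
    have D := cd h hM hS k1
    have S := fun z hz => sh_tv (z := z) h hM hS k1 H.s e hk hz
    simp only [Ka.SH, Ka.pf, pg_eq h.toPz1 hM hS k1, ofReal_intCast] at S ⊢
    rw [show N * (p ^ 4 * d * l ^ 2) = N * p ^ 4 * d * l ^ 2 by ring, sh_lin H.s D.gk.pos
      (Finset.range l) (fun j => w j) (fun j => ((p * j : ℕ) + I * y) / l) (fun j => im_j l0 y0 _)
      (fun r => tv_bd (ps_bd ((β : ZMod (2 * N)) * r))) fun r τ hτ =>
        th_tk D.gk.pos l0 hτ y0 (tv_bd (ps_bd _))]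
    refine Finset.sum_congr rfl fun j _ => ?_
    rw [S _ (im_j l0 y0 _)]
    congr 7 <;> push_cast <;> field_simp

end Vale.Agent.P014T.Tg
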