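import Vale.Agent.P014T.Tg.St
import Vale.Agent.P004Z.Ar.Abl0
import Vale.Agent.P004Z.Ar.Psi
import Vale.Agent.P004Z.Ar.Fun
import Vale.Agent.P004Z.Ar.Prt

/-! # P014T, block T, row HK: the Hecke operator on decompositions -/

set_option autoImplicit false
set_option linter.all false

open UpperHalfPlane CongruenceSubgroup Filter Topology
open scoped MatrixGroups Classical Real ComplexConjugate

noncomputable section

namespace Vale.Agent.P014T.Tg

open P004Z P004Z.Ar P004Z.Ar.Rl Vale.Agent.P022.H218.L3 Vale.Agent.P022.H236.L3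
open P004N.H461 hiding ee ps
open Vale.Agent.P022K.F0.Cf (od ev Reg)
open Vale.Agent.P027H (mem_of_eq)

variable {M : ℕ} {n : ℍ → ℤ} {φ : ℍ → ℝ} {Ψ : ℍ → ℂ}

theorem un_hecke (h : Un M n φ Ψ) (c : Continuous φ) {l : ℕ} (hl : l.Prime) (hM : ¬ l ∣ M) :
    (∀ j, Continuous (nb l j)) ∧ ∃ F, Un M (fun z => ∑ j, n (nb l j z)) (fun z => ∑ j, φ (nb l j z)) F ∧
      ∀ z, (∀ j, n (nb l j z) = 0) → F z = ∏ j, Ψ (nb l j z) := by
  unfold nb
  have l0 : (l : ℂ) ≠ 0 := Nat.cast_ne_zero.2 hl.ne_zero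
  have a : ∀ j, Continuous (mb (al l j)) ∧
      Mero (fun z => n (mb (al l j) z)) fun z => Ψ (mb (al l j) z) := fun j => by
    rcases j with _ | j
    · exact h.mero.aff (b := 0) l0 fun z => by rw [coe_mb (al_pos hl _)]; simp [al]
    · exact h.mero.aff (b := (j : ℕ) / l) (inv_ne_zero l0) fun z => by
        rw [coe_mb (al_pos hl _)]; simp [al]; ring
  obtain ⟨F, h1, h2⟩ := Mero.prod Finset.univ fun j => (a j).2
  rw [show (∑ j, fun z => n (mb (al l j) z)) = fun z => ∑ j, n (mb (al l j) z) from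
    funext fun z => Finset.sum_apply _ _ _] at h1
  refine ⟨fun j => (a j).1, F, ⟨h1,
    (Cus.prod Finset.univ fun j => h.cus.mb (al_pos hl j)).congr fun z hz => ?_,
    fun γ hγ => h1.law γ ?_ (fun z => norm_ee _) fun w => ?_⟩, h2⟩
  · rw [Finset.prod_apply] at hz ⊢
    exact h2 z fun j => (h.mero.zero_iff _).2 (Finset.prod_ne_zero_iff.1 hz j (Finset.mem_univ j))
  · have := fun j => (a j).1
    have := cont_smul γ
    unfold ee
    fun_prop
  · obtain ⟨σ, δ, hσ, k⟩ := (EF.cor_T hl hM).2 γ hγ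
    have e : ∀ j z, mb (al l j) (γ • z) = δ j • mb (al l (σ j)) z := fun j z => by
      rw [← mb_SL, ← mb_mul (al_pos hl j) (by simp), (k j).2, mb_al hl]
    have b := Finite.injective_iff_bijective.1 hσ
    filter_upwards [eventually_all.2 fun j => nhdsWithin_le_nhds ((a j).2.ev w),
      self_mem_nhdsWithin] with z h3 hz
    rw [h2 z fun j => h3 j hz, h2 _ fun j => by rw [e, h.inv _ (k j).1]; exact h3 _ hz,
      ← b.sum_comp fun j => φ (mb (al l j) z), ← b.prod_comp fun j => Ψ (mb (al l j) z),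
      ← Finset.sum_sub_distrib, Complex.ofReal_sum, ee_sum, ← Finset.prod_mul_distrib]
    exact Finset.prod_congr rfl fun j _ => by rw [e, h.law _ (k j).1]

variable {N : ℕ} {a : ℕ → ℤ} (D : Pz N a) {θ : ℂ → ℂ} {b : ℝ}

/-- the phase -/
def phs (b : ℝ) (s : ℂ) (z : ℍ) : ℝ := b / π * (conj s * D.I z).im

theorem phs_cont (b : ℝ) (s : ℂ) : Continuous (phs D b s) := by
  have := D.cont
  unfold phs
  fun_prop

theorem un_ps (h : Th D.Λ θ b) {t s : ℂ} (h1 : D.Nc t) (h2 : D.Nc (t + s)) (hs : s ∉ D.Λ) :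
    Un N (D.pb (t + s) - D.pb t) (phs D b s) fun z => ps θ b t s (D.I z) := by
  refine ⟨?_, fun γ => ?_, fun γ hγ z => by
    rw [phs, phs, ← mul_sub, ← Complex.sub_im, ← mul_sub, ← h.ps_law t s _ (D.per hγ z),
      add_sub_cancel]⟩
  · have m0 : Mero 0 fun z => Complex.exp (b * conj s * D.I z) := fun w =>
      ⟨fun z => Complex.exp (b * conj s * D.I (ofComplex z)),
        (analyticAt_const.mul (D.an w)).cexp', Complex.exp_ne_zero _, .of_forall fun z => by simp⟩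
    have m := ((D.mero h (t + s)).mul' (D.mero h t).inv fun z => by
      by_contra! q
      exact hs (mem_of_eq (sub_mem (D.pb_ne.1 (neg_ne_zero.1 q.2)) (D.pb_ne.1 q.1))
        (by ring))).mul' m0 fun z => Or.inr rfl
    rwa [add_zero, ← sub_eq_add_neg] at m
  · obtain ⟨c, hc⟩ := D.lim γ
    have n1 := h.ne' (h1 γ c hc)
    have n2 := h.ne' (h2 γ c hc)
    have a := h.an.continuous
    have k : ContinuousAt (ps θ b t s) c := by
      unfold ps
      fun_prop (disch := exact n1)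
    have p : 0 < ‖ps θ b t s c‖ :=
      norm_pos_iff.2 (mul_ne_zero (mul_ne_zero n2 (inv_ne_zero n1)) (Complex.exp_ne_zero _))
    have l := (k.tendsto.comp hc).norm
    generalize ‖ps θ b t s c‖ = r at p l
    obtain ⟨y, hy⟩ := (atImInfty_mem _).1 ((l.eventually_const_le
      (inv_lt_of_inv_lt₀ p (by linarith : r⁻¹ < r + r⁻¹))).and
        (l.eventually_le_const (lt_add_of_pos_right r (inv_pos.2 p))))
    exact ⟨r + r⁻¹, y, by positivity, fun z hz => hy z hz.le⟩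

theorem nm_of {t : ℂ} {z : ℍ} (k : D.pi z ≠ D.ex t) : D.I z - t ∉ D.Λ := fun e =>
  k (sub_eq_zero.1 ((D.pi_sub z t).trans ((D.ker _).2 e)))

theorem pb_of {t s : ℂ} {z : ℍ} (k : D.pi z ≠ D.ex t) (k' : D.pi z ≠ D.ex (t + s)) :
    (D.pb (t + s) - D.pb t) z = 0 := by
  rw [Pi.sub_apply, not_not.1 (mt D.pb_ne.1 (nm_of D k)), not_not.1 (mt D.pb_ne.1 (nm_of D k')),
    sub_zero]

theorem f2_eq {S : ℂ → ℂ} (q : Sq D θ b S) (h : MF (Gamma0 N)) {t s : ℂ} {z : ℍ}
    (k : D.pi z ≠ D.ex t) (k' : D.pi z ≠ D.ex (t + s)) :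
    F2 D S h t s z * Complex.exp (b * conj s * D.I z) ^ 2 =
      (ev z (h : Mer) * ps θ b t s (D.I z)) ^ 2 := by
  rw [F2, ps, q.sq _ (nm_of D k), q.sq _ (nm_of D k')]
  ring

/-- **Row `HK`.** -/
theorem hk : HK := by
  intro N G a D θ b S s l n n' h t u t' rn q hl lN d hu hu' e' o c1 c2 o'
  have : NeZero N := ⟨fun e => lN (e ▸ dvd_zero l)⟩
  generalize hv : ((a l : ℂ) - l - 1) * u = v at *
  have hI : ∀ z, ∑ j, D.I (nb l j z) = a l * D.I z := fun z =>
    (Tdiv_eq hl D.I z).symm.trans (congrFun ((prt.2 N G a D rn).1 l hl lN) z)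
  obtain ⟨Ψ, p1, p2⟩ := (Fn.fun2 d.ne d.cum).mul (un_ps D q.th d.n1 d.n2 hu) continuous_zero
    (phs_cont D b u)
  rw [zero_add, show (fun τ => od τ (h : Mer)) + (D.pb (t + u) - D.pb t) = n from
    funext fun τ => (d.eq τ).symm] at p1
  have p3 : ∀ z, n z = 0 → D.pi z ≠ D.ex t → D.pi z ≠ D.ex (t + u) →
      Ψ z = ev z (h : Mer) * ps θ b t u (D.I z) := fun z k k1 k2 => p2 z (by
    have := pb_of D k1 k2
    rw [d.eq, ← Pi.sub_apply (D.pb _), this, add_zero] at k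
    exact k) (pb_of D k1 k2)
  obtain ⟨cn, F, f1, f2⟩ := un_hecke p1 (phs_cont D b u) hl lN
  have c0 := phs_cont D b u
  have c3 : Continuous fun z => ∑ j, phs D b u (nb l j z) := by fun_prop
  have c4 : Continuous (-(((l + 1 : ℕ) : ℝ) • phs D b u)) := by fun_prop
  obtain ⟨F1, g1, g2⟩ := f1.mul (p1.pow (l + 1)).neg c3 c4
  obtain ⟨F2', g3, g4⟩ := g1.mul (un_ps D q.th c1 c2 hu').neg (c3.add c4) (phs_cont D b v).neg
  obtain ⟨h', k1, k2, k3⟩ := Fn.fun1 (g3.congr (φ' := 0) 0 fun z => by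
    simp only [Pi.add_apply, Pi.neg_apply, Pi.smul_apply, Pi.zero_apply, phs, smul_eq_mul,
      ← Finset.mul_sum, ← Complex.im_sum, hI, ← hv]
    simp
    ring)
  have z1 : ∀ z ∈ s, ∑ j, n (nb l j z) = 0 := fun z m => Finset.sum_eq_zero fun j _ => (o z m j).1
  refine ⟨h', ⟨k1, k2, c1, c2, fun z m => ⟨(o' z m).1, (o' z m).2, by
    rw [e', z1 z m, (d.off z m).2.2, mul_zero, sub_zero]⟩, fun τ => by
      rw [(k3 τ).1, e']
      simp
      ring⟩, fun z m => ?_⟩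
  obtain ⟨x1, x2, x3⟩ := d.off z m
  have x4 : (-(((l + 1 : ℕ) : ℤ) • n)) z = 0 := by simp [x3]
  have x5 := pb_of D (o' z m).1 (o' z m).2
  have y1 := (p1.mero.zero_iff z).1 x3
  have y2 := ((un_ps D q.th c1 c2 hu').mero.zero_iff z).1 x5
  have ex : Complex.exp (b * conj v * D.I z) ^ 2 * (Complex.exp (b * conj u * D.I z) ^ 2) ^ (l + 1) =
      ∏ j, Complex.exp (b * conj u * D.I (nb l j z)) ^ 2 := by
    rw [Finset.prod_pow, ← Complex.exp_sum, ← Finset.mul_sum, hI, ← pow_mul, mul_comm 2, pow_mul,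
      ← mul_pow, ← Complex.exp_nat_mul, ← Complex.exp_add, ← hv]
    congr 2
    simp
    ring
  refine mul_right_cancel₀ ((Finset.prod_ne_zero_iff (s := Finset.univ)).2 fun j _ =>
    pow_ne_zero 2 (Complex.exp_ne_zero (b * conj u * D.I (nb l j z)))) ?_
  rw [← Finset.prod_mul_distrib, Finset.prod_congr rfl fun j _ =>
      (f2_eq D q h (o z m j).2.1 (o z m j).2.2).trans
        (congrArg (· ^ 2) (p3 _ (o z m j).1 (o z m j).2.1 (o z m j).2.2).symm),
    ← ex, mul_mul_mul_comm, ← mul_pow, f2_eq D q h' (o' z m).1 (o' z m).2, f2_eq D q h x1 x2,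
    ← p3 z x3 x1 x2, Finset.prod_pow, ← f2 z fun j => (o z m j).1, (k3 z).2,
    g4 z (by rw [Pi.add_apply, z1 z m, x4, add_zero]) (by rw [Pi.neg_apply, x5, neg_zero]),
    g2 z (z1 z m) x4, Pi.inv_apply, Pi.inv_apply, Pi.pow_apply, inv_mul_cancel_right₀ y2,
    ← pow_mul, mul_comm 2, pow_mul, ← mul_pow, inv_mul_cancel_right₀ (pow_ne_zero _ y1)]

end Vale.Agent.P014T.Tg
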