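import Vale.Agent.P014T.Tg.St

/-! # P014T, block T: rows XQ, LW, HQ (the tame height on rational points) -/

set_option autoImplicit false
set_option linter.all false

open Real
open scoped Classical

noncomputable section

namespace Vale.Agent.P014T.Tg

open Vale.Agent.P004H.H666
open P004Z.Fin (Ov EXT)
open P004Z.H (sp cc EC xp_sp cc_map)

namespace Hq

variable {V : AbsoluteValue ℂ ℝ} {l m : ℕ} {W : ZMod l → ZMod m} {A B : ℤ}

theorem le_one (o : Ov V l) (n : ℤ) : V n ≤ 1 := o.na.apply_intCast_le_one_of_isNonarchimedean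

theorem lt_of (o : Ov V l) {n : ℤ} (h : (l : ℤ) ∣ n) : V n < 1 := by
  obtain ⟨k, rfl⟩ := h
  rw [Int.cast_mul, map_mul, Int.cast_natCast]
  exact mul_lt_one_of_nonneg_of_lt_one_left (V.nonneg _) o.lt (le_one o k)

theorem unit (o : Ov V l) {n : ℤ} (h : ¬ (l : ℤ) ∣ n) : V n = 1 := by
  refine (le_one o n).antisymm (not_lt.1 fun k => ?_)
  obtain ⟨a, b, e⟩ := (Nat.prime_iff_prime_int.1 o.prime).irreducible.coprime_iff_not_dvd.2 h
  have := o.na ((a * l : ℤ) : ℂ) ((b * n : ℤ) : ℂ)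
  rw [← Int.cast_add, e, Int.cast_one, map_one, le_max_iff] at this
  refine this.elim (lt_of o (dvd_mul_left _ _)).not_ge (not_le.2 ?_)
  rw [Int.cast_mul, map_mul]
  exact mul_lt_one_of_nonneg_of_lt_one_right (le_one o b) (V.nonneg _) k

theorem lt_iff (o : Ov V l) {n : ℤ} : V n < 1 ↔ (l : ℤ) ∣ n :=
  ⟨fun h => by_contra fun k => h.ne (unit o k), lt_of o⟩

theorem nd (o : Ov V l) (ρ : ℚ) (h : l ∣ ρ.den) : ¬ (l : ℤ) ∣ ρ.num := fun k =>
  o.prime.one_lt.ne' (Nat.eq_one_of_dvd_coprimes ρ.reduced (Int.natCast_dvd.1 k) h)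

theorem val (ρ : ℚ) : V ρ * V (ρ.den : ℤ) = V ρ.num := by
  rw [← map_mul]
  exact congrArg V (by exact_mod_cast Rat.mul_den_eq_num ρ)

theorem big (o : Ov V l) (ρ : ℚ) : 1 < V ρ ↔ l ∣ ρ.den := by
  have e := val (V := V) ρ
  refine ⟨fun h => by_contra fun k => ?_, fun h => ?_⟩
  · rw [unit o (mt Int.natCast_dvd_natCast.1 k), mul_one] at e
    exact (e ▸ h).not_ge (le_one o _)
  · have := lt_of o (Int.natCast_dvd_natCast.2 h)
    rw [unit o (nd o ρ h)] at e
    nlinarith [V.nonneg ρ, V.nonneg (ρ.den : ℤ)]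

theorem xq_eq (fx : FIX) {P : EC A B} (h : P ∈ Rt A B) : (xq P : ℂ) = xp P := by
  have k := fx (xp P) fun σ => by rw [← xp_sp, h σ]
  rw [xq, dif_pos k]
  exact k.choose_spec

theorem mu_nd (o : Ov V l) (P : EC A B) : ¬ (l : ℤ) ∣ mu l P := by
  rw [mu]
  split_ifs with h
  exacts [nd o _ h, mt Int.natCast_dvd_natCast.1 h]

theorem nu_ne (P : EC A B) : nu V P ≠ 0 := by
  rw [nu]
  split_ifs with h
  exacts [inv_ne_zero (V.pos_iff.1 (one_pos.trans h)), one_ne_zero]

theorem den_eq (o : Ov V l) {P : EC A B} (h : (xq P : ℂ) = xp P) :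
    ((xq P).den : ℂ) = nu V P * mu l P := by
  rw [nu, mu, ← h]
  by_cases k : l ∣ (xq P).den
  · rw [if_pos k, if_pos ((big o _).2 k),
      eq_inv_mul_iff_mul_eq₀ (V.pos_iff.1 (one_pos.trans ((big o _).2 k)))]
    exact_mod_cast Rat.mul_den_eq_num _
  · rw [if_neg k, if_neg (mt (big o _).1 k), one_mul, Int.cast_natCast]

theorem xq_zero : xq (0 : EC A B) = 1 := by
  have k : ∃ x : ℚ, (x : ℂ) = xp (0 : EC A B) := ⟨1, by simp⟩
  rw [xq, dif_pos k]
  exact_mod_cast k.choose_spec.trans xp_zero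

theorem mu_zero (o : Ov V l) : mu l (0 : EC A B) = 1 := by
  rw [mu, xq_zero]
  split_ifs <;> rfl

theorem xq_neg (P : EC A B) : xq (-P) = xq P :=
  congrArg (fun z : ℂ => if h : ∃ x : ℚ, (x : ℂ) = z then h.choose else 0) (xp_neg P)

theorem mu_neg (P : EC A B) : mu l (-P) = mu l P := by rw [mu, mu, xq_neg]

theorem w_mul (o : Ov V l) (w : Lw l m W) {x y : ℤ} (hx : ¬ (l : ℤ) ∣ x) (hy : ¬ (l : ℤ) ∣ y) :
    W ((x * y : ℤ) : ZMod l) = W x + W y := by
  rw [Int.cast_mul]
  exact w.mul _ _ (mt (ZMod.intCast_zmod_eq_zero_iff_dvd _ _).1 hx)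
    (mt (ZMod.intCast_zmod_eq_zero_iff_dvd _ _).1 hy)

theorem w_one (o : Ov V l) (w : Lw l m W) : W 1 = 0 := by
  have := Fact.mk o.prime
  exact left_eq_add.1 ((congrArg W (mul_one 1).symm).trans (w.mul 1 1 one_ne_zero one_ne_zero))

theorem w_abs (o : Ov V l) (w : Lw l m W) {x : ℤ} (hx : ¬ (l : ℤ) ∣ x) : W x.natAbs = W x := by
  have := Fact.mk o.prime
  rcases Int.natAbs_eq x with e | e
  · rw [← Int.cast_natCast, ← e]
  · rw [eq_comm, e, Int.natAbs_neg, Int.natAbs_natCast, Int.cast_neg, ← neg_one_mul, w.mul _ _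
      (neg_ne_zero.2 one_ne_zero) (mt (ZMod.intCast_zmod_eq_zero_iff_dvd _ _).1
        fun k => hx (e ▸ (dvd_neg.2 k))), w.neg, zero_add, Int.cast_natCast]

theorem w_sum (o : Ov V l) (w : Lw l m W) (U : Finset ℕ) (n : ℕ) : ¬ l ∣ n →
    (∀ q : ℕ, q.Prime → q ∣ n → q ∈ U) → ∑ q ∈ U, (n.factorization q : ZMod m) * W q = W n := by
  induction n using induction_on_primes with
  | zero => exact fun h => absurd (dvd_zero l) h
  | one => exact fun _ _ => by simp [w_one o w]
  | prime_mul p a hp ih =>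
    intro h k
    have ha : ¬ l ∣ a := fun e => h (e.mul_left p)
    have := w_mul o w (x := p) (y := a) (fun e => h ((Int.natCast_dvd_natCast.1 e).mul_right a))
      (mt Int.natCast_dvd_natCast.1 ha)
    simp only [Int.cast_mul, Int.cast_natCast] at this
    rw [Nat.factorization_mul hp.ne_zero (by rintro rfl; exact ha (dvd_zero l)), hp.factorization,
      Nat.cast_mul, this, ← ih ha fun q a b => k q a (b.mul_left p)]
    simp only [Finsupp.add_apply, Nat.cast_add, add_mul, Finset.sum_add_distrib]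
    rw [Finset.sum_eq_single_of_mem p (k p hp (dvd_mul_right _ _)) fun q _ e => by
      simp [Finsupp.single_eq_of_ne e]]
    simp

theorem log_nat (o : Ov V l) (e : V l = (l : ℝ)⁻¹) {n : ℕ} (h : n ≠ 0) :
    log (V n) = -(n.factorization l * log l) := by
  have k := unit o (mt Int.natCast_dvd_natCast.1 (Nat.not_dvd_ordCompl o.prime h))
  rw [Int.cast_natCast] at k
  conv_lhs => rw [← Nat.ordProj_mul_ordCompl_eq_self n l]
  rw [Nat.cast_mul, map_mul, k, mul_one, Nat.cast_pow, map_pow, e, log_pow, log_inv, mul_neg]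

theorem v_abs (x : ℤ) : V x.natAbs = V x := by
  rcases Int.natAbs_eq x with e | e
  · rw [← Int.cast_natCast, ← e]
  · rw [eq_comm, e, Int.natAbs_neg, Int.natAbs_natCast, Int.cast_neg, V.map_neg, Int.cast_natCast]

end Hq

open Hq

theorem xq_row (fx : FIX) : XQ := fun A B l V o P h => ⟨xq_eq fx h, mu_nd o P, fun e => by
    rcases e with rfl | e
    · rw [mu_zero o, xq_zero]; rfl
    · rw [mu, if_pos ((big o _).1 (by rwa [xq_eq fx h]))], by
  rw [den_eq o (xq_eq fx h), mul_div_cancel_left₀ _ (nu_ne P), sub_self, map_zero]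
  exact one_pos⟩

theorem lw : LW := by
  intro l m W V S T κ ρ x y o w hS h0 hx hy hv hT hκ hl
  have n0 : ρ.num.natAbs ≠ 0 := Int.natAbs_ne_zero.2 (Rat.num_ne_zero.2 h0)
  have e1 : V ρ = 1 := by
    have := o.na.add_eq_max_of_ne (x := ρ * y - x) (y := x) (by rw [unit o hx]; exact hv.ne)
    rwa [sub_add_cancel, map_mul, unit o hy, mul_one, unit o hx, max_eq_right hv.le] at this
  have d : ¬ (l : ℤ) ∣ ρ.den := fun k => ((big o ρ).2 (Int.natCast_dvd_natCast.1 k)).ne' e1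
  have e2 := val (V := V) ρ
  rw [e1, unit o d, mul_one] at e2
  have n : ¬ (l : ℤ) ∣ ρ.num := fun k => (lt_of o k).ne' e2
  have e3 : ((ρ.num * y : ℤ) : ZMod l) = (x * ρ.den : ℤ) := by
    rw [eq_comm, ZMod.intCast_eq_intCast_iff_dvd_sub, ← lt_iff o,
      show ((ρ.num * y - x * ρ.den : ℤ) : ℂ) = (ρ * y - x) * (ρ.den : ℤ) by
        have : (ρ : ℂ) * ρ.den = ρ.num := by exact_mod_cast Rat.mul_den_eq_num ρ
        push_cast
        rw [← this]
        ring, map_mul, unit o d, mul_one]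
    exact hv
  have e4 := congrArg W e3
  rw [w_mul o w n hy, w_mul o w hx d, ← w_abs o w n, Int.cast_natCast] at e4
  set U := T ∪ (ρ.num.natAbs.primeFactors ∪ ρ.den.primeFactors)
  have s1 := w_sum o w U ρ.num.natAbs (mt Int.natCast_dvd.2 n) fun q a b =>
    Finset.mem_union_right _ (Finset.mem_union_left _ (Nat.mem_primeFactors.2 ⟨a, b, n0⟩))
  have s2 := w_sum o w U ρ.den (mt Int.natCast_dvd_natCast.2 d) fun q a b =>
    Finset.mem_union_right _ (Finset.mem_union_right _ (Nat.mem_primeFactors.2 ⟨a, b, ρ.den_nz⟩))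
  rw [Finset.sum_subset (Finset.subset_union_left : T ⊆ U) fun q _ a => by simp [hκ q a],
    show W x - W y = W ρ.num.natAbs - W ρ.den by linear_combination -e4, ← s1, ← s2,
    ← Finset.sum_sub_distrib]
  refine Finset.sum_congr rfl fun q a => ?_
  have hq : q.Prime := by
    simp only [U, Finset.mem_union] at a
    exact a.elim (hT q) fun a => a.elim Nat.prime_of_mem_primeFactors Nat.prime_of_mem_primeFactors
  by_cases b : q = l
  · simp [b, w.zero]
  by_cases c : q ∈ S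
  · simp [hS q c]
  obtain ⟨V', o', e, k⟩ := hl q hq b c
  have f := congrArg log (val (V := V') ρ)
  rw [log_mul (V'.ne_zero (by exact_mod_cast h0)) (V'.ne_zero (by exact_mod_cast ρ.den_nz)), k,
    ← v_abs ρ.num, Int.cast_natCast, log_nat o' e n0, log_nat o' e ρ.den_nz] at f
  have g : (κ q : ℝ) = ρ.num.natAbs.factorization q - ρ.den.factorization q :=
    mul_right_cancel₀ (log_pos (by exact_mod_cast hq.one_lt : (1 : ℝ) < q)).ne' (by linarith)
  rw [show κ q = ρ.num.natAbs.factorization q - ρ.den.factorization q by exact_mod_cast g]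
  push_cast
  ring

namespace Hq

variable {A B : ℤ}

theorem ex_c (fx : FIX) (P Q : Rt A B) : ∃ c : ℚ, ∀ (q : ℕ) V, Ov V q →
    (c : ℂ) * (mu q (P + Q).1 * mu q (P - Q).1 : ℤ) =
      cr V P.1 Q.1 * (mu q P.1 * mu q P.1 * (mu q Q.1 * mu q Q.1) : ℤ) := by
  obtain ⟨r, e⟩ := fx (cc P.1 Q.1) fun σ => by
    have := cc_map (σ : ℂ →+* ℂ) (map_intCast _ A) (map_intCast _ B) P.1 Q.1
    rw [show P004M.TE.pm _ _ _ P.1 = P.1 from P.2 σ, show P004M.TE.pm _ _ _ Q.1 = Q.1 from Q.2 σ]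
      at this
    exact this.symm
  refine ⟨r * ((xq P.1).den ^ 2 * (xq Q.1).den ^ 2) / ((xq (P + Q).1).den * (xq (P - Q).1).den),
    fun q V o => ?_⟩
  have d := fun R : Rt A B => den_eq o (xq_eq fx R.2)
  have n : ∀ R : EC A B, (mu q R : ℂ) ≠ 0 := fun R =>
    Int.cast_ne_zero.2 fun k => mu_nd o R (k ▸ dvd_zero _)
  have := n (P + Q).1
  have := n (P - Q).1
  have := nu_ne (V := V) (P + Q).1
  have := nu_ne (V := V) (P - Q).1
  push_cast [-AddSubgroup.coe_add, -AddSubgroup.coe_sub, -AddMemClass.coe_add,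
    -AddSubgroupClass.coe_sub]
  rw [d, d, d, d, e, cr, ← AddSubgroup.coe_add, ← AddSubgroup.coe_sub]
  field_simp

end Hq

theorem hq (ext : EXT) (red : RED) (fx : FIX) : HQ := by
  intro A B l m W V o g w hW
  obtain ⟨r1, r2, r3, -⟩ := red A B l V o g
  set H : Rt A B → ZMod m := fun P => W (mu l P.1) with hH
  have pr := Nat.prime_iff_prime_int.1 o.prime
  have ml : ∀ {x y : ℤ}, ¬ (l : ℤ) ∣ x → ¬ (l : ℤ) ∣ y → ¬ (l : ℤ) ∣ x * y := fun a b c =>
    (pr.dvd_or_dvd c).elim a b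
  have u := mu_nd (A := A) (B := B) o
  have key : ∀ P P' Q : Rt A B, E1 V (P - P').1 →
      H (P + Q) + H (P - Q) - 2 * H P = H (P' + Q) + H (P' - Q) - 2 * H P' := fun P P' Q e => by
    obtain ⟨c, hc⟩ := ex_c fx P Q
    obtain ⟨c', hc'⟩ := ex_c fx P' Q
    have un : ∀ (R : Rt A B) (c : ℚ) (q : ℕ) V, Ov V q → Gr A B q →
        (c : ℂ) * (mu q (R + Q).1 * mu q (R - Q).1 : ℤ) =
          cr V R.1 Q.1 * (mu q R.1 * mu q R.1 * (mu q Q.1 * mu q Q.1) : ℤ) → V c = 1 :=
      fun R c q V o g e => by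
        have := congrArg V e
        simpa only [Int.cast_mul, map_mul, unit o (mu_nd o _), (red A B q V o g).2.1, mul_one]
          using this
    have c0 : (c' : ℂ) ≠ 0 := V.pos_iff.1 (un _ _ _ _ o g (hc' l V o) ▸ one_pos)
    have c1 : (c : ℂ) ≠ 0 := V.pos_iff.1 (un _ _ _ _ o g (hc l V o) ▸ one_pos)
    have hx := ml (ml (ml (u P.1) (u P.1)) (ml (u Q.1) (u Q.1))) (ml (u (P' + Q).1) (u (P' - Q).1))
    have hy := ml (ml (ml (u P'.1) (u P'.1)) (ml (u Q.1) (u Q.1))) (ml (u (P + Q).1) (u (P - Q).1))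
    have k := lw l m W V (2 * (4 * A ^ 3 + 27 * B ^ 2)).natAbs.primeFactors ∅ 0 (c / c') _ _ o w
      (fun q a => hW q (Nat.prime_of_mem_primeFactors a) (not_not.2 (Int.natCast_dvd.2
        (Nat.dvd_of_mem_primeFactors a)))) (by exact_mod_cast div_ne_zero c1 c0) hx hy (by
        have a := hc l V o
        have b := hc' l V o
        have z : cr V P'.1 Q.1 ≠ 0 := V.pos_iff.1 (r2 P'.1 Q.1 ▸ one_pos)
        rw [show _ - _ = (cr V P.1 Q.1 - cr V P'.1 Q.1) / cr V P'.1 Q.1 * (mu l P.1 * mu l P.1 *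
          (mu l Q.1 * mu l Q.1) * (mu l (P' + Q).1 * mu l (P' - Q).1) : ℤ) by
            push_cast [-AddSubgroup.coe_add, -AddSubgroup.coe_sub, -AddMemClass.coe_add,
              -AddSubgroupClass.coe_sub] at a b ⊢
            field_simp
            linear_combination (cr V P'.1 Q.1 * mu l P'.1 ^ 2 * mu l Q.1 ^ 2) * a -
              (cr V P.1 Q.1 * mu l P.1 ^ 2 * mu l Q.1 ^ 2) * b,
          map_mul, unit o hx, mul_one, map_div₀, r2, div_one]
        exact r3 _ _ _ e) (by simp) (fun _ _ => rfl) fun q a _ b => by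
      obtain ⟨V', n, e⟩ := ext q a
      have o' : Ov V' q := ⟨a, n, e ▸ inv_lt_one_of_one_lt₀ (by exact_mod_cast a.one_lt)⟩
      have g' : Gr A B q := fun k => b (Nat.mem_primeFactors.2 ⟨a, Int.natCast_dvd.1 k,
        Int.natAbs_ne_zero.2 fun z => g (z ▸ dvd_zero _)⟩)
      refine ⟨V', o', e, ?_⟩
      rw [Rat.cast_div, map_div₀, un _ _ _ _ o' g' (hc q V' o'), un _ _ _ _ o' g' (hc' q V' o')]
      simp
    rw [Finset.sum_empty] at k
    rw [w_mul o w (ml (ml (u _) (u _)) (ml (u _) (u _))) (ml (u _) (u _)),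
      w_mul o w (ml (ml (u _) (u _)) (ml (u _) (u _))) (ml (u _) (u _))] at k
    iterate 2 rw [w_mul o w (ml (u _) (u _)) (ml (u _) (u _))] at k
    repeat rw [w_mul o w (u _) (u _)] at k
    simp only [hH]
    linear_combination k
  have h0 : H 0 = 0 := by simp [hH, mu_zero o, w_one o w]
  have hn : ∀ P, H (-P) = H P := fun P => congrArg (fun x : ℤ => W x) (mu_neg P.1)
  have ad : ∀ P, E1 V P.1 → ∀ x y : Rt A B, 2 * (H (P + (x + y)) - H P - H (x + y)) =
      2 * (H (P + x) - H P - H x) + 2 * (H (P + y) - H P - H y) := fun P e x y => by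
    have e' : ∀ x : Rt A B, E1 V (P + x - x).1 := fun x => by rwa [add_sub_cancel_right]
    have k1 := key _ _ y (e' x)
    have k2 := key _ _ x (e' y)
    have k3 := key _ _ (x - y) (e' 0)
    rw [add_assoc P, add_sub_assoc P] at k1
    rw [add_assoc P, add_sub_assoc P, add_comm y x, ← neg_sub x y, hn] at k2
    rw [add_zero, zero_add, zero_sub, hn, h0, sub_eq_add_neg P] at k3
    linear_combination k1 + k2 - k3
  let f : Rt A B → Rt A B →+ ZMod m := fun P =>
    if e : E1 V P.1 then AddMonoidHom.mk' (fun Q => 2 * (H (P + Q) - H P - H Q)) (ad P e) else 0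
  have hf : ∀ P Q, E1 V P.1 → f P Q = 2 * (H (P + Q) - H P - H Q) := fun P Q e => by
    simp only [f, dif_pos e]
    rfl
  refine ⟨f, hf, fun P P' e e' => AddMonoidHom.ext fun Q => ?_, fun P e => ?_, hn⟩
  · have := r1 _ _ e (r1 0 _ (.inl rfl) e')
    rw [zero_sub, sub_neg_eq_add] at this
    rw [AddMonoidHom.add_apply, hf _ _ e, hf _ _ e', hf _ _ this, add_assoc]
    linear_combination ad P e P' Q
  · have k := key P 0 P (by rwa [sub_zero])
    rw [sub_self, zero_add, zero_sub, hn, h0] at k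
    rw [hf _ _ e]
    simp only [hH] at k ⊢
    linear_combination 2 * k

end Vale.Agent.P014T.Tg
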