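import Vale.Agent.P014T.Tg.Set
import Vale.Agent.P014T.Z.Genx

/-! # P014T, block T: the local symbols of the Hecke translates (helper87) -/

set_option autoImplicit false
set_option linter.all false

open UpperHalfPlane CongruenceSubgroup Real
open scoped MatrixGroups Classical NumberTheorySymbols

noncomputable section

namespace Vale.Agent.P014T.Tg

open P004Z P004Z.Ar P014T.Z P014T.Gx Vale.Agent.P022.H218.L3 Vale.Agent.P022.H236.L3
  Vale.Agent.P004H.H666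
open P004Z.H (sp Fo PlC)
open P004Z.Fin (Ov)
open P004Z.Gl (MM mm_adm mm_off B pr_tt pr_single)
open P004N (RN)

variable {N : ℕ} [NeZero N] {a : ℕ → ℤ} {D : Pz N a} {s : Finset ℍ} {p d l : ℕ} {β : ℤ}
  {G : ℍ → ℂ} {c : PP N}

namespace Kp

theorem jsq (h : l.Coprime p) (n : ℕ) :
    J(-(((1 : ℕ) : ℤ) * (l ^ 2 * n : ℕ)) | p) = J(-(((1 : ℕ) : ℤ) * n) | p) := by
  rw [show -(((1 : ℕ) : ℤ) * (l ^ 2 * n : ℕ)) = l ^ 2 * -(((1 : ℕ) : ℤ) * n) by push_cast; ring,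
    jacobiSym.mul_left, jacobiSym.pow_left, jacobiSym.sq_one (by
      rw [Int.gcd_natCast_natCast]; exact h), one_mul]

theorem tt_comm (hl : l ≠ 0) (hp : p ≠ 0) (h : l.Coprime p) (x : Cf N) :
    TT 1 l (TT 1 p x) = TT 1 p (TT 1 l x) := by
  funext n r
  have c1 : (p ^ 2).Coprime (l ^ 2) := Nat.Coprime.pow 2 2 h.symm
  have l0 := pow_pos (Nat.pos_of_ne_zero hl) 2
  have p0 := pow_pos (Nat.pos_of_ne_zero hp) 2
  simp only [TT, jsq h, jsq h.symm, c1.dvd_mul_left, c1.symm.dvd_mul_left, jacobiSym.one_right,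
    one_mul, mul_left_comm (p ^ 2) (l ^ 2), mul_left_comm (p : ZMod (2 * N)) l,
    mul_left_comm (p : ZMod (2 * N))⁻¹ l, mul_left_comm (l : ZMod (2 * N))⁻¹ p,
    mul_left_comm (p : ZMod (2 * N))⁻¹ (l : ZMod (2 * N))⁻¹]
  by_cases h1 : l ^ 2 ∣ n <;> by_cases h2 : p ^ 2 ∣ n
  · obtain ⟨k, rfl⟩ := c1.symm.mul_dvd_of_dvd_of_dvd h1 h2
    have e1 : l ^ 2 * p ^ 2 * k / l ^ 2 = p ^ 2 * k := by rw [mul_assoc, Nat.mul_div_cancel_left _ l0]
    have e2 : l ^ 2 * p ^ 2 * k / p ^ 2 = l ^ 2 * k := by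
      rw [mul_right_comm, Nat.mul_div_cancel _ p0]
    have j1 := jsq h (p ^ 2 * k)
    have j2 := jsq h.symm (l ^ 2 * k)
    rw [← mul_assoc (l ^ 2)] at j1
    rw [← mul_assoc (p ^ 2), mul_comm (p ^ 2)] at j2
    simp only [h1, h2, if_true, Nat.mul_div_assoc _ h1, Nat.mul_div_assoc _ h2, e1, e2,
      dvd_mul_right, Nat.mul_div_cancel_left _ l0, Nat.mul_div_cancel_left _ p0, j1, j2]
    ring
  · obtain ⟨k, rfl⟩ := h1
    have h3 : ¬ p ^ 2 ∣ k := fun q => h2 (q.mul_left _)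
    simp only [h2, h3, dvd_mul_right, if_true, if_false, Nat.mul_div_cancel_left _ l0, jsq h,
      mul_left_comm (p ^ 2) (l ^ 2)]
    ring
  · obtain ⟨k, rfl⟩ := h2
    have h3 : ¬ l ^ 2 ∣ k := fun q => h1 (q.mul_left _)
    simp only [h1, h3, dvd_mul_right, if_true, if_false, Nat.mul_div_cancel_left _ p0, jsq h.symm,
      mul_left_comm (l ^ 2) (p ^ 2) k]
    ring
  · simp only [h1, h2, if_false]
    ring

theorem pp_ext {c c' : PP N} (h : ∀ x, pr x c = pr x c') : c = c' := by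
  ext i
  have := h fun n r => if (n, r) = i then 1 else 0
  have e : ∀ c : PP N, (if c i = 0 then 0 else c i) = c i := fun c => by split_ifs with q <;> simp [q]
  simpa [pr, Finsupp.sum, Finsupp.mem_support_iff, ite_not, e] using this

theorem Tt_comm (hl : l.Prime) (hp : p.Prime) (c : PP N) : Tt 1 l (Tt 1 p c) = Tt 1 p (Tt 1 l c) := by
  rcases eq_or_ne l p with rfl | h
  · rfl
  exact pp_ext fun x => by
    simp only [pr_tt, tt_comm hl.ne_zero hp.ne_zero ((Nat.coprime_primes hl hp).2 h)]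

theorem u1_eq (p : ℕ) (c : PP N) : U1 p c = Tt 1 p c - (p + 1 : ℂ) • c := rfl

theorem Tt_u1 (hl : l.Prime) (hp : p.Prime) (c : PP N) : Tt 1 l (U1 p c) = U1 p (Tt 1 l c) := by
  rw [u1_eq, u1_eq, map_sub, map_smul, Tt_comm hl hp]

end Kp

open Kp

theorem u1_comm (hl : l.Prime) (hp : p.Prime) (c : PP N) : U1 l (U1 p c) = U1 p (U1 l c) := by
  rw [u1_eq l, u1_eq l, map_sub, map_smul, Tt_u1 hl hp]

theorem act_u1 (hp : p.Prime) (P : FA N) (c : PP N) :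
    Gl.act 1 P (U1 p c) = U1 p (Gl.act 1 P c) := by
  induction P using FreeAlgebra.induction generalizing c with
  | grade0 r => simp [Gl.act, Algebra.algebraMap_eq_smul_one]
  | grade1 l => simpa [Gl.act] using Tt_u1 l.2.1 hp c
  | mul P Q h1 h2 =>
    simp only [Gl.act, map_mul, Module.End.mul_apply] at h1 h2 ⊢
    rw [h2, h1]
  | add P Q h1 h2 =>
    simp only [Gl.act, map_add, LinearMap.add_apply] at h1 h2 ⊢
    rw [h2, h1]

theorem mm_u1 (hl : l.Prime) (h : ¬ l ∣ 2 * N) (hc : c ∈ MM N 1 d) : U1 l c ∈ MM N 1 d :=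
  sub_mem (Gl.mm_tt hl (by rwa [mul_one]) hc) (Submodule.smul_mem _ _ hc)

theorem io_u1 (hl : l ≠ 0) (hc : c ∈ IO 1 d) : U1 l c ∈ IO 1 d := by
  refine sub_mem (io_Tt hl hc) ?_
  have := nsmul_mem hc (l + 1)
  rwa [← Nat.cast_smul_eq_nsmul ℂ, Nat.cast_add_one] at this

/-- the shadow is an eigenform -/
theorem shadow (hc : Adm 1 c) (h : ∀ l : ℕ, l.Prime → ¬ l ∣ 2 * N → ∀ y, IsS 1 y →
    pr y (Tt 1 l c) = a l * pr y c) : ∃ b x, Harm 1 b x c ∧ Eig 1 (2 * N * 1) a x ∧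
      ∀ y, IsS 1 y → pr y c = B y x := by
  obtain ⟨b, x, H⟩ := exh1 hc
  have e := (pair1 H).2
  refine ⟨b, x, H, fun l hl q => ?_, e⟩
  rw [mul_one] at q
  refine eq_of_B1 _ H.s (hecke1 hl q H.s) fun y hy => ?_
  rw [← self1 hl q hy H.s, B, B, ← e _ (hecke1 hl q hy), ← e _ hy, ← pr_tt, h l hl q y hy]

/-- **the local symbols** -/
theorem kap (bd : BD1) (dv : DIV1) (gx : GENX1) (hK : KER1) (rn : RN N G a) (h : Dz N p d β)
    (hs : Reps (Gamma0 N) (B1 N p d β) s) {V : ℕ → AbsoluteValue ℂ ℝ} {m : ℕ} {f : D.E →+ ℝ}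
    {J : ℕ → (ℍ → ℤ) →+ ℝ} {ι : ℕ → ℕ → ZMod (2 * N) → ℚ}
    (A : Ao D d (B1 N p d β) s V m f J ι) (hV : PlC V) {θ : ℂ} {xm : D.E → Mer}
    (X : Cx D 1 (B1 N p d β) s θ xm) (hc : c ∈ MM N 1 d) (ci : IsInt c) {x : Cf N} (hx : IsS 1 x)
    (he : Eig 1 (2 * N * 1) a x) {μ : ℂ} (hp : ∀ y, IsS 1 y → pr y c = μ * B y x) {n n' : ℍ → ℤ}
    (hn : cs n = Zc 1 (U1 p c)) (hl : l.Prime) (l2 : ¬ l ∣ 2 * N)
    (hn' : ∀ z, n' z = ∑ j, n (nb l j z) - (l + 1) * n z) {κ : ℕ → ℤ}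
    (hκ : ∀ q, pr (fun n r => (ka1 p d β q n r : ℂ)) (U1 l c) = κ q) :
    Eg N 1 n' ∧ ∀ q : ℕ, q.Prime → ∃ V, Ov V q ∧ V q = (q : ℝ)⁻¹ ∧ ∀ h' t' u', Dec D s n' h' t' u' →
      D.ex t' ∈ Rt D.A D.B → D.ex u' ∈ Rt D.A D.B → D.Gd s (D.ex t') → D.Gd s (D.ex t' + D.ex u') →
      Sy D (B1 N p d β) s V h' t' u' + Sy D (B1 N p d β) s (cV V) h' t' u' = -(κ q * log q) := by
  have i1 : U1 p (U1 l c) ∈ IO 1 d := io_u1 h.pr.ne_zero (io_u1 hl.ne_zero ⟨ci, mm_off hc⟩)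
  have e : cs n' = Zc 1 (U1 p (U1 l c)) := by
    rw [← u1_comm hl h.pr, u1_eq l, sub_eq_neg_add, ← _root_.neg_smul, Gl.zc_comb,
      (dv N).2 l hl (by rwa [mul_one]), ← hn]
    funext z
    simp only [cs, hn', Pi.add_apply, Pi.smul_apply, smul_eq_mul, Tdiv_eq hl, nb]
    push_cast
    ring
  have eg := eg1 gx D rn i1.1 (off_zero i1.2) e
  refine ⟨eg, fun q hq => ⟨V q, ov_of hV hq, hV.self q hq, fun h' t' u' e0 r1 r2 g1 g2 => ?_⟩⟩
  obtain ⟨y, e1⟩ := X.rat e0 eg g1 g2 (Se.rt_fo r1) (Se.rt_fo r2) (ov_of hV hq)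
  obtain ⟨y', e2⟩ := X.rat e0 eg g1 g2 (Se.rt_fo r1) (Se.rt_fo r2) ((ov_of hV hq).comp _)
  rw [hV.self q hq, log_inv] at e1
  have e2' : Sy D (B1 N p d β) s (cV (V q)) h' t' u' = y' * -log q := by
    refine e2.trans ?_
    rw [← log_inv, ← hV.self q hq]
    exact congrArg (fun t => y' * log (V q t)) (map_natCast H.cj q)
  have e3 := A.io q _ n' (-(y + y')) hq i1.1 i1.2 e (by
    rw [A.sy q _ _ _ _ hq e0, e1, e2']
    push_cast
    ring)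
  have e4 := Gu.fin bd lift1 bor0 hK rn h hs A (mm_adm (mm_u1 hl l2 hc)) (mm_off (mm_u1 hl l2 hc))
    hx he (μ := μ * (a l - l - 1)) (fun y hy => by
      rw [Ge.pr_u1, hp _ (hecke1 hl l2 hy), hp y hy, B_tt1 hx he hy hl l2 (by rwa [mul_one])]
      ring) q
  rw [e3, hκ] at e4
  have e5 : (κ q : ℝ) = y + y' := by
    have : ((κ q : ℚ) : ℂ) = ((y + y' : ℚ) : ℂ) := by push_cast at e4 ⊢; linear_combination e4
    exact_mod_cast congrArg (fun t : ℚ => (t : ℝ)) (Rat.cast_injective this)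
  rw [e1, e2', e5]
  ring

end Vale.Agent.P014T.Tg
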