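import Mathlib

/-! # P014T, block T: functions with a parallelogram law -/

set_option autoImplicit false
set_option linter.all false

noncomputable section

namespace Vale.Agent.P014T.Tg

variable {G A : Type*} [AddCommGroup G] [AddCommGroup A] {s : G → A}

theorem aff (H : AddSubgroup G) {e : G → G → A}
    (par : ∀ x y, s (x + y) + s (x - y) = 2 • s x + 2 • s y + e x y)
    (inv : ∀ ε ∈ H, ∀ x y, e (x + ε) y = e x y) :
    ∃ F : H →+ G →+ A, ∀ (ε : H) x, F ε x = 2 • (s (x + ε) - s x - s ε + s 0) := by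
  have k : ∀ ε ∈ H, ∀ x y, s (x + y + ε) - s (x + y) + (s (x - y + ε) - s (x - y)) =
      2 • (s (x + ε) - s x) := fun ε h x y => by
    have h1 := par (x + ε) y
    rw [inv ε h, add_right_comm, add_sub_right_comm] at h1
    linear_combination (norm := module) h1 - par x y
  have k2 : ∀ ε ∈ H, ∀ x y, 2 • (s (x + y + ε) - s (x + y) - s ε + s 0) =
      2 • (s (x + ε) - s x - s ε + s 0) + 2 • (s (y + ε) - s y - s ε + s 0) := fun ε h x y => by
    have h1 := k ε h x y
    have h2 := k ε h y x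
    have h3 := k ε h 0 (x - y)
    rw [add_comm y x] at h2
    rw [zero_add, zero_add, zero_sub, neg_sub] at h3
    linear_combination (norm := module) h1 + h2 - h3
  refine ⟨AddMonoidHom.mk' (fun ε => AddMonoidHom.mk' (fun x => 2 • (s (x + ε) - s x - s ε + s 0))
    (k2 ε ε.2)) fun ε ε' => AddMonoidHom.ext fun x => ?_, fun _ _ => rfl⟩
  have h1 := k2 ε ε.2 x ε'
  change 2 • (s (x + (ε + ε')) - s x - s (ε + ε') + s 0) =
    2 • (s (x + ε) - s x - s ε + s 0) + 2 • (s (x + ε') - s x - s ε' + s 0)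
  rw [add_comm (ε : G) ε', ← add_assoc]
  linear_combination (norm := module) h1

variable {ι : Type*} [Fintype ι] {B : ι → ℤ}

/-- the expression which vanishes for quadratic functions -/
def Ee (s : G → A) (B : ι → ℤ) (I : ι → G) (t u : G) (c : ℤ) (k : ℕ) : A :=
  k • ∑ b, B b • (s (I b - (t + c • u)) - s (I b - t)) + s (c • k • ∑ b, B b • I b) + s u -
    s (c • k • ∑ b, B b • I b - u)

theorem e2 (par : ∀ x y, s (x + y) + s (x - y) = 2 • s x + 2 • s y) (s0 : s 0 = 0)
    (h0 : ∑ b, B b = 0) (I : ι → G) (t u : G) (c : ℤ) (k : ℕ) : 2 • Ee s B I t u c k = 0 := by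
  obtain ⟨F, hF⟩ := aff (s := s) ⊤ (e := fun _ _ => 0) (by simpa using par) fun _ _ _ _ => rfl
  have n : s (-u) = s u := by
    have := par 0 u
    rw [zero_add, zero_sub, s0] at this
    linear_combination (norm := module) this
  let v : (⊤ : AddSubgroup G) := ⟨-u, trivial⟩
  have h1 : ∀ b, 2 • (s (I b - (t + c • u)) - s (I b - t)) =
      c • (F v (I b) - F v t) + 2 • s (c • -u) := fun b => by
    have := hF (c • v) (I b - t)
    rw [map_zsmul, AddMonoidHom.zsmul_apply, map_sub, s0] at this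
    rw [this, show I b - (t + c • u) = I b - t + (c • v : (⊤ : AddSubgroup G)) by
      simp [v]; abel]
    change _ = 2 • (_ - _ - s (c • -u) + 0) + _
    module
  have h2 := hF v (c • k • ∑ b, B b • I b)
  rw [map_zsmul, map_nsmul, map_sum, s0] at h2
  change _ = 2 • (s (_ + -u) - _ - s (-u) + 0) at h2
  rw [n, ← sub_eq_add_neg] at h2
  have h3 : 2 • ∑ b, B b • (s (I b - (t + c • u)) - s (I b - t)) = c • ∑ b, F v (B b • I b) := by
    rw [Finset.smul_sum, Finset.sum_congr rfl fun b _ => show _ = c • F v (B b • I b) +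
      B b • (2 • s (c • -u) - c • F v t) by rw [smul_comm, h1, map_zsmul]; module,
      Finset.sum_add_distrib, ← Finset.sum_smul, h0, zero_smul, add_zero, Finset.smul_sum]
  rw [Ee]
  linear_combination (norm := module) k • h3 + h2

theorem e3 (H : AddSubgroup G) {e : G → G → A}
    (par : ∀ x y, s (x + y) + s (x - y) = 2 • s x + 2 • s y + e x y)
    (inv : ∀ ε ∈ H, ∀ x y, e (x + ε) y = e x y) {J : Type*} [Fintype J] (I : ι → G) (I' : ι → J → G)
    (h : ∀ b j, I' b j - I b ∈ H) (t u : G) (k : ℕ) {w : G}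
    (hw : w = k • ∑ b, B b • ∑ j, (I' b j - I b)) : w ∈ H ∧
    2 • k • ∑ b, B b • ∑ j, (s (I' b j - (t + u)) - s (I' b j - t) -
      (s (I b - (t + u)) - s (I b - t))) = 2 • (s (w - u) - s (-u) - s w + s 0) := by
  obtain ⟨F, hF⟩ := aff H par inv
  let ε : ι → J → H := fun b j => ⟨_, h b j⟩
  have h1 : ∀ b j, 2 • (s (I' b j - (t + u)) - s (I' b j - t) -
      (s (I b - (t + u)) - s (I b - t))) = F (ε b j) (-u) := fun b j => by
    have a1 := hF (ε b j) (I b - (t + u))
    have a2 := hF (ε b j) (I b - t)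
    rw [show I b - (t + u) + ε b j = I' b j - (t + u) by simp [ε]] at a1
    rw [show I b - t + ε b j = I' b j - t by simp [ε]] at a2
    rw [show -u = I b - (t + u) - (I b - t) by abel, map_sub, a1, a2]
    module
  have h2 : w = (k • ∑ b, B b • ∑ j, ε b j : H) := by simp [hw, ε]
  refine ⟨h2 ▸ Subtype.prop _, ?_⟩
  rw [sub_eq_neg_add w, h2, ← hF, smul_comm]
  simp only [map_nsmul, map_sum, map_zsmul, AddMonoidHom.nsmul_apply, AddMonoidHom.finsetSum_apply,
    AddMonoidHom.zsmul_apply, ← h1, Finset.smul_sum, smul_comm (2 : ℕ)]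

/-! ### units, written additively -/

/-- a number as a unit -/
def am (z : ℂ) : Additive ℂˣ := by
  classical exact Additive.ofMul (if h : z = 0 then 1 else Units.mk0 z h)

/-- a unit as a number -/
def vl (x : Additive ℂˣ) : ℂ := (x.toMul : ℂˣ)

theorem vl_ne (x : Additive ℂˣ) : vl x ≠ 0 := x.toMul.ne_zero

theorem vl_am {z : ℂ} (h : z ≠ 0) : vl (am z) = z := by simp [vl, am, h]

theorem vl_inj {x y : Additive ℂˣ} (h : vl x = vl y) : x = y :=
  Additive.toMul.injective (Units.ext h)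

theorem am_vl (x : Additive ℂˣ) : am (vl x) = x := vl_inj (vl_am (vl_ne x))

theorem vl_add (x y : Additive ℂˣ) : vl (x + y) = vl x * vl y := by simp [vl]

theorem vl_sub (x y : Additive ℂˣ) : vl (x - y) = vl x / vl y := by simp [vl]

theorem vl_nsmul (n : ℕ) (x : Additive ℂˣ) : vl (n • x) = vl x ^ n := by simp [vl]

theorem am_mul {x y : ℂ} (h : x ≠ 0) (h' : y ≠ 0) : am (x * y) = am x + am y :=
  vl_inj (by rw [vl_add, vl_am h, vl_am h', vl_am (mul_ne_zero h h')])

theorem am_div {x y : ℂ} (h : x ≠ 0) (h' : y ≠ 0) : am (x / y) = am x - am y :=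
  vl_inj (by rw [vl_sub, vl_am h, vl_am h', vl_am (div_ne_zero h h')])

theorem am_pow {x : ℂ} (h : x ≠ 0) (n : ℕ) : am (x ^ n) = n • am x :=
  vl_inj (by rw [vl_nsmul, vl_am h, vl_am (pow_ne_zero n h)])

theorem am_zpow {x : ℂ} (h : x ≠ 0) (n : ℤ) : am (x ^ n) = n • am x :=
  vl_inj (by rw [vl_am (zpow_ne_zero n h)]; simp [vl, am, h])

theorem am_one : am 1 = 0 := vl_inj (by rw [vl_am one_ne_zero]; rfl)

theorem am_prod {J : Type*} (T : Finset J) {f : J → ℂ} (h : ∀ j ∈ T, f j ≠ 0) :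
    am (∏ j ∈ T, f j) = ∑ j ∈ T, am (f j) := by
  classical
  induction T using Finset.induction_on with
  | empty => simpa using am_one
  | insert j T hj ih =>
    have h' := fun i hi => h i (Finset.mem_insert_of_mem hi)
    rw [Finset.prod_insert hj, Finset.sum_insert hj, am_mul (h j (Finset.mem_insert_self _ _))
      (Finset.prod_ne_zero_iff.2 h'), ih h']

/-- the logarithm of an absolute value -/
def lv (V : AbsoluteValue ℂ ℝ) : Additive ℂˣ →+ ℝ :=
  AddMonoidHom.mk' (fun x => Real.log (V (vl x))) fun x y => by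
    rw [vl_add, map_mul, Real.log_mul (V.ne_zero (vl_ne x)) (V.ne_zero (vl_ne y))]

theorem lv_am (V : AbsoluteValue ℂ ℝ) {z : ℂ} (h : z ≠ 0) : lv V (am z) = Real.log (V z) :=
  congrArg (fun x => Real.log (V x)) (vl_am h)

/-- the action of automorphisms -/
def gs (σ : ℂ ≃+* ℂ) : Additive ℂˣ →+ Additive ℂˣ :=
  AddMonoidHom.mk' (fun x => am (σ (vl x))) fun x y => by
    rw [vl_add, map_mul, am_mul ((map_ne_zero σ).2 (vl_ne x)) ((map_ne_zero σ).2 (vl_ne y))]

theorem gs_am (σ : ℂ ≃+* ℂ) {z : ℂ} (h : z ≠ 0) : gs σ (am z) = am (σ z) :=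
  congrArg (fun x => am (σ x)) (vl_am h)

theorem vl_gs (σ : ℂ ≃+* ℂ) (x : Additive ℂˣ) : vl (gs σ x) = σ (vl x) :=
  vl_am ((map_ne_zero σ).2 (vl_ne x))

/-- principal units -/
def U1 {V : AbsoluteValue ℂ ℝ} (h : IsNonarchimedean V) : AddSubgroup (Additive ℂˣ) where
  carrier := {x | V (vl x - 1) < 1}
  zero_mem' := by simp [vl]
  add_mem' {x y} a b := by
    change V (vl _ - 1) < 1 at a b ⊢
    rw [vl_add, show vl x * vl y - 1 = (vl x - 1) * (vl y - 1) + ((vl x - 1) + (vl y - 1)) by ring]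
    refine (h _ _).trans_lt (max_lt ?_ ((h _ _).trans_lt (max_lt a b)))
    rw [map_mul]
    exact mul_lt_one_of_nonneg_of_lt_one_left (V.nonneg _) a b.le
  neg_mem' {x} a := by
    change V (vl _ - 1) < 1 at a ⊢
    have n := vl_ne x
    have e : 1 ≤ V (vl x) := not_lt.1 fun c => by
      have := h (vl x) (-(vl x - 1))
      rw [V.map_neg, show vl x + -(vl x - 1) = 1 by ring, map_one] at this
      exact (max_lt c a).not_ge this
    rw [show vl (-x) - 1 = -(vl x - 1) / vl x by simp [vl]; field_simp [n], map_div₀, V.map_neg]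
    exact (div_le_self (V.nonneg _) e).trans_lt a

theorem am_cong {V : AbsoluteValue ℂ ℝ} (h : IsNonarchimedean V) {x y : ℂ} (a : V y = 1)
    (b : V (x - y) < 1) : x ≠ 0 ∧ y ≠ 0 ∧ am x - am y ∈ U1 h := by
  have y0 : y ≠ 0 := fun e => by simp [e] at a
  have x0 : x ≠ 0 := fun e => by simp [e, a] at b
  refine ⟨x0, y0, show V (vl _ - 1) < 1 from ?_⟩
  rwa [vl_sub, vl_am x0, vl_am y0, div_sub_one y0, map_div₀, a, div_one]

end Vale.Agent.P014T.Tg
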