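import Vale.Agent.P014T.Tg.St
import Vale.Agent.P014T.Z.Lift
import Vale.Agent.P014T.Z.Glue
import Vale.Agent.P014T.Z.Aro

/-! # P014T, block T: the geometric data of the tame formula (helper87) -/

set_option autoImplicit false
set_option linter.all false

open UpperHalfPlane CongruenceSubgroup
open scoped MatrixGroups Classical

noncomputable section

namespace Vale.Agent.P014T.Tg

open P004Z P004Z.Ar P014T.Z P014T.Gx Vale.Agent.P022.H218.L3 Vale.Agent.P022.H236.L3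
  Vale.Agent.P004H.H666
open Vale.Agent.P022K.F0.Cf (od ev od_mul)
open P004Z.H (sp Fo)
open P004Z.Gl (MM mm_adm mm_off)
open P004N (RN)

namespace Se

variable {N : ℕ} {a : ℕ → ℤ} {D : Pz N a} {s : Finset ℍ}

theorem dec_add {n n' : ℍ → ℤ} {h h' : MF (Gamma0 N)} {t u u' : ℂ} (d : Dec D s n h t u)
    (d' : Dec D s n' h' (t + u) u') : Dec D s (n + n') (h * h') t (u + u') := by
  refine ⟨mul_ne_zero d.ne d'.ne, fun P q => ⟨mul_mem (d.cum P q).1 (d'.cum P q).1, ?_⟩, d.n1,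
    add_assoc t u u' ▸ d'.n2, fun b hb => ⟨(d.off b hb).1, add_assoc t u u' ▸ (d'.off b hb).2.1,
      by rw [Pi.add_apply, (d.off b hb).2.2, (d'.off b hb).2.2, add_zero]⟩, fun τ => ?_⟩
  · rw [mul_inv]
    exact mul_mem (d.cum P q).2 (d'.cum P q).2
  · rw [Pi.add_apply, d.eq, d'.eq, show ((h * h' : MF (Gamma0 N)) : Mer) = h * h' from rfl,
      od_mul τ d.ne' d'.ne', add_assoc t]
    ring

theorem dec_mul {n : ℍ → ℤ} {t u : ℂ} (J : ℕ)
    (H : ∀ i : ℕ, i ≤ J → ∃ h, Dec D s n h (t + i * u) u) :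
    ∃ h, Dec D s (((J + 1 : ℕ) : ℤ) • n) h t ((J + 1 : ℕ) * u) := by
  induction J with
  | zero => simpa using H 0 le_rfl
  | succ J ih =>
    obtain ⟨h, d⟩ := ih fun i hi => H i (hi.trans (Nat.le_succ _))
    obtain ⟨h', d'⟩ := H (J + 1) le_rfl
    refine ⟨h * h', ?_⟩
    convert dec_add d d' using 1
    · push_cast
      rw [add_smul (J + 1 : ℤ), one_smul]
    · push_cast
      ring

theorem rt_fo {A B : ℤ} {P : H.EC A B} (h : P ∈ Rt A B) : P ∈ Fo A B :=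
  (Set.finite_singleton P).subset (by rintro _ ⟨σ, rfl⟩; exact h σ)

theorem fib [NeZero N] (D : Pz N a) (s : Finset ℍ) :
    (D.pi '' {z | ∃ b ∈ s, jf z = jf b}).Finite := by
  refine (s.finite_toSet.biUnion fun b _ => Set.finite_range
    fun q : SL(2, ℤ) ⧸ Gamma0 N => D.pi (q.out⁻¹ • b)).subset ?_
  rintro _ ⟨z, ⟨b, hb, e⟩, rfl⟩
  obtain ⟨γ, rfl⟩ := Fn.j_inj e.symm
  obtain ⟨g, hg⟩ := QuotientGroup.mk_out_eq_mul (Gamma0 N) γ⁻¹
  refine Set.mem_biUnion hb ⟨QuotientGroup.mk γ⁻¹, ?_⟩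
  simp only [hg, mul_inv_rev, inv_inv, mul_smul]
  exact D.pi_inv _ (inv_mem g.2) _

/-- good rational base points -/
theorem ex_t (Y : Rt D.A D.B) (hY : ∀ j : ℤ, j ≠ 0 → j • Y ≠ 0) {X : Set D.E} (hX : X.Finite)
    (Q : D.E) (J : ℕ) : ∃ T ∈ Rt D.A D.B, ∀ i ≤ J, T + i • Q ∉ X := by
  have inf : (Rt D.A D.B : Set D.E).Infinite :=
    Set.infinite_of_injective_forall_mem (f := fun j : ℤ => (j • Y).1) (fun i j e =>
      by_contra fun q => hY (i - j) (sub_ne_zero.2 q) (by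
        rw [sub_smul, Subtype.ext e, sub_self])) fun j => (j • Y).2
  obtain ⟨T, h1, h2⟩ := inf.exists_notMem_finite
    ((Set.finite_le_nat J).biUnion fun i _ => hX.image (· - i • Q))
  exact ⟨T, h1, fun i hi q => h2 (Set.mem_biUnion hi ⟨_, q, add_sub_cancel_right _ _⟩)⟩

end Se

open Se

variable {N : ℕ} [NeZero N] {a : ℕ → ℤ} {D : Pz N a} {s : Finset ℍ} {p d : ℕ} {β : ℤ}
  {G : ℍ → ℂ}

/-- the points of `s` are CM points of large discriminant -/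
theorem cm_s (bd : BD1) (h : Dz N p d β) (hs : Reps (Gamma0 N) (B1 N p d β) s) :
    ∀ b ∈ s, Cm N b := fun b hb => by
  obtain ⟨h1, h2⟩ := (bd N p d β h).2.2.2.2 b (hs.sup b hb)
  have big := h.dat.big
  have N0 := NeZero.pos N
  refine ⟨?_, fun l l0 e => ?_⟩
  · by_contra q
    refine h1 (finsum_eq_zero_of_forall_eq_zero fun l => if_neg fun k => q ⟨l, ?_, k.2.1⟩)
    rintro rfl
    exact lt_irrefl _ k.2.2
  · have n0 := Hd.root_neg e fun k => l0 (Hd.root_zero e k)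
    obtain ⟨n, hn⟩ := Int.eq_ofNat_of_zero_le (neg_nonneg.2 n0.le)
    obtain ⟨r, hr⟩ := h2 n l (by omega) e
    rw [one_mul] at hr
    obtain ⟨k, rfl⟩ := (h.dat.sq.dvd_pow_iff_dvd two_ne_zero).1 ⟨n, by rw [sq, ← hr]⟩
    have : n = d * k * k := mul_left_cancel₀ h.dat.sq.ne_zero (by rw [hr]; ring)
    have k0 : 0 < k := Nat.pos_of_ne_zero (by rintro rfl; omega)
    have : d ≤ n := by rw [this, mul_assoc]; exact Nat.le_mul_of_pos_right _ (by positivity)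
    have : 4 * N ^ 2 ≤ 64 * N ^ 4 := by
      have := Nat.pow_le_pow_right N0 (show 2 ≤ 4 by norm_num)
      omega
    have : ((4 * N ^ 2 : ℕ) : ℤ) < n := by exact_mod_cast (by omega)
    push_cast at this
    omega

/-- divisors off the square class vanish on the fibres of `j` -/
theorem zc_fib (bd : BD1) (h : Dz N p d β) (hs : Reps (Gamma0 N) (B1 N p d β) s) {c : PP N}
    (ho : Off 1 d c) {b : ℍ} (hb : b ∈ s) {z : ℍ} (e : jf z = jf b) : Zc 1 c z = 0 := by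
  obtain ⟨γ, rfl⟩ := Fn.j_inj e.symm
  exact Gl.zc_zero fun i hi l h1 h2 => ho i hi (((bd N p d β h).2.2.2.2 b (hs.sup b hb)).2 i.1
    (fa l γ) (by rw [Hd.disc_fa, h1]; simp) ((Hd.root_fa l γ b).2 h2))

/-- the value of the generating series at the index `(d, β)` -/
theorem xg_val (gx : GENX1) (wn : WN1) (rn : RN N G a) (h : Dz N p d β)
    (hs : Reps (Gamma0 N) (B1 N p d β) s)
    (q1 : ∀ z z' : ℍ, (z' : ℂ) = -1 / (N * z) → D.I z' = D.I z) {l : ℂ →+ ℂ} (hl : D.Ki l) :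
    (a p - p - 1) * xg D l d β = 2 * ix N * l (∑ b ∈ s, B1 N p d β b • D.I b) := by
  have z0 : ∀ r, Finsupp.single (d, (β : ZMod (2 * N))) (1 : ℂ) (0, r) = 0 := fun r =>
    Finsupp.single_eq_of_ne fun e => h.dat.sq.ne_zero.symm (congrArg Prod.fst e)
  obtain ⟨x1, x2⟩ := gx N G a D rn
  obtain ⟨-, -, x3⟩ := x2 _ hl
  have e4 := (x3 _ z0).2 (Gu.uP h.toPz1)
  rw [(x3 _ ((x1 _ z0).2 (Gu.uP h.toPz1)).1).1, Gu.act_u, (wn N p d β h).2 s _ hs (fun γ hγ z => by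
    simpa [sub_eq_zero] using hl _ (D.inv γ hγ z)) 1 0 (fun z z' e => by
      simp [q1 z z' e]), Gu.lmb_u, Gl.pr_single, one_mul] at e4
  push_cast at e4
  rw [← e4, evd, map_sum]
  simp only [map_zsmul]
  simp only [zsmul_eq_mul, Function.comp]
  ring

/-- **the data for `T2`** -/
theorem setup (bd : BD1) (gx : GENX1) (wn : WN1) (rn : RN N G a) (h : Dz N p d β)
    (hs : Reps (Gamma0 N) (B1 N p d β) s) {V : ℕ → AbsoluteValue ℂ ℝ} {m : ℕ} {l : D.E →+ ℝ}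
    {J : ℕ → (ℍ → ℤ) →+ ℝ} {ι : ℕ → ℕ → ZMod (2 * N) → ℚ}
    (A : Ao D d (B1 N p d β) s V m l J ι) (dg : Dg D m) {P : FA N} (hP : Pj N a P)
    (P0 : lmb a P ≠ 0) (q1 : ∀ z z' : ℍ, (z' : ℂ) = -1 / (N * z) → D.I z' = D.I z)
    (Y : Rt D.A D.B) (hY : Y.1 = yK D (B1 N p d β) s) (Y0 : ∀ j : ℤ, j ≠ 0 → j • Y ≠ 0)
    {c : PP N} (hc : c ∈ MM N 1 d) (ci : IsInt c) {kc : ℕ} (k0 : 0 < kc)
    (hk : ∀ x, IsS 1 x → Eig 1 (2 * N * 1) a x → pr x c = kc * x d β) :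
    ∃ (k : ℕ) (n : ℍ → ℤ) (f : MF (Gamma0 N)) (t u : ℂ) (U : Rt D.A D.B) (M : ℤ), 0 < k ∧
      cs n = (k : ℂ) • Zc 1 (Gl.act 1 P (U1 p c)) ∧ Eg N 1 n ∧ Dec D s n f t u ∧
      D.ex t ∈ Rt D.A D.B ∧ U.1 = D.ex u ∧ D.Gd s (D.ex t) ∧ D.Gd s (D.ex t + D.ex u) ∧
      (∀ b ∈ s, ∀ z, jf z = jf b → n z = 0 ∧ D.pi z ≠ D.ex t ∧ D.pi z ≠ D.ex (t + u)) ∧
      (∀ j : ℤ, j ≠ 0 → j • U ≠ 0) ∧ M ≠ 0 ∧ U = M • Y ∧
      m * M = 2 * ix N * k * kc * lmb a P := by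
  have pz := h.toPz1
  have i0 := Gu.io_u pz (d := d) ⟨ci, mm_off hc⟩
  have i1 : Gl.act 1 P (U1 p c) ∈ IO 1 d := io_lift P _ i0
  obtain ⟨a1, x1, h1⟩ := exh1 (mm_adm hc)
  obtain ⟨Φ, g, -⟩ := lift1 N p pz _ _ _ h1
  obtain ⟨κ, -, e0⟩ := ex_nc (δ := 1) i1.1
  generalize ∑ i ∈ (Gl.act 1 P (U1 p c)).support, κ i • Zd N 1 i.1 i.2 = n at e0
  obtain ⟨k, u, k1, fu, hl, -, dc⟩ := A.dec P _ Φ n hP i0.1 i0.2 g e0
  obtain ⟨j, j0, hj⟩ := lq (Λ := D.Λ) (u := m * u - (2 * ix N * k * kc * lmb a P : ℤ) *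
    ∑ b ∈ s, B1 N p d β b • D.I b) fun l' hl' => by
      obtain ⟨y1, y2, y3⟩ := (gx N G a D rn).2 l' hl'
      have e1 := (y3 c (mm_adm hc).zero).2 (Gu.uP pz)
      rw [Gu.act_u, Gu.lmb_u, hk _ y1 y2] at e1
      have e2 := xg_val gx wn rn h hs q1 hl'
      have e3 := hl l' hl'
      rw [map_sub, ← nsmul_eq_mul, ← zsmul_eq_mul, map_nsmul, map_zsmul, nsmul_eq_mul,
        zsmul_eq_mul, e3, e1]
      push_cast
      linear_combination (k * kc * lmb a P : ℂ) * e2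
  have ey : D.ex (∑ b ∈ s, B1 N p d β b • D.I b) = Y.1 := by
    rw [hY, map_sum]
    exact Finset.sum_congr rfl fun b _ => map_zsmul _ _ _
  obtain ⟨J', hJ⟩ : ∃ J', j * m = J' + 1 :=
    Nat.exists_eq_succ_of_ne_zero (mul_pos j0 dg.pos).ne'
  have eu : D.ex ((J' + 1 : ℕ) * u) = ((j * (2 * ix N * k * kc * lmb a P) : ℤ) • Y).1 := by
    rw [AddSubgroup.coe_zsmul, ← ey, ← map_zsmul, D.ex_eq, ← hJ]
    convert hj using 1
    rw [zsmul_eq_mul]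
    push_cast
    ring
  obtain ⟨T, t1, t2⟩ := ex_t Y Y0 ((D.fin_bad s).union (fib D s)) (D.ex u) (J' + 1)
  obtain ⟨t, rfl⟩ := D.surj T
  have ea : ∀ i : ℕ, D.ex (t + i * u) = D.ex t + i • D.ex u := fun i => by
    rw [map_add, ← nsmul_eq_mul, map_nsmul]
  have gd : ∀ i ≤ J' + 1, D.Gd s (D.ex t + i • D.ex u) := fun i hi => by_contra fun q =>
    t2 i hi (.inl ⟨add_mem (rt_fo t1) (nsmul_mem fu _), q⟩)
  obtain ⟨f, hf⟩ := dec_mul (D := D) (s := s) (n := (k : ℤ) • n) (t := t) (u := u) J' fun i hi =>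
    dc _ (ea i ▸ gd i (by omega)) (by rw [ea, add_assoc, ← succ_nsmul]; exact gd _ (by omega))
  have ix0 := (wn N p d β h).1
  have M0 : (j * (2 * ix N * k * kc * lmb a P) : ℤ) ≠ 0 := by positivity
  have nf : ∀ i ≤ J' + 1, ∀ b ∈ s, ∀ z, jf z = jf b → D.pi z ≠ D.ex t + i • D.ex u :=
    fun i hi b hb z e q => t2 i hi (.inr ⟨z, ⟨b, hb, e⟩, q⟩)
  refine ⟨(J' + 1) * k, _, f, t, _, _, _, by positivity, ?_, ?_, hf, t1, eu.symm, ?_, ?_,
    fun b hb z e => ⟨?_, ?_, ?_⟩, fun i i0 q => Y0 _ (mul_ne_zero i0 M0) (by rwa [mul_smul]), M0,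
    rfl, ?_⟩
  · rw [← e0]
    funext z
    simp only [cs, Pi.smul_apply, smul_eq_mul]
    push_cast
    ring
  · exact ((eg1 gx D rn i1.1 (off_zero i1.2) e0).smul _).smul _
  · simpa using gd 0 (by omega)
  · rw [← map_add, ea]
    exact gd _ le_rfl
  · have := (congrFun e0 z).trans (zc_fib bd h hs i1.2 hb e)
    simp only [Pi.smul_apply, show n z = 0 from Int.cast_eq_zero.1 this, smul_zero]
  · simpa using nf 0 (by omega) b hb z e
  · rw [ea]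
    exact nf _ le_rfl b hb z e
  · rw [← hJ]
    push_cast
    ring

end Vale.Agent.P014T.Tg
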