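import Vale.Agent.P014T.Tg.T2a
import Vale.Agent.P014T.Tg.Red
import Vale.Agent.P014T.Tg.Hq
import Vale.Agent.P014T.Tg.Aut
import Vale.Agent.P014T.Tg.Hk
import Vale.Agent.P004Z.W2.Smo

/-! # P014T, block T: the geometric half -/

set_option autoImplicit false
set_option linter.all false

open UpperHalfPlane CongruenceSubgroup Real Filter
open scoped MatrixGroups Classical

noncomputable section

namespace Vale.Agent.P014T.Tg

open P004Z P004Z.Ar Vale.Agent.P022.H218.L3 Vale.Agent.P004H.H666 Vale.Agent.P004M.TE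
open Vale.Agent.P022K.F0.Cf (od ev Reg od_mul ev_mul ev_const od_const reg_const reg_iff ev_eq_zero)
open P004Z.Fin (Pk Ov)
open P004Z.H (sp Fo lam cc EC sp_refl)

theorem evl {p : ℕ → AbsoluteValue ℂ ℝ → Prop} (h : ∃ L : ℕ, ∀ l V, L < l → Ov V l → p l V) :
    ∀ᶠ l in atTop, ∀ V, Ov V l → p l V :=
  h.elim fun L h => (eventually_gt_atTop L).mono fun l e V => h l V e

theorem rt_fo {A B : ℤ} {P : EC A B} (h : P ∈ Rt A B) : P ∈ Fo A B :=
  (Set.finite_singleton P).subset (by rintro _ ⟨σ, rfl⟩; exact h σ)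

theorem gs_gs (σ τ : ℂ ≃+* ℂ) (x : Additive ℂˣ) : gs (σ.trans τ) x = gs τ (gs σ x) :=
  vl_inj (by rw [vl_gs, vl_gs, vl_gs, RingEquiv.trans_apply])

/-- the denominator -/
def dn {A B : ℤ} (P : EC A B) : Additive ℂˣ := am (xq P).den

theorem dn_gs {A B : ℤ} (P : EC A B) (σ : ℂ ≃+* ℂ) : gs σ (dn P) = dn P := by
  rw [dn, gs_am σ (Nat.cast_ne_zero.2 (xq P).den_nz), map_natCast]

theorem dn_eq {A B : ℤ} {P : EC A B} (h : P ∈ Rt A B) {l : ℕ} {V : AbsoluteValue ℂ ℝ} (o : Ov V l) :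
    dn P = am (nu V P) + am (mu l P) ∧ (Gr A B l → lv V (dn P) = -(2 * lam V P)) := by
  have u := Hq.unit o (Hq.mu_nd o P)
  have n : (mu l P : ℂ) ≠ 0 := V.pos_iff.1 (u ▸ one_pos)
  have e : dn P = am (nu V P) + am (mu l P) := by
    rw [dn, Hq.den_eq o (Hq.xq_eq fix h), am_mul (Hq.nu_ne P) n]
  refine ⟨e, fun g => ?_⟩
  rw [e, map_add, lv_am V n, u, log_one, add_zero, lv_am V (Hq.nu_ne P),
    (red A B l V o g).2.2.2.2.2, neg_neg]

theorem t2 (vs : VSD) (cong : CONG) (pic : PIC) : T2 := by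
  intro N _ G a D B s θ xm n h t u k Y U rn X cm hn d rt hU g1 g2 of nt hY
  obtain ⟨θ0, b0, S, q⟩ := vs N a D
  have ru : D.ex u ∈ Rt D.A D.B := hU ▸ U.2
  have inj : Function.Injective fun j : ℤ => j • D.ex u := fun i j e => by_contra fun z =>
    nt _ (sub_ne_zero.2 z) (Subtype.ext (by
      rw [AddSubgroupClass.coe_zsmul, hU, sub_zsmul]
      exact add_neg_eq_zero.2 e))
  have nz : ∀ j : ℤ, j ≠ 0 → j • u ∉ D.Λ := fun j e z => e (inj (by
    rw [← D.ker, map_zsmul] at z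
    simpa using z))
  obtain ⟨κ0, k0, rq⟩ := eig aut X d hn g1 g2 rt ru
  have o0 : ∀ z, D.pi z ≠ D.ex t → D.pi z ≠ D.ex (t + u) → n z = od z (h : Mer) := fun z e e' => by
    simp only [d.eq z, D.pb_eq, e, e', if_false, sub_zero, add_zero]
  have c0 : algebraMap ℂ Mer κ0 ≠ 0 := (map_ne_zero _).2 k0
  have o1 : ∀ z, od z (algebraMap ℂ Mer κ0 * h) = od z (h : Mer) := fun z => by
    rw [od_mul _ c0 d.ne', od_const, zero_add]
  have cg := fun b (hb : b ∈ s) => cong N b X.pos (cm b hb) _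
    (mul_mem (IntermediateField.algebraMap_mem _ κ0) h.2) rq fun z e => reg_of (by
      rw [o1, ← o0 z (of b hb z e).2.1 (of b hb z e).2.2, (of b hb z e).1])
  have fo : ∀ b ∈ s, ∀ P ∈ Rt D.A D.B, D.pi b ≠ P →
      ∀ᶠ l in atTop, ∀ V, Ov V l → ¬ E1 V (D.pi b - P) := fun b hb P r e =>
    evl (sep _ _ _ (sub_mem (X.fo_b hb) (rt_fo r)) (sub_ne_zero.2 e))
  have E : ∀ᶠ l in atTop, N < l ∧ ((2 * (4 * D.A ^ 3 + 27 * D.B ^ 2)).natAbs < l) ∧ ∀ b ∈ s, ∀ V,
      Ov V l → Sp N l V b → (∀ j, E1 V (D.pi (nb l j b) - D.pi b)) ∧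
      (¬ E1 V (D.pi b - D.ex t) ∧ ¬ E1 V (D.pi b - D.ex (t + u))) ∧ ∀ j,
        od (nb l j b) (h : Mer) = 0 ∧ ∀ o : IsNonarchimedean V,
          am (ev (nb l j b) (h : Mer)) - am (ev b (h : Mer)) ∈ U1 o := by
    refine (eventually_gt_atTop _).and ((eventually_gt_atTop _).and
      ((eventually_all_finset s).2 fun b hb => ?_))
    filter_upwards [evl (pic N a D xm b X.pk X.x0 X.e0 X.act (Set.infinite_of_injective_forall_mem
      inj fun j => zsmul_mem ru j) (cm b hb) (X.fo_b hb)), fo b hb _ rt (d.off b hb).1,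
      fo b hb _ (map_add D.ex t u ▸ add_mem rt ru) (d.off b hb).2.1, evl (cg b hb).2,
      evl (alg_le (cg b hb).1.inv)] with l a1 a2 a3 a4 a5 V o p
    refine ⟨a1 V o p, ⟨a2 V o, a3 V o⟩, fun j => ?_⟩
    obtain ⟨b1, b2⟩ := (a4 V o).2 p j
    have b0 := ev_ne (mul_ne_zero c0 d.ne') ((o1 b).trans (d.od0 hb))
    have b3 := fun o' => am_cong o' (le_antisymm (a4 V o).1 ((inv_le_one₀ (V.pos b0)).1 (by
      simpa using a5 V o))) b2
    have b4 : od (nb l j b) (h : Mer) = 0 := (o1 _).symm.trans (le_antisymm (not_lt.1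
      (mt (ev_eq_zero (mul_ne_zero c0 d.ne') b1).2 (b3 o.na).1))
      ((reg_iff.1 b1).resolve_left (mul_ne_zero c0 d.ne')))
    refine ⟨b4, fun o' => ?_⟩
    have b5 := (b3 o').2.2
    rwa [ev_mul (reg_const _ _) (reg_of b4), ev_mul (reg_const _ _) (reg_of (d.od0 hb)), ev_const,
      ev_const, am_mul k0 (ev_ne d.ne' b4), am_mul k0 (d.ev0 hb), add_sub_add_left_eq_sub] at b5
  obtain ⟨L, hL⟩ := eventually_atTop.1 E
  refine ⟨L, fun l m W n' T κ lt hl spl w w0 e' hn' T1 T2 loc => ?_⟩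
  obtain ⟨l1, l2, l3⟩ := hL l lt.le
  have lN : ¬ l ∣ N := Nat.not_dvd_of_pos_of_lt X.pos l1
  have d0 : (2 * (4 * D.A ^ 3 + 27 * D.B ^ 2)).natAbs ≠ 0 :=
    Int.natAbs_ne_zero.2 (mul_ne_zero two_ne_zero D.par.disc)
  have gr : Gr D.A D.B l := fun z =>
    Nat.not_dvd_of_pos_of_lt (Nat.pos_of_ne_zero d0) l2 (Int.natCast_dvd.1 z)
  obtain ⟨c, hc⟩ : ∃ c : ℤ, c = a l - l - 1 := ⟨_, rfl⟩
  have cu : ((a l : ℂ) - l - 1) * u = c • u := by simp [hc]
  have c1 : c ≠ 0 := fun z => (triv N G a rn l hl lN).1 (by omega)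
  obtain ⟨i, -, hi⟩ := (Set.infinite_univ (α := ℤ)).exists_notMem_finite
    (((D.fin_bad s).preimage inj.injOn).union ((D.fin_bad s).preimage
      (inj.comp (add_left_injective c)).injOn))
  have rt' : D.ex (i • u) ∈ Rt D.A D.B := map_zsmul D.ex i u ▸ zsmul_mem ru i
  have ru' : D.ex (c • u) ∈ Rt D.A D.B := map_zsmul D.ex c u ▸ zsmul_mem ru c
  have g1' : D.Gd s (D.ex (i • u)) := by_contra fun z => hi (Or.inl (by
    rw [map_zsmul] at z rt'; exact ⟨rt_fo rt', z⟩))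
  have g2' : D.Gd s (D.ex (i • u) + D.ex (c • u)) := by_contra fun z => hi (Or.inr (by
    rw [map_zsmul, map_zsmul, ← add_zsmul] at z; exact ⟨rt_fo (zsmul_mem ru _), z⟩))
  have a1 := g1' (RingEquiv.refl ℂ) _ (sp_refl _).symm
  have a2 := g2' (RingEquiv.refl ℂ) (i • u + c • u) ((map_add _ _ _).trans (sp_refl _).symm)
  obtain ⟨V, o, -⟩ := loc l hl
  obtain ⟨h', d', hk'⟩ := hk N G a D θ0 b0 S s l n n' h t u (i • u) rn q hl lN d
    (by simpa using nz 1 one_ne_zero) (cu ▸ nz c c1) e' (fun z hz j => by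
      obtain ⟨b1, b2, b3⟩ := l3 z hz V o (spl V o z hz)
      have b4 : ∀ P, ¬ E1 V (D.pi z - P) → D.pi (nb l j z) ≠ P := fun P e y => e (by
        simpa [y] using (red _ _ l V o gr).1 _ _ (Or.inl rfl) (b1 j))
      exact ⟨(o0 _ (b4 _ b2.1) (b4 _ b2.2)).trans (b3 j).1, b4 _ b2.1, b4 _ b2.2⟩)
    a1.1 (cu ▸ a2.1) fun z hz => ⟨a1.2 z hz, cu ▸ a2.2 z hz⟩
  rw [cu] at d' hk'
  have ew : D.ex (ww D B s c k) = (c • Y).1 := by rw [ex_ww, AddSubgroupClass.coe_zsmul, hY]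
  have C := fun V (o : Ov V l) => stC (B := B) (k := k) q o gr red d d'
    (by simpa using nz 1 one_ne_zero) (fun z => by
      have := congrFun (((prt.2 N G a D rn).1 l hl lN)) z
      rw [Tdiv_eq hl, Pi.smul_apply, smul_eq_mul] at this
      rw [hc]
      push_cast
      exact this.trans (by ring)) hk' (fun b hb => (l3 b hb V o (spl V o b hb)).1)
    (fun b hb => (l3 b hb V o (spl V o b hb)).2.1) fun b hb j =>
      have := (l3 b hb V o (spl V o b hb)).2.2 j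
      ⟨ev_ne d.ne' this.1, this.2 _⟩
  rw [← hc]
  refine ⟨fun V o => by simpa only [ew, AddSubgroupClass.coe_zsmul] using (C V o).1, ?_⟩
  simp only [ew, ← hU] at C
  obtain ⟨x, hx⟩ : ∃ x, x = 2 • (XX D S B s h' (i • u) u c k +
    (dn (c • Y - U).1 - dn (c • Y).1 - dn U.1)) := ⟨_, rfl⟩
  have xA : ∀ (p : ℕ) V, Ov V p → Gr D.A D.B p →
      lv V x = -(4 * k * Sy D B s V h' (i • u) (c • u)) := fun p V o g => by
    rw [hx, map_nsmul, map_add, map_sub, map_sub, stA q X.deg d', ew, ← hU, (dn_eq (c • Y - U).2 o).2 g,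
      (dn_eq (c • Y).2 o).2 g, (dn_eq U.2 o).2 g, AddSubgroupClass.coe_sub, nsmul_eq_mul]
    push_cast
    ring
  have xB : ∀ σ : ℂ ≃+* ℂ, σ θ = θ → gs σ x = x := fun σ e => by
    rw [hx, nsmul_add, map_add, stB q X d' hn' g1' g2' e (rt' σ) (ru σ), map_nsmul, map_sub, map_sub,
      dn_gs, dn_gs, dn_gs]
  obtain ⟨r, hr⟩ : ∃ r, r = 2 • (am (mu l (c • Y - U).1) - am (mu l (c • Y).1) - am (mu l U.1)) :=
    ⟨_, rfl⟩
  have xC : ∀ V (o : Ov V l), x - r ∈ U1 o.na := fun V o => by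
    have := (C V o).2
    rw [hx, hr, (dn_eq (c • Y - U).2 o).1, (dn_eq (c • Y).2 o).1, (dn_eq U.2 o).1]
    convert this using 1
    rw [AddSubgroupClass.coe_sub]
    module
  have m0 : ∀ P : D.E, (mu l P : ℂ) ≠ 0 := fun P =>
    V.pos_iff.1 (Hq.unit o (Hq.mu_nd o P) ▸ one_pos)
  have rB : gs H.cj r = r := by
    simp only [hr, map_nsmul, map_sub, gs_am _ (m0 _), map_intCast]
  obtain ⟨ρ, hρ⟩ := fix (vl (x + gs H.cj x)) fun σ => by
    rw [← vl_gs, map_add, ← gs_gs]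
    rcases X.pm σ with e | e
    · have := xB ((H.cj.trans σ).trans H.cj) (by simp only [RingEquiv.trans_apply, X.cth, e, map_neg, neg_neg])
      rw [xB σ e, ← cj_cj (H.cj.trans σ), gs_gs _ H.cj, this]
    · have := xB (σ.trans H.cj) (by simp only [RingEquiv.trans_apply, X.cth, e, map_neg, neg_neg])
      rw [xB (H.cj.trans σ) (by simp only [RingEquiv.trans_apply, X.cth, e, map_neg, neg_neg]), ← cj_cj σ, gs_gs _ H.cj, this, add_comm]
  have nd : ∀ {x y : ℤ}, ¬ (l : ℤ) ∣ x → ¬ (l : ℤ) ∣ y → ¬ (l : ℤ) ∣ x * y := fun a b e =>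
    ((Nat.prime_iff_prime_int.1 hl).dvd_or_dvd e).elim a b
  have w4 : ∀ {x : ℤ}, ¬ (l : ℤ) ∣ x → ¬ (l : ℤ) ∣ x ^ 4 ∧ W (x ^ 4 : ℤ) = 4 * W x := fun {x} a => by
    rw [show x ^ 4 = x * x * (x * x) by ring, Hq.w_mul o w (nd a a) (nd a a), Hq.w_mul o w a a]
    exact ⟨nd (nd a a) (nd a a), by ring⟩
  have y1 := w4 (Hq.mu_nd o (c • Y - U).1)
  have y2 := w4 (nd (Hq.mu_nd o (c • Y).1) (Hq.mu_nd o U.1))
  have := lw l m W V (2 * (4 * D.A ^ 3 + 27 * D.B ^ 2)).natAbs.primeFactors T (fun p => -(4 * k * κ p))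
    ρ _ _ o w (fun p hp => w0 p (Nat.prime_of_mem_primeFactors hp) fun z =>
      z (Int.natCast_dvd.2 (Nat.dvd_of_mem_primeFactors hp))) (by
      rintro rfl
      exact vl_ne _ (hρ.symm.trans Rat.cast_zero)) y1.1 y2.1 (by
      have b1 : gs H.cj (x - r) ∈ U1 o.na := by
        have := xC (cV V) (o.comp _)
        change V (H.cj (vl _ - 1)) < 1 at this
        change V (vl _ - 1) < 1
        rwa [vl_gs, ← map_one H.cj, ← map_sub H.cj]
      have b2 : V (vl _ - 1) < 1 := add_mem (xC V o) b1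
      rw [map_sub (gs _), rB, show x - r + (gs H.cj x - r) = x + gs H.cj x - 2 • r by module, vl_sub, ← hρ, hr,
        vl_nsmul, vl_nsmul, vl_sub, vl_sub, vl_am (m0 _), vl_am (m0 _), vl_am (m0 _)] at b2
      rw [show (ρ : ℂ) * _ - _ = (_ - 1) * ((mu l (c • Y - U).1 ^ 4 : ℤ) : ℂ) from ?_, map_mul,
        Hq.unit o y1.1, mul_one]
      · exact b2
      · push_cast
        field_simp [m0]) T1 (fun p hp => by rw [T2 p hp, mul_zero, neg_zero]) fun p hp _ e => by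
      obtain ⟨V', o', b1, b2⟩ := loc p hp
      have g : Gr D.A D.B p := fun z => e (Nat.mem_primeFactors.2 ⟨hp, Int.natCast_dvd.1 z, d0⟩)
      refine ⟨V', o', b1, ?_⟩
      have b3 := b2 h' _ _ d' rt' ru' g1' g2'
      have b4 := xA p _ (o'.comp (H.cj : ℂ →+* ℂ)) g
      change log (V' (H.cj (vl x))) = -(4 * k * Sy D B s (cV V') h' _ _) at b4
      rw [hρ, ← vl_gs] at *
      change lv V' _ = _
      rw [map_add, xA p V' o' g]
      change _ + log (V' _) = _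
      rw [b4]
      push_cast
      linear_combination (-4 * k) * b3
  rw [y1.2, y2.2, Hq.w_mul o w (Hq.mu_nd o _) (Hq.mu_nd o _)] at this
  push_cast at this
  simp only [neg_mul, mul_assoc, Finset.sum_neg_distrib, ← Finset.mul_sum] at this
  linear_combination 2 * this

end Vale.Agent.P014T.Tg
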