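import Vale.Agent.P014T.Tg.St
import Vale.Agent.P014T.Tg.Qd

/-! # P014T, block T: the normalised value of a decomposition -/

set_option autoImplicit false
set_option linter.all false

open UpperHalfPlane CongruenceSubgroup Real
open scoped MatrixGroups Classical

noncomputable section

namespace Vale.Agent.P014T.Tg

open P004Z P004Z.Ar Vale.Agent.P022.H218.L3 Vale.Agent.P004H.H666 Vale.Agent.P004M.TE
open Vale.Agent.P022K.F0.Cf (od ev Reg od_mul od_inv)
open P004Z.Fin (Pk Ov)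
open P004Z.H (sp Fo lam cc EC cj)

section
variable {G G' A A' ι : Type*} [AddCommGroup G] [AddCommGroup G'] [AddCommGroup A] [AddCommGroup A']
  [Fintype ι] {B : ι → ℤ} {c : ℤ} {k : ℕ}

theorem Ee_map (f : A →+ A') (s : G → A) (I : ι → G) (t u : G) :
    f (Ee s B I t u c k) = Ee (fun x => f (s x)) B I t u c k := by simp [Ee, map_sum]

theorem Ee_comp (i : G' →+ G) (s : G → A) (I : ι → G') (t u : G') :
    Ee (fun x => s (i x)) B I t u c k = Ee s B (fun b => i (I b)) (i t) (i u) c k := by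
  simp [Ee, map_sum]

theorem Ee_sub (s s' : G → A) (I : ι → G) (t u : G) :
    Ee (fun x => s x - s' x) B I t u c k = Ee s B I t u c k - Ee s' B I t u c k := by
  simp only [Ee]
  rw [Finset.sum_congr rfl fun b _ => show _ = B b • (s (I b - (t + c • u)) - s (I b - t)) -
    B b • (s' (I b - (t + c • u)) - s' (I b - t)) by module, Finset.sum_sub_distrib]
  module

theorem Ee_perm (q : Equiv.Perm ι) (h : ∀ b, B (q b) = B b) (s : G → A) (I : ι → G) (t u : G) :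
    Ee s B (fun b => I (q b)) t u c k = Ee s B I t u c k := by
  simp only [Ee]
  rw [← Equiv.sum_comp q fun b => B b • I b,
    ← Equiv.sum_comp q fun b => B b • (s (I b - (t + c • u)) - s (I b - t))]
  simp only [h]

end

variable {N : ℕ} {a : ℕ → ℤ} {D : Pz N a} {θ0 : ℂ → ℂ} {b0 : ℝ} {S : ℂ → ℂ} {B : ℍ → ℤ}
  {s : Finset ℍ} {n : ℍ → ℤ} {h : MF (Gamma0 N)} {t u : ℂ} {c : ℤ} {k : ℕ}

theorem hD (D : Pz N a) : 16 * (4 * (D.A : ℂ) ^ 3 + 27 * (D.B : ℂ) ^ 2) ≠ 0 :=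
  mul_ne_zero (by norm_num) (by exact_mod_cast D.par.disc)

theorem Sq.pa (q : Sq D θ0 b0 S) (x y : ℂ) : am (S (x + y)) + am (S (x - y)) =
    2 • am (S x) + 2 • am (S y) + am (cc (D.ex x) (D.ex y)) := by
  rw [← am_mul (q.ne _) (q.ne _), ← q.par, am_mul (H.cc_ne (hD D) _ _) (mul_ne_zero
    (pow_ne_zero _ (q.ne _)) (pow_ne_zero _ (q.ne _))), am_mul (pow_ne_zero _ (q.ne _))
    (pow_ne_zero _ (q.ne _)), am_pow (q.ne _), am_pow (q.ne _), add_comm]

variable (D B s) in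
/-- the lift of the point -/
def ww (c : ℤ) (k : ℕ) : ℂ := c • k • ∑ b : s, B b • D.I b

theorem ex_ww : D.ex (ww D B s c k) = c • k • ∑ b ∈ s, B b • D.pi b := by
  rw [← Finset.sum_coe_sort s]
  simp only [ww, map_zsmul, map_nsmul, map_sum, Pz.pi]

variable (D S B s) in
/-- the normalised value -/
def XX (h : MF (Gamma0 N)) (t u : ℂ) (c : ℤ) (k : ℕ) : Additive ℂˣ :=
  2 • k • am (vB B s h) + Ee (fun z => am (S z)) (fun b : s => B b) (fun b => D.I b) t u c k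

theorem stA (q : Sq D θ0 b0 S) (h0 : ∑ b ∈ s, B b = 0) (d : Dec D s n h t (c • u))
    (V : AbsoluteValue ℂ ℝ) : lv V (XX D S B s h t u c k) = -(2 * k * Sy D B s V h t (c • u)) -
      2 * lam V (D.ex (ww D B s c k)) - 2 * lam V (D.ex u) +
      2 * lam V (D.ex (ww D B s c k) - D.ex u) := by
  have e := e2 (s := fun z => lv V (am (S z)) - -(2 * lam V (D.ex z))) (B := fun b : s => B b)
    (fun x y => by
      have h1 := congrArg (lv V) (q.pa x y)
      have h2 := H.par (v := V) (hD D) (D.ex x) (D.ex y)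
      simp only [map_add, map_nsmul, lv_am V (H.cc_ne (hD D) _ _), map_sub, nsmul_eq_mul] at h1 ⊢
      push_cast at h1 ⊢
      linarith) (by simp [q.zero, am_one, H.lam_zero (hD D)])
    ((Finset.sum_coe_sort s B).trans h0) (fun b => D.I b) t u c k
  rw [Ee_sub, ← Ee_map, smul_eq_zero, sub_eq_zero] at e
  rw [XX, map_add, e.resolve_left two_ne_zero, map_nsmul, map_nsmul, lv_am V d.vB_ne, Sy,
    ← Finset.sum_coe_sort s, Ee, ← ww]
  simp only [map_sub, Pz.pi, nsmul_eq_mul, zsmul_eq_mul]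
  have k : ∀ x y z : ℝ, z * (-(2 * x) - -(2 * y)) = -2 * (z * (x - y)) := fun _ _ _ => by ring
  simp only [k, ← Finset.mul_sum]
  push_cast
  ring

theorem XX_eq (q : Sq D θ0 b0 S) (d : Dec D s n h t (c • u)) : XX D S B s h t u c k =
    k • ∑ b : s, B b • am (F2 D S h t (c • u) b) + am (S (ww D B s c k)) + am (S u) -
      am (S (ww D B s c k - u)) := by
  rw [XX, Ee, ← ww, vB, am_prod _ fun b hb => zpow_ne_zero _ (d.ev0 hb), ← Finset.sum_coe_sort s,
    Finset.sum_congr rfl fun (b : s) _ => show B b • am (F2 D S h t (c • u) b) =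
      2 • am (ev b (h : Mer) ^ B b) + B b • (am (S (D.I b - (t + c • u))) - am (S (D.I b - t))) by
    rw [F2, am_mul (pow_ne_zero _ (d.ev0 b.2)) (div_ne_zero (q.ne _) (q.ne _)), am_pow (d.ev0 b.2),
      am_zpow (d.ev0 b.2), am_div (q.ne _) (q.ne _)]
    module, Finset.sum_add_distrib, Finset.sum_nsmul]
  module

variable {θ : ℂ} {xm : D.E → Mer}

theorem ee1 (σ : ℂ ≃+* ℂ) : σ (ee (1 / (1 : ℕ))) = ee (1 / (1 : ℕ)) := by simp [ee]

theorem stB (q : Sq D θ0 b0 S) (X : Cx D 1 B s θ xm) (d : Dec D s n h t (c • u)) (hn : Eg N 1 n)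
    (g1 : D.Gd s (D.ex t)) (g2 : D.Gd s (D.ex t + D.ex (c • u))) {σ : ℂ ≃+* ℂ} (e0 : σ θ = θ)
    (e1 : sp σ (D.ex t) = D.ex t) (e3 : sp σ (D.ex u) = D.ex u) :
    gs σ (2 • XX D S B s h t u c k) = 2 • XX D S B s h t u c k := by
  have f := X.fix d hn g1 g2 e0 (ee1 σ) e1 (by rw [map_zsmul, map_zsmul, e3])
  obtain ⟨c', r, χ, A⟩ := X.act σ
  obtain rfl := A.one (ee1 σ)
  obtain ⟨p, hp⟩ := A.perm X.reps (X.eig σ c' r 1 A e0)
  have k1 : ∀ b : s, B (p b) = B b ∧ sp σ (D.pi b) = D.pi (p b) := fun b => by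
    obtain ⟨γ, hγ, e⟩ := hp b
    rw [← e, X.inv γ hγ, D.pi_inv γ hγ, X.eig σ c' r 1 A e0, one_mul, A.pi_eq D X.pk X.x0 X.e0]
    exact ⟨rfl, rfl⟩
  let G := ((sp σ).comp (D.ex.comp (AddMonoidHom.fst ℂ ℂ))).eqLocus (D.ex.comp (AddMonoidHom.snd ℂ ℂ))
  let i : G →+ ℂ := (AddMonoidHom.fst ℂ ℂ).comp G.subtype
  let i' : G →+ ℂ := (AddMonoidHom.snd ℂ ℂ).comp G.subtype
  have e := e2 (s := fun g => gs σ (am (S (i g))) - am (S (i' g))) (B := fun b : s => B b)
    (fun x y => by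
      have h1 := congrArg (gs σ) (q.pa (i x) (i y))
      have h2 := q.pa (i' x) (i' y)
      have h3 : ∀ x : G, D.ex (i' x) = sp σ (D.ex (i x)) := fun x => x.2.symm
      rw [h3, h3, sp, H.cc_map, RingHom.coe_coe] at h2
      simp only [map_add, map_nsmul, gs_am σ (H.cc_ne (hD D) _ _), map_sub] at h1 ⊢
      linear_combination (norm := module) h1 - h2) (by simp [q.zero, am_one])
    ((Finset.sum_coe_sort s B).trans X.deg) (fun b => ⟨(D.I b, D.I (p b)), (k1 b).2⟩)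
    ⟨(t, t), e1⟩ ⟨(u, u), e3⟩ c k
  rw [Ee_sub, ← Ee_map, Ee_comp i fun z => am (S z), Ee_comp i' fun z => am (S z), nsmul_sub,
    sub_eq_zero, ← map_nsmul] at e
  rw [XX, nsmul_add, map_add, map_nsmul, map_nsmul, map_nsmul, gs_am σ d.vB_ne, f]
  exact congrArg _ (e.trans (congrArg _ (Ee_perm p (fun b => (k1 b).1) _ (fun b : s => D.I b) t u)))

/-- a multiple of `h` has a rational expansion -/
theorem eig [NeZero N] (aut : AUT) (X : Cx D 1 B s θ xm) (d : Dec D s n h t u) (hn : Eg N 1 n)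
    (g1 : D.Gd s (D.ex t)) (g2 : D.Gd s (D.ex t + D.ex u)) (r1 : D.ex t ∈ Rt D.A D.B)
    (r2 : D.ex u ∈ Rt D.A D.B) : ∃ κ : ℂ, κ ≠ 0 ∧ Rq (algebraMap ℂ Mer κ * h) :=
  (aut N h d.ne).2 fun σ => by
    obtain ⟨c, r, χ, A⟩ := X.act σ
    obtain rfl := A.one (ee1 σ)
    have d' := d.conj A X.pk X.x0 X.e0 X.pos X.rel X.fu (r1 σ).symm (r2 σ).symm X.dg g1 g2 hn.inv
      (hn.2 σ c r 1 A)
    obtain ⟨κ, hκ⟩ := X.cst N (c h * h⁻¹) X.pos (mul_ne_zero d'.ne (inv_ne_zero d.ne))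
      (fun P hP => ⟨mul_mem (d'.cum P hP).1 (d.cum P hP).2, by
        rw [mul_inv, inv_inv]; exact mul_mem (d'.cum P hP).2 (d.cum P hP).1⟩) fun τ => by
        have h1 := d'.eq τ
        rw [one_smul, d.eq, add_left_inj] at h1
        change od τ ((c h : Mer) * (h : Mer)⁻¹) = 0
        rw [od_mul _ d'.ne' (inv_ne_zero d.ne'), od_inv, h1, add_neg_cancel]
    exact ⟨c, r, 1, κ, A, (mul_inv_eq_iff_eq_mul₀ d.ne').1 hκ⟩

/-- the congruence -/
theorem stC (q : Sq D θ0 b0 S) {l : ℕ} {V : AbsoluteValue ℂ ℝ} (o : Ov V l) (g : Gr D.A D.B l)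
    (red : RED) {n' : ℍ → ℤ} {h' : MF (Gamma0 N)} {t' : ℂ} (d : Dec D s n h t u)
    (d' : Dec D s n' h' t' (c • u)) (hu : u ∉ D.Λ)
    (hc : ∀ z, ∑ j, D.I (nb l j z) = (c + l + 1) * D.I z)
    (hk : ∀ z ∈ s, F2 D S h' t' (c • u) z * F2 D S h t u z ^ (l + 1) = ∏ j, F2 D S h t u (nb l j z))
    (p1 : ∀ b ∈ s, ∀ j, E1 V (D.pi (nb l j b) - D.pi b))
    (p2 : ∀ b ∈ s, ¬ E1 V (D.pi b - D.ex t) ∧ ¬ E1 V (D.pi b - D.ex (t + u)))
    (p3 : ∀ b ∈ s, ∀ j, ev (nb l j b) (h : Mer) ≠ 0 ∧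
      am (ev (nb l j b) (h : Mer)) - am (ev b (h : Mer)) ∈ U1 o.na) :
    E1 V (D.ex (ww D B s c k)) ∧ 2 • XX D S B s h' t' u c k - 2 • (am (nu V (D.ex (ww D B s c k))) +
      am (nu V (D.ex u)) - am (nu V (D.ex (ww D B s c k) - D.ex u))) ∈ U1 o.na := by
  obtain ⟨r1, r2, r3, -⟩ := red D.A D.B l V o g
  have n0 : ∀ P : D.E, nu V P ≠ 0 := fun P => by
    rw [nu]
    split_ifs with e
    · exact inv_ne_zero fun z => by rw [z, map_zero] at e; exact e.not_gt one_pos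
    · exact one_ne_zero
  have n1 : ∀ P : D.E, ¬ E1 V P → am (nu V P) = 0 := fun P e => by
    rw [nu, if_neg fun z => e (Or.inr z), am_one]
  let K : AddSubgroup ℂ := AddSubgroup.comap D.ex
    { carrier := {P | E1 V P}
      zero_mem' := Or.inl rfl
      add_mem' := fun {P Q} a b => by
        simpa using r1 _ _ a (r1 _ _ (Or.inl rfl) b)
      neg_mem' := fun {P} a => by simpa using r1 _ _ (Or.inl rfl) a }
  obtain ⟨Q, _, φ, pe⟩ : ∃ (Q : Type) (_ : AddCommGroup Q) (φ : Additive ℂˣ →+ Q),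
      ∀ {x y}, x - y ∈ U1 o.na ↔ φ x = φ y :=
    ⟨_ ⧸ U1 o.na, inferInstance, QuotientAddGroup.mk' (U1 o.na),
      fun {x y} => (QuotientAddGroup.eq_iff_sub_mem (N := U1 o.na)).symm⟩
  obtain ⟨w1, w2⟩ := e3 (s := fun z => φ (am (S z) - am (nu V (D.ex z)))) (B := fun b : s => B b) K
    (e := fun x y => φ (am (cr V (D.ex x) (D.ex y)))) (fun x y => by
      rw [cr, am_div (mul_ne_zero (H.cc_ne (hD D) _ _) (mul_ne_zero (pow_ne_zero _ (n0 _))
        (pow_ne_zero _ (n0 _)))) (mul_ne_zero (n0 _) (n0 _)), am_mul (H.cc_ne (hD D) _ _)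
        (mul_ne_zero (pow_ne_zero _ (n0 _)) (pow_ne_zero _ (n0 _))), am_mul (pow_ne_zero _ (n0 _))
        (pow_ne_zero _ (n0 _)), am_mul (n0 _) (n0 _), am_pow (n0 _), am_pow (n0 _)]
      have h1 := congrArg φ (q.pa x y)
      simp only [map_add, map_sub, map_nsmul] at h1 ⊢
      linear_combination (norm := module) h1)
    (fun ε m x y => pe.1 (am_cong o.na (r2 _ _) (r3 _ _ _ (by
      rw [map_add, add_sub_cancel_left]; exact m))).2.2)
    (fun b => D.I b) (fun b j => D.I (nb l j b)) (fun b j => by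
      change E1 V (D.ex _)
      rw [map_sub]
      exact p1 b b.2 j) t u k (w := ww D B s c k) (by
      rw [ww, smul_comm, Finset.smul_sum]
      refine congrArg _ (Finset.sum_congr rfl fun b _ => ?_)
      rw [smul_comm, Finset.sum_sub_distrib, hc]
      simp
      exact Or.inl (by ring))
  refine ⟨w1, pe.2 ?_⟩
  have f0 : ∀ z, ev z (h : Mer) ≠ 0 → F2 D S h t u z ≠ 0 ∧ am (F2 D S h t u z) =
      2 • am (ev z (h : Mer)) + (am (S (D.I z - (t + u))) - am (S (D.I z - t))) := fun z e =>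
    ⟨mul_ne_zero (pow_ne_zero _ e) (div_ne_zero (q.ne _) (q.ne _)), by
      rw [F2, am_mul (pow_ne_zero _ e) (div_ne_zero (q.ne _) (q.ne _)), am_pow e,
        am_div (q.ne _) (q.ne _)]⟩
  have k1 : ∀ (b : s) j (Y : D.E), ¬ E1 V (D.pi b - Y) → ¬ E1 V (D.pi (nb l j b) - Y) :=
    fun b j Y e z => e (by simpa using r1 _ _ z (p1 b b.2 j))
  have k2 : ∀ b : s, φ (am (F2 D S h' t' (c • u) b)) = ∑ j,
      (φ (am (S (D.I (nb l j b) - (t + u))) - am (nu V (D.ex (D.I (nb l j b) - (t + u))))) -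
        φ (am (S (D.I (nb l j b) - t)) - am (nu V (D.ex (D.I (nb l j b) - t)))) -
        (φ (am (S (D.I b - (t + u))) - am (nu V (D.ex (D.I b - (t + u))))) -
          φ (am (S (D.I b - t)) - am (nu V (D.ex (D.I b - t)))))) := fun b => by
    have a1 := congrArg am (hk b b.2)
    have a2 := f0 b (d.ev0 b.2)
    rw [am_mul (x := F2 D S h' t' _ b) (mul_ne_zero (pow_ne_zero _ (d'.ev0 b.2))
      (div_ne_zero (q.ne _) (q.ne _))) (pow_ne_zero _ a2.1), am_pow a2.1, am_prod _ fun j _ => (f0 _ (p3 b b.2 j).1).1,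
      ← eq_sub_iff_add_eq, show (l + 1) • am (F2 D S h t u b) = ∑ j : Option (Fin l),
        am (F2 D S h t u b) by simp, ← Finset.sum_sub_distrib] at a1
    rw [a1, map_sum]
    refine Finset.sum_congr rfl fun j _ => ?_
    have a3 := pe.1 (p3 b b.2 j).2
    rw [(f0 _ (p3 b b.2 j).1).2, a2.2, map_sub D.ex, map_sub D.ex, map_sub D.ex, map_sub D.ex,
      ← Pz.pi, ← Pz.pi, n1 _ (p2 b b.2).1, n1 _ (p2 b b.2).2, n1 _ (k1 b j _ (p2 b b.2).1),
      n1 _ (k1 b j _ (p2 b b.2).2)]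
    simp only [map_add, map_sub, map_nsmul, a3, map_zero]
    abel
  have k3 : S (-u) = S u := by
    rw [q.sq _ hu, q.sq _ fun e => hu (by simpa using D.Λ.neg_mem e), q.th.odd, neg_sq]
  have k4 : nu V (D.ex (-u)) = nu V (D.ex u) := by rw [map_neg, nu, nu, xp_neg]
  have k5 : nu V (D.ex 0) = 1 := by simp [nu]
  simp only [← k2] at w2
  rw [k3, k4, k5, q.zero, map_sub D.ex] at w2
  rw [XX_eq q d']
  simp only [map_add, map_sub, map_nsmul, map_sum, map_zsmul, am_one, map_zero] at w2 ⊢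
  linear_combination (norm := module) w2

end Vale.Agent.P014T.Tg
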