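import Vale.Agent.P014T.Tg.St
import Vale.Agent.P014T.Z.Psd
import Vale.Agent.P004Z.Kf.Li
import Vale.Agent.P004Z.Kf.Ari

/-!
# P014T, block T: the congruence of the kernels, abstract part (helper41)
-/

set_option autoImplicit false
set_option linter.all false

open Finset
open scoped NumberTheorySymbols Classical

noncomputable section

namespace Vale.Agent.P014T.Tg.Tk

open P004Z P004Z.Hd P004Z.Kf P004Z.Kf.Ar

variable {D l m p : ℕ} {μ : Fm} {W : ZMod l → ZMod m}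

/-- the forms with `a < 0 < c` -/
def Fs (D : ℕ) : Finset Fm :=
  ((Pm D).sigma fun k => k.2.divisorsAntidiagonal).image fun x => (-x.2.1, x.1.1, x.2.2)

theorem mem_Fs : μ ∈ Fs D ↔ μ.1 < 0 ∧ 0 < μ.2.2 ∧ disc μ = D := by
  simp only [Fs, mem_image, mem_sigma, mem_Pm, Nat.mem_divisorsAntidiagonal]
  constructor
  · rintro ⟨⟨k, i⟩, ⟨⟨-, e⟩, e1, e2⟩, rfl⟩
    obtain ⟨a, b⟩ := mul_ne_zero_iff.1 (e1.trans_ne e2)
    simp only at a b e e1 ⊢
    refine ⟨by omega, by omega, ?_⟩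
    rw [← e, ← e1, disc]
    push_cast
    ring
  · obtain ⟨a, b, c⟩ := μ
    rintro ⟨h1, h2, h3⟩
    lift c to ℕ using h2.le
    obtain ⟨a, rfl⟩ : ∃ x : ℕ, a = -x := ⟨a.natAbs, by simp only at h1; omega⟩
    have : 0 < a * c := Nat.mul_pos (by simpa using h1) (by simpa using h2)
    refine ⟨⟨(b, a * c), a, c⟩, ⟨⟨this, ?_⟩, rfl, this.ne'⟩, rfl⟩
    rw [← h3, disc]
    push_cast
    ring

theorem sum_Fs {A : Type} [AddCommMonoid A] (f : Fm → A) :
    ∑ k ∈ Pm D, ∑ i ∈ k.2.divisorsAntidiagonal, f (-i.1, k.1, i.2) = ∑ μ ∈ Fs D, f μ := by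
  rw [Fs, sum_image, sum_sigma]
  rintro ⟨⟨b, n⟩, a, c⟩ h ⟨⟨b', n'⟩, a', c'⟩ h' e
  simp only [Prod.mk.injEq, neg_inj, Nat.cast_inj] at e
  obtain ⟨rfl, rfl, rfl⟩ := e
  have h1 := (Nat.mem_divisorsAntidiagonal.1 (mem_sigma.1 h).2).1
  have h2 := (Nat.mem_divisorsAntidiagonal.1 (mem_sigma.1 h').2).1
  simp only at h1 h2
  subst h1
  subst h2
  rfl

theorem sum_ind {A : Type} [Semiring A] {s t : Finset Fm} {f : Fm → Fm} (hf : Function.Injective f)
    (h : ∀ μ, f μ ∈ t ↔ μ ∈ s) (F : Fm → A) :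
    ∑ x ∈ t, F x * (if x ∈ Set.range f then 1 else 0) = ∑ μ ∈ s, F (f μ) := by
  simp only [mul_ite, mul_one, mul_zero, ← sum_filter]
  rw [← sum_image fun _ _ _ _ e => hf e]
  refine sum_congr (Finset.ext fun x => ?_) fun _ _ => rfl
  rw [mem_filter, mem_image]
  exact ⟨fun ⟨a, μ, e⟩ => ⟨μ, (h μ).1 (e ▸ a), e⟩, fun ⟨μ, a, e⟩ => ⟨e ▸ (h μ).2 a, μ, e⟩⟩

/-- the completely additive extension -/
def wl (W : ZMod l → ZMod m) (c : ℤ) : ZMod m := c.natAbs.factorization.sum fun q e => e * W q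

theorem wl_mul {x y : ℤ} (hx : x ≠ 0) (hy : y ≠ 0) : wl W (x * y) = wl W x + wl W y := by
  rw [wl, Int.natAbs_mul, Nat.factorization_mul (by simpa) (by simpa), Finsupp.sum_add_index']
  · rfl
  · simp
  · simp [add_mul]

theorem wl_neg (x : ℤ) : wl W (-x) = wl W x := by rw [wl, Int.natAbs_neg, wl]

theorem wl_prime {q : ℕ} (hq : q.Prime) : wl W q = W q := by simp [wl, hq.factorization]

variable [hl : Fact l.Prime] (h : Lw l m W)
include h

theorem W_one : W 1 = 0 := by simpa using h.mul 1 1 one_ne_zero one_ne_zero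

theorem wl_l {x : ℤ} (hx : x ≠ 0) : wl W (l * x) = wl W x := by
  rw [wl_mul (Nat.cast_ne_zero.2 hl.out.ne_zero) hx, wl_prime hl.out, ZMod.natCast_self, h.zero,
    zero_add]

theorem wl_eq {c : ℤ} (hc : (c : ZMod l) ≠ 0) : wl W c = W c := by
  have k (n : ℕ) : (n : ZMod l) ≠ 0 → wl W n = W n := by
    induction n using Nat.recOnMul with
    | zero => simp
    | one => simp [wl, W_one h]
    | prime q hq => exact fun _ => wl_prime hq
    | mul a b ha hb =>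
      intro e
      rw [Nat.cast_mul, mul_ne_zero_iff] at e
      rw [Nat.cast_mul, Nat.cast_mul, h.mul _ _ e.1 e.2, ← ha e.1, ← hb e.2, wl_mul] <;>
        rintro e0 <;> simp_all
  obtain ⟨n, rfl | rfl⟩ := c.eq_nat_or_neg
  · exact_mod_cast k n (by exact_mod_cast hc)
  · have : (n : ZMod l) ≠ 0 := by simpa using hc
    rw [wl_neg, k n this, Int.cast_neg, Int.cast_natCast, ← neg_one_mul,
      h.mul _ _ (by simp) this, h.neg, zero_add]

theorem roots (h2 : l ≠ 2) {a b c : ZMod l} (ha : a ≠ 0) (hc : c ≠ 0) (hD : b ^ 2 - 4 * a * c ≠ 0) :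
    2 * ∑ x, (if a * x ^ 2 - b * x + c = 0 then W x else 0) =
      (W c - W a) * (1 + (quadraticChar (ZMod l) (b ^ 2 - 4 * a * c) : ℤ)) := by
  have n2 : (2 : ZMod l) ≠ 0 := Gq.two_ne h2
  by_cases s : IsSquare (b ^ 2 - 4 * a * c)
  · rw [(quadraticChar_one_iff_isSquare hD).2 s]
    obtain ⟨s, hs⟩ := s
    have s0 : s ≠ 0 := fun e => hD (by simpa [e] using hs)
    obtain ⟨x, hx⟩ : ∃ x, 2 * a * x = b + s := ⟨(b + s) / (2 * a), by field_simp⟩
    obtain ⟨y, hy⟩ : ∃ y, 2 * a * y = b - s := ⟨(b - s) / (2 * a), by field_simp⟩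
    have e1 : b = a * (x + y) := mul_left_cancel₀ n2 (by linear_combination -hx - hy)
    have e2 : c = a * (x * y) := mul_left_cancel₀ (mul_ne_zero n2 (mul_ne_zero n2 ha)) (by
      linear_combination -hs - (b - s) * hx - 2 * a * x * hy)
    have xy : x ≠ y := fun e => mul_ne_zero n2 s0 (by rw [e] at hx; linear_combination hy - hx)
    have k (z : ZMod l) : a * z ^ 2 - b * z + c = 0 ↔ z ∈ ({x, y} : Finset (ZMod l)) := by
      rw [show a * z ^ 2 - b * z + c = a * ((z - x) * (z - y)) by rw [e2, e1]; ring]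
      simp [ha, sub_eq_zero]
    have n := mul_ne_zero_iff.1 (right_ne_zero_of_mul (e2 ▸ hc))
    simp only [k, sum_ite_mem, univ_inter, sum_pair xy]
    rw [e2, h.mul _ _ ha (mul_ne_zero n.1 n.2), h.mul _ _ n.1 n.2]
    push_cast
    ring
  · rw [quadraticChar_neg_one_iff_not_isSquare.2 s, sum_eq_zero fun x _ => if_neg fun e =>
      s ⟨2 * a * x - b, by linear_combination -4 * a * e⟩]
    simp

theorem sum_p (hp : (p : ZMod l) ≠ 0) (h0 : W p = 0) {P : ℕ → Prop} (Q : ZMod l → Prop)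
    [DecidablePred P] [DecidablePred Q] (e : ∀ j, P j ↔ Q (p * j)) :
    ∑ j ∈ range l, (if P j then W j else 0) = ∑ x, if Q x then W x else 0 := by
  rw [← Equiv.sum_comp (Equiv.mulLeft₀ _ hp), ← sum_zm]
  refine sum_congr rfl fun j _ => if_congr (e j) ?_ rfl
  rcases eq_or_ne (j : ZMod l) 0 with k | k
  · simp [k]
  · rw [Equiv.mulLeft₀_apply, h.mul _ _ hp k, h0, zero_add]

/-- the identity for one form -/
theorem one (h2 : l ≠ 2) (hp : (p : ZMod l) ≠ 0) (h0 : W p = 0) (hD : D < l) {x : Fm}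
    (hx : x ∈ Fs (l ^ 2 * D)) :
    2 * ∑ j ∈ range l, (if x ∈ Set.range (up l (p * j)) then W j else 0) =
      (wl W x.2.2 - wl W x.1) * (1 + J(D | l) * (if x ∈ Set.range ((l : ℤ) • ·) then 1 else 0) -
        (if x ∈ Set.range (up l 0) then 1 else 0) - if x ∈ Set.range (ut l 0 1) then 1 else 0) := by
  obtain ⟨h1, h3, e⟩ := mem_Fs.1 hx
  have pp := Nat.prime_iff_prime_int.1 hl.out
  have l0 := pp.ne_zero
  have n2 : (2 : ZMod l) ≠ 0 := Gq.two_ne h2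
  have z := fun a : ℤ => ZMod.intCast_zmod_eq_zero_iff_dvd a l
  have ll : (l : ℤ) ∣ l ^ 2 := dvd_pow_self _ two_ne_zero
  have cp : ∀ a : ℤ, ¬ (l : ℤ) ∣ a → IsCoprime ((l : ℤ) ^ 2) (2 * 2 * a) := fun a ha =>
    have k := fun n => pp.irreducible.coprime_iff_not_dvd (n := n)
    have n := (k 2).2 ((z 2).not.1 (by exact_mod_cast n2))
    ((n.mul_right n).mul_right ((k _).2 ha)).pow_left
  push_cast at e
  by_cases i1 : x ∈ Set.range ((l : ℤ) • ·)
  · rw [if_pos i1]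
    obtain ⟨⟨a, b, c⟩, rfl⟩ := i1
    simp only [Z.disc_smul, mul_right_inj' (pow_ne_zero 2 l0)] at e
    simp only [Prod.smul_mk, smul_eq_mul, disc] at h1 h3 e ⊢
    have l1 : (0 : ℤ) < l := Nat.cast_pos.2 hl.out.pos
    have a0 : a < 0 := by nlinarith
    have c0 : 0 < c := by nlinarith
    have hD' : (D : ℤ) < l := by exact_mod_cast hD
    have nd (y : ℤ) (y0 : 0 < y) (y1 : y ≤ D) : ¬ (l : ℤ) ∣ y := fun d => by
      linarith [Int.le_of_dvd y0 d]
    have na : ¬ (l : ℤ) ∣ a := fun d => nd (-a) (by omega) (by nlinarith) d.neg_right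
    have nc : ¬ (l : ℤ) ∣ c := nd c c0 (by nlinarith)
    have nD : ¬ (l : ℤ) ∣ b ^ 2 - 4 * a * c := nd _ (by nlinarith) e.le
    rw [if_neg fun k => nc ((mul_dvd_mul_iff_left l0).1 (by simpa [sq] using (mem_up.1 k).2)),
      if_neg fun k => na ((mul_dvd_mul_iff_left l0).1 (by simpa [sq] using (mem_dg.1 k).1)),
      sum_p h hp h0 (fun y => a * y ^ 2 - b * y + c = 0) fun j => ?_,
      roots h h2 (b := b) ((z a).not.2 na) ((z c).not.2 nc) (by exact_mod_cast (z _).not.2 nD),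
      wl_l h c0.ne', wl_l h a0.ne, wl_eq h ((z a).not.2 na), wl_eq h ((z c).not.2 nc),
      ← jacobiSym.legendreSym.to_jacobiSym, legendreSym, ← e]
    · push_cast
      ring
    · refine mem_up.trans ?_
      simp only
      rw [show (l * c - l * b * (p * j) + l * a * (p * j) ^ 2 : ℤ) =
        l * (a * (p * j) ^ 2 - b * (p * j) + c) by ring, sq (l : ℤ), mul_dvd_mul_iff_left l0,
        and_iff_right ⟨b - 2 * a * (p * j), by ring⟩, ← z]
      push_cast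
      rfl
  rw [if_neg i1, mul_zero, add_zero]
  have hd : (l : ℤ) ∣ disc x := e ▸ ll.mul_right _
  by_cases a : (l : ℤ) ∣ x.1
  · have b := dvd_b hl.out hd a
    have c : ¬ (l : ℤ) ∣ x.2.2 := fun c => i1 (mem_smul.2 ⟨a, b, c⟩)
    have k (y : ℤ) : x ∉ Set.range (up l y) := fun k => c ((dvd_sub_left (b.mul_right _)).1
      ((dvd_add_left (a.mul_right _)).1 (ll.trans (mem_up.1 k).2)))
    rw [if_neg (k 0), if_pos (mem_dg.2 ⟨(cp _ c).dvd_of_dvd_mul_left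
      ((dvd_sub (pow_dvd_pow_of_dvd b 2) ⟨D, e⟩).trans (dvd_of_eq (by rw [disc]; ring))), b⟩),
      sum_eq_zero fun j _ => if_neg (k _)]
    ring
  have a' : (x.1 : ZMod l) ≠ 0 := (z _).not.2 a
  obtain ⟨y, hy⟩ : ∃ y : ZMod l, 2 * x.1 * y = x.2.1 := ⟨x.2.1 / (2 * x.1), by field_simp⟩
  have k (t : ℤ) : x ∈ Set.range (up l t) ↔ (t : ZMod l) = y := by
    refine mem_up.trans ?_
    rw [and_iff_left_of_imp fun k => (cp _ a).dvd_of_dvd_mul_left
      ((dvd_sub (pow_dvd_pow_of_dvd k 2) ⟨D, e⟩).trans (dvd_of_eq (by rw [disc]; ring))), ← z]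
    push_cast
    rw [← hy, ← mul_sub, mul_eq_zero, or_iff_right (mul_ne_zero n2 a'), sub_eq_zero, eq_comm]
  rw [if_neg fun k => a (ll.trans (mem_dg.1 k).1), sum_p h hp h0 (· = y) fun j =>
    (k _).trans (by push_cast; rfl), sum_ite_eq', if_pos (mem_univ _), sub_zero]
  by_cases y0 : y = 0
  · rw [if_pos ((k 0).2 (by simp [y0])), y0, h.zero]
    ring
  have c : (x.2.2 : ZMod l) = x.1 * (y * y) := by
    have := (z _).2 hd
    simp only [disc] at this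
    push_cast at this
    rw [← hy] at this
    exact mul_left_cancel₀ (mul_ne_zero n2 (mul_ne_zero n2 a')) (by linear_combination -this)
  rw [if_neg fun j => y0 (by simpa using ((k 0).1 j).symm), wl_eq h a',
    wl_eq h (c ▸ mul_ne_zero a' (mul_ne_zero y0 y0)), c, h.mul _ _ a' (mul_ne_zero y0 y0),
    h.mul _ _ y0 y0]
  ring

omit h hl in
/-- the symmetric form of the sums -/
theorem sym {ψ : Fm → ℤ}
    (i : ∀ k ∈ Pm D, ∑ i ∈ k.2.divisorsAntidiagonal, ψ (-i.1, k.1, i.2) = 0) :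
    ∑ x ∈ Fs D, ψ x * (wl W x.2.2 - wl W x.1) = 2 * ∑ x ∈ Fs D, ψ x * wl W x.2.2 := by
  have : ∑ x ∈ Fs D, ψ x * (wl W x.1 + wl W x.2.2) = 0 := by
    rw [← sum_Fs]
    refine sum_eq_zero fun k hk => (sum_congr rfl (g := fun i =>
      (ψ (-i.1, k.1, i.2) : ZMod m) * wl W k.2) fun j hj => ?_).trans ?_
    · obtain ⟨e, e0⟩ := Nat.mem_divisorsAntidiagonal.1 hj
      obtain ⟨a, b⟩ := mul_ne_zero_iff.1 (e.trans_ne e0)
      rw [← e, Nat.cast_mul, wl_mul (Nat.cast_ne_zero.2 a) (Nat.cast_ne_zero.2 b), wl_neg]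
    · rw [← sum_mul, ← Int.cast_sum, i k hk, Int.cast_zero, zero_mul]
  simp only [mul_add, mul_sub, sum_add_distrib, sum_sub_distrib] at this ⊢
  linear_combination -this

/-- **the congruence** -/
theorem core (h2 : l ≠ 2) (hp : (p : ZMod l) ≠ 0) (h0 : W p = 0) (hD : D < l) {w : ZMod l → ℤ}
    (hw : ∀ j, (w j : ZMod m) = W j) {ψ ψ' : Fm → ℤ} {ε : ℤ}
    (h1 : ∀ (j : ℤ) μ, ψ' (up l (p * j) μ) = ψ μ) (h3 : ∀ μ, ψ' (ut l 0 1 μ) = ψ μ)
    (h4 : ∀ μ, ψ' ((l : ℤ) • μ) = ε * ψ μ)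
    (i : ∀ k ∈ Pm D, ∑ i ∈ k.2.divisorsAntidiagonal, ψ (-i.1, k.1, i.2) = 0)
    (i' : ∀ k ∈ Pm (l ^ 2 * D), ∑ i ∈ k.2.divisorsAntidiagonal, ψ' (-i.1, k.1, i.2) = 0) :
    ((2 * ∑ x ∈ Fs (l ^ 2 * D), ∑ j ∈ range l, w j * Function.extend (up l (p * j)) ψ 0 x : ℤ) :
      ZMod m) = 2 * ∑ x ∈ Fs (l ^ 2 * D), ψ' x * wl W x.2.2 +
        (ε * J(D | l) - 2) * (2 * ∑ x ∈ Fs D, ψ x * wl W x.2.2) := by
  have l0 : (l : ℤ) ≠ 0 := Nat.cast_ne_zero.2 hl.out.ne_zero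
  have l1 : (0 : ℤ) < l := Nat.cast_pos.2 hl.out.pos
  have l2 := pow_pos l1 2
  have e (j : ℕ) (x : Fm) : ((w j * Function.extend (up l (p * j)) ψ 0 x : ℤ) : ZMod m) =
      ψ' x * if x ∈ Set.range (up l (p * j)) then W j else 0 := by
    split_ifs with k
    · obtain ⟨μ, rfl⟩ := k
      rw [(Ar.up_inj hl.out.ne_zero _).extend_apply, h1, Int.cast_mul, hw, mul_comm]
    · simp [Function.extend_apply' _ _ _ k]
  have wp (k : ℕ) {x : ℤ} (hx : x ≠ 0) : wl W (l ^ k * x) = wl W x := by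
    induction k with
    | zero => rw [pow_zero, one_mul]
    | succ k ih => rw [pow_succ', mul_assoc, wl_l h (mul_ne_zero (pow_ne_zero _ l0) hx), ih]
  have t {f : Fm → Fm} (hf : Function.Injective f) (a b : ℕ) (c : ℤ)
      (k : ∀ μ, (f μ).1 = l ^ a * μ.1 ∧ (f μ).2.2 = l ^ b * μ.2.2 ∧ disc (f μ) = l ^ 2 * disc μ ∧
        ψ' (f μ) = c * ψ μ) : ∑ x ∈ Fs (l ^ 2 * D), ψ' x * (wl W x.2.2 - wl W x.1) *
          (if x ∈ Set.range f then 1 else 0) = c * (2 * ∑ x ∈ Fs D, ψ x * wl W x.2.2) := by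
    rw [sum_ind (s := Fs D) hf fun μ => ?_, ← sym i, mul_sum]
    · exact sum_congr rfl fun μ j => by
        rw [(k μ).1, (k μ).2.1, (k μ).2.2.2, wp _ (mem_Fs.1 j).1.ne, wp _ (mem_Fs.1 j).2.1.ne',
          Int.cast_mul, mul_assoc]
    · rw [mem_Fs, mem_Fs, (k μ).1, (k μ).2.1, (k μ).2.2.1, Nat.cast_mul, Nat.cast_pow,
        mul_right_inj' l2.ne', mul_pos_iff_of_pos_left (pow_pos l1 b), ← neg_pos, ← mul_neg,
        mul_pos_iff_of_pos_left (pow_pos l1 a), neg_pos]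
  have s1 := t (smul_right_injective Fm l0) 1 1 ε fun μ =>
    ⟨by simp, by simp, Z.disc_smul _ _, h4 μ⟩
  have s2 := t (Ar.up_inj hl.out.ne_zero 0) 0 2 1 fun μ =>
    ⟨by simp [up], by simp [up, mul_comm], disc_up _, by rw [← h1 0 μ, mul_zero, one_mul]⟩
  have s3 := t (ut_inj (q := 0) l0 one_ne_zero) 2 0 1 fun μ =>
    ⟨mul_comm _ _, by simp [ut], by simp [disc_ut], by rw [h3, one_mul]⟩
  rw [Int.cast_one, one_mul] at s2 s3
  rw [← sym i', sub_mul, mul_right_comm, ← s1, two_mul (2 * _ : ZMod m), add_sub, ← sub_sub]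
  nth_rw 2 [← s3]
  rw [← s2, Int.cast_mul, Int.cast_sum, mul_sum, sum_mul, ← sum_add_distrib, ← sum_sub_distrib,
    ← sum_sub_distrib]
  refine sum_congr rfl fun x hx => ?_
  simp only [Int.cast_sum, e, ← mul_sum, Int.cast_ofNat]
  rw [mul_left_comm, one h h2 hp h0 hD hx]
  ring

end Vale.Agent.P014T.Tg.Tk
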