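import Vale.Agent.P014T.Tg.Tk0
import Vale.Agent.P014T.Tg.F0d
import Vale.Agent.P014T.Z.Ari1

/-!
# P014T, block T: the congruence of the kernels, Hecke relations (helper41)
-/

set_option autoImplicit false
set_option linter.all false

open Finset
open scoped NumberTheorySymbols Classical

noncomputable section

namespace Vale.Agent.P014T.Tg.Tk

open P004Z P004Z.Hd P004Z.Kf P004Z.Kf.Ar P014T.Z P014T.Z.A1

variable {N p e d l m : ℕ} {φ φ' : Fm → ℤ}

theorem om_ut (hp : p ≠ 0) {a q s : ℤ} (h : IsCoprime (a * s) p) (x : Fm) :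
    om p (ut a q s x) = om p x := by
  refine om_of hp h (x := 0) (fun k hk => ?_) (by rw [disc_ut]; ring) fun _ => dvd_zero _
  have c := (h.pow_right.of_isCoprime_of_dvd_right hk).symm
  have ca := c.of_mul_right_left
  have cs := c.of_mul_right_right
  refine ⟨fun ⟨h1, h2, h3⟩ => ?_, fun ⟨h1, h2, h3⟩ => ⟨h1.mul_right _, Dvd.dvd.mul_left (dvd_add
    ((h1.mul_left _).mul_right _) (h2.mul_right _)) _, dvd_add (dvd_add (h1.mul_right _)
      ((h2.mul_right _).mul_right _)) (h3.mul_right _)⟩⟩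
  have k1 := ca.pow_right.dvd_of_dvd_mul_right h1
  have k2 := cs.dvd_of_dvd_mul_right ((dvd_add_right ((k1.mul_left _).mul_right _)).1
    (ca.dvd_of_dvd_mul_left h2))
  exact ⟨k1, k2, cs.pow_right.dvd_of_dvd_mul_right ((dvd_add_right (dvd_add (k1.mul_right _)
    ((k2.mul_right _).mul_right _))).1 h3)⟩

theorem ps_ut (hp : p ≠ 0) {a q s : ℤ} (h : IsCoprime (a * s) p)
    (h' : IsCoprime (a * s) (2 * N * e : ℕ)) (r : ZMod (2 * N)) (x : Fm) :
    ps N p e ((a * s : ℤ) * r) (ut a q s x) = ps N p e r x := by rw [ps, ps, om_ut hp h, ph_ut h']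

theorem ps_tr' (hp : p ≠ 0) (r : ZMod (2 * N)) : Tr (ps N p e r) := fun a b c t => by
  have := ps_ut (e := e) (a := 1) (s := 1) (q := t) hp (by simp [isCoprime_one_left])
    (by simp [isCoprime_one_left]) r (a, b, c)
  simpa [ut, add_comm b] using this

theorem tv_up (hp : p ≠ 0) (h : IsCoprime (l : ℤ) p) (hT : Tr φ')
    (k : ∀ t x, φ' (up l t x) = φ x) (i : ℤ) (μ : Fm) : tv p φ' (up l (p * i) μ) = tv p φ μ := by
  obtain ⟨u, v, hu⟩ := id h
  have hu' : (p : ℤ) ∣ u * l - 1 := ⟨-v, by linear_combination hu⟩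
  rw [tv_eq, tv_eq, A1.tw, A1.tw, ← sum_unit hp (per_j hp (rz_p1 p) hT _) hu']
  refine sum_congr rfl fun j _ => ?_
  rw [rz_unit u l hu', ext_of (x := 1) (j' := j) (l' := μ) (φ' := φ) hp
    (fun x e => ⟨up l i x, ?_, by rw [k, one_mul]⟩) fun c => ?_, one_mul]
  · rw [← e]
    simp only [up]
    refine Prod.ext rfl (Prod.ext ?_ ?_) <;> simp only <;> ring
  · obtain ⟨⟨b, h1⟩, c, h2⟩ := mem_up.1 c
    simp only [up] at h1 h2
    obtain ⟨y, hy⟩ : (p : ℤ) ∣ μ.2.1 - 2 * μ.1 * j :=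
      h.symm.dvd_of_dvd_mul_left ⟨b - 2 * μ.1 * i, by linear_combination h1⟩
    exact mem_up.2 ⟨⟨y, hy⟩, (h.symm.pow (m := 2) (n := 2)).dvd_of_dvd_mul_left
      ⟨c - μ.1 * i ^ 2 - i * l * y, by linear_combination h2 - p * i * l * hy⟩⟩

theorem tv_dn (hp : p ≠ 0) (h : IsCoprime (l : ℤ) p) (hT : Tr φ)
    (k : ∀ x, φ' (ut l 0 1 x) = φ x) (μ : Fm) : tv p φ' (ut l 0 1 μ) = tv p φ μ := by
  obtain ⟨u, v, hu⟩ := id h
  have hu' : (p : ℤ) ∣ u * l - 1 := ⟨-v, by linear_combination hu⟩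
  rw [tv_eq, tv_eq, A1.tw, A1.tw, ← sum_unit hp (per_j hp (rz_p1 p) hT _) hu']
  refine sum_congr rfl fun j _ => ?_
  rw [rz_unit u l hu', ext_of (x := 1) (j' := l * j) (l' := μ) (φ' := φ) hp
    (fun x e => ⟨ut l 0 1 x, ?_, by rw [k, one_mul]⟩) fun c => ?_, one_mul]
  · rw [← e]
    simp only [up, ut]
    refine Prod.ext rfl (Prod.ext ?_ ?_) <;> simp only <;> ring
  · obtain ⟨⟨b, h1⟩, c, h2⟩ := mem_up.1 c
    simp only [ut] at h1 h2
    exact mem_up.2 ⟨h.symm.dvd_of_dvd_mul_left ⟨b, by linear_combination h1⟩,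
      c, by linear_combination h2⟩

theorem tv_sm (hp : p ≠ 0) (h : IsCoprime (l : ℤ) p) {ε : ℤ}
    (k : ∀ x, φ' ((l : ℤ) • x) = ε * φ x) (μ : Fm) : tv p φ' ((l : ℤ) • μ) = ε * tv p φ μ := by
  rw [← tv_smul hp h k, tv, tv, mul_sum]
  exact sum_congr rfl fun j _ => by
    rw [ext_of (x := ε) (φ' := φ) hp (fun x e => ⟨x, e, rfl⟩) id, mul_left_comm]

/-- the integers `ka1` -/
def kz (ψ : Fm → ℤ) (D q : ℕ) : ℤ := 2 * ∑ x ∈ Fs D, ψ x * x.2.2.natAbs.factorization q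

theorem le_Fs {D : ℕ} {x : Fm} (h : x ∈ Fs D) : x.2.2.natAbs ≤ D := by
  obtain ⟨a, b, c⟩ := mem_Fs.1 h
  have : x.2.2 ≤ D := by rw [← c, disc]; nlinarith [sq_nonneg x.2.1]
  omega

theorem kz_zero (ψ : Fm → ℤ) {D B q : ℕ} (h : D < B) (hq : q ∉ (range B).filter Nat.Prime) :
    kz ψ D q = 0 := by
  rw [kz, sum_eq_zero fun x hx => ?_, mul_zero]
  have := le_Fs hx
  rw [mem_filter, mem_range, not_and_or] at hq
  rw [hq.elim (fun k => Nat.factorization_eq_zero_of_lt (by omega))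
    (Nat.factorization_eq_zero_of_not_prime _), Nat.cast_zero, mul_zero]

theorem kz_nil (ψ : Fm → ℤ) (q : ℕ) : kz ψ 0 q = 0 := by
  rw [kz, sum_eq_zero fun x hx => ?_, mul_zero]
  have := le_Fs hx
  have := (mem_Fs.1 hx).2.1
  omega

theorem kz_sum (W : ZMod l → ZMod m) (ψ : Fm → ℤ) {D B : ℕ} (h : D < B) :
    ∑ q ∈ (range B).filter Nat.Prime, (kz ψ D q : ZMod m) * W q =
      2 * ∑ x ∈ Fs D, ψ x * wl W x.2.2 := by
  simp only [kz, Int.cast_mul, Int.cast_sum, Int.cast_ofNat, Int.cast_natCast, mul_assoc, sum_mul,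
    ← mul_sum]
  rw [sum_comm]
  refine congrArg _ (sum_congr rfl fun x hx => ?_)
  rw [← mul_sum, wl, Finsupp.sum_of_support_subset _ (fun q hq => ?_) _ fun _ _ => by simp]
  have := le_Fs hx
  have := Nat.le_of_mem_primeFactors hq
  exact mem_filter.2 ⟨mem_range.2 (by omega), Nat.prime_of_mem_primeFactors hq⟩

theorem l_mul [Fact l.Prime] {W : ZMod l → ZMod m} (h : Lw l m W) (x : ZMod l) :
    (l : ZMod m) * W x = W x := by
  rcases eq_or_ne x 0 with rfl | hx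
  · rw [h.zero, mul_zero]
  have k (n : ℕ) : W (x ^ n) = n * W x := by
    induction n with
    | zero => simp [W_one h]
    | succ n ih => rw [pow_succ, h.mul _ _ (pow_ne_zero _ hx) hx, ih, Nat.cast_succ, add_one_mul]
  rw [← k, ZMod.pow_card]

/-- the congruence for one coefficient -/
theorem one_cf [NeZero N] {W : ZMod l → ZMod m} {w : ZMod l → ℤ} {β : ℤ} (hp : p ≠ 0)
    (hs : Squarefree d) (h4 : d % 4 = 3) (hl : l.Prime) (hn : ¬ l ∣ 2 * N * p * d) (h : Lw l m W)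
    (h0 : W p = 0) (hw : ∀ j, (w j : ZMod m) = W j)
    (i : ∀ (r : ZMod (2 * N)) (n : ℕ), ∀ k ∈ Pm (p ^ 4 * d * n), ∑ i ∈ k.2.divisorsAntidiagonal,
      tv p (ps N p d (β * r)) (-i.1, k.1, i.2) = 0) {n : ℕ} (hD : p ^ 4 * d * n < l)
    (r : ZMod (2 * N)) : (Fw p d l β w n r : ZMod m) = ∑ q ∈ (range (l ^ 3)).filter Nat.Prime,
      ((kz (tv p (ps N p d (β * (l * r)))) (p ^ 4 * d * (l ^ 2 * n)) q + (J(-n | l) - (l + 1)) *
        kz (tv p (ps N p d (β * r))) (p ^ 4 * d * n) q : ℤ) : ZMod m) * W q := by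
  have := Fact.mk hl
  have c : IsCoprime (l : ℤ) (2 * N * p * d : ℕ) :=
    Nat.isCoprime_iff_coprime.2 (hl.coprime_iff_not_dvd.2 hn)
  have c1 : IsCoprime (l : ℤ) p := c.of_isCoprime_of_dvd_right ⟨2 * N * d, by push_cast; ring⟩
  have c2 : IsCoprime (l : ℤ) (2 * N * d : ℕ) := c.of_isCoprime_of_dvd_right ⟨p, by push_cast; ring⟩
  have h2 : l ≠ 2 := fun e => hn (e ▸ Dvd.intro (N * p * d) (by ring))
  have e1 : p ^ 4 * d * (l ^ 2 * n) = l ^ 2 * (p ^ 4 * d * n) := by ring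
  have l2 := pow_pos hl.pos 2
  have k (a q s : ℤ) (e : a * s = l) (x : Fm) :
      ps N p d (β * (l * r)) (ut a q s x) = ps N p d (β * r) x := by
    rw [← ps_ut hp (e ▸ c1) (e ▸ c2) (q := q) ((β : ZMod (2 * N)) * r) x, e, Int.cast_natCast, mul_left_comm]
  have j : J(l | d) * J((p ^ 4 * d * n : ℕ) | l) = J(-n | l) := by
    rw [← Gq.J_flip h4 (hl.odd_of_ne_two h2), ← jacobiSym.mul_left,
      show -(d : ℤ) * (p ^ 4 * d * n : ℕ) = (p ^ 2 * d) ^ 2 * -n by push_cast; ring,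
      jacobiSym.mul_left, jacobiSym.sq_one' (Int.isCoprime_iff_gcd_eq_one.1
        (c1.pow_right.mul_right (cop3 c2).2.2).symm), one_mul]
  have := core h h2 ((ZMod.natCast_eq_zero_iff _ _).not.2 fun e => hn
    ((e.mul_left _).mul_right _)) h0 hD hw (ε := J(l | d))
    (tv_up hp c1 (ps_tr' hp _) fun t x => (congrArg _ (by simp [up, ut])).trans
      (k 1 t l (one_mul _) x)) (tv_dn hp c1 (ps_tr' hp _) (k l 0 1 (mul_one _)))
    (tv_sm hp c1 fun x => by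
      have := ph_smul hs c2 ((β : ZMod (2 * N)) * r) x
      rw [Int.cast_natCast, mul_left_comm] at this
      rw [ps, ps, om_unit hp c1, this, mul_left_comm]) (i r n) (e1 ▸ i (l * r) (l ^ 2 * n))
  rw [← Int.cast_mul _ J(_ | l), j, ← kz_sum W _ (B := l ^ 3) (by nlinarith), ← kz_sum W _
    (B := l ^ 3) (by nlinarith), mul_sum (s := filter _ _), ← sum_add_distrib] at this
  rw [Fw, show p ^ 4 * d * l ^ 2 * n = l ^ 2 * (p ^ 4 * d * n) by ring, ← mul_sum, sum_Fs, e1]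
  refine this.trans (sum_congr rfl fun q _ => ?_)
  push_cast
  linear_combination (kz (tv p (ps N p d (β * r))) (p ^ 4 * d * n) q : ZMod m) * l_mul h q

end Vale.Agent.P014T.Tg.Tk
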