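import Vale.Agent.P014T.Tg.St2
import Vale.Agent.P014T.Tg.Kap
import Vale.Agent.P014T.Tg.Cint
import Vale.Agent.P014T.Tg.Dd
import Vale.Agent.P014T.Tg.F0x
import Vale.Agent.P014T.Z.All

/-! # P014T, block T: the glue -/

set_option autoImplicit false
set_option linter.all false

open Complex UpperHalfPlane CongruenceSubgroup NumberField
open scoped Real MatrixGroups Classical ComplexConjugate NumberTheorySymbols

noncomputable section

namespace Vale.Agent.P014T.Tg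

open P004Z P004Z.Ar P014T.Z P014T.Gx Vale.Agent.P004H.H666
open P004Z.Gl hiding pr_lg
open P004N (RN ALw)
open P004Z.H (PlC iE)
open Vale.Agent.P004M.TE (Pt ga GQ Qb)

namespace To

variable {N : ℕ} [NeZero N] {a : ℕ → ℤ} {G : ℍ → ℂ} {p d l : ℕ} {β : ℤ}

/-- the value of the holomorphic kernel -/
theorem val (rn : RN N G a) (h : Dz N p d β) (hl : l.Prime) (hn : ¬ l ∣ 2 * N * p * d)
    {w : ZMod l → ℤ} (w0 : w 0 = 0) (w1 : ∀ j, w (-j) = w j) (w2 : ∀ j, w (p * j) = w j)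
    {c : PP N} (hc : c ∈ MM N 1 d) {x : Cf N} (hx : IsS 1 x) (he : Eig 1 (2 * N * 1) a x)
    {μ : ℤ} {κ : ℕ} (h1 : ∀ y, IsS 1 y → pr y c = μ * B y x)
    (h2 : ∀ y, IsS 1 y → Eig 1 (2 * N * 1) a y → B y x = κ * y d β) {z : ℤ}
    (hz : pr (fun n r => (Fw p d l β w n r : ℂ)) c = z) :
    z * pet2 N G G = μ * κ * (√(d : ℝ) : ℝ) * L0 a d * (a p - p - 1) ^ 2 *
      ∑ j ∈ Finset.range l, w j * Ms G (j / l) := by
  have u := Gu.du h
  have N0 := NeZero.pos N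
  obtain ⟨b, x', H⟩ := exh1 (mm_adm hc)
  have e1 : x' = (μ : ℂ) • x := eq_of_B1 _ hx H.s fun y hy => by
    rw [B, ← (pair1 H).2 y hy, h1 y hy]
  have e2 := f0x N p d l β w h hl hn w0 w1 w2 b x' c H (mm_off hc) G a _
    ⟨rn.pos, rn.s2, rn.qe, rn.one, rn.te⟩ (congrFun (eigx1 u rn (S := 2 * N * 1) (by positivity) H.s
      (by
        rw [e1, ← add_zero (_ • x)]
        exact eig_comb _ he fun l _ _ => by funext n r; simp [TT])))
  have e3 := congrArg conj (hz.symm.trans e2)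
  rw [map_intCast, conj_conj, e1, keyx2 u rn (by positivity) (dvd_mul_right _ _) hx he h2] at e3
  simp only [Pi.smul_apply, smul_eq_mul, sn_co1 u rn.s2 rn.qe, u.cS, map_div₀, map_mul, map_natCast,
    map_ofNat, conj_ofReal, Gu.pet_conj] at e3
  have s1 : ((√(d : ℝ) : ℝ) : ℂ) ^ 2 = d := by
    rw [← ofReal_pow, Real.sq_sqrt (by positivity)]; rfl
  have n1 : ((√(N : ℝ) : ℝ) : ℂ) ≠ 0 :=
    ofReal_ne_zero.2 (Real.sqrt_ne_zero'.2 (Nat.cast_pos.2 N0))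
  have n2 : ((√(d : ℝ) : ℝ) : ℂ) ≠ 0 :=
    ofReal_ne_zero.2 (Real.sqrt_ne_zero'.2 (Nat.cast_pos.2 u.ok.odd.pos))
  have n3 := pet2_ne rn
  have n4 : (N : ℂ) ≠ 0 := Nat.cast_ne_zero.2 N0.ne'
  rw [e3, Real.sqrt_mul (by positivity), ← s1, L0]
  push_cast
  field_simp

end To

/-- **the tame formula of Gross and Zagier** -/
theorem tgz (t2 : T2) (tk : TK) : TGZ := by
  intro N G a D d β s₀ V P i j rn hAL hV hg hs₀ pl hP hi e
  have : NeZero N := ⟨rn.pos.ne'⟩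
  have N0 := rn.pos
  obtain ⟨p, h, -⟩ := exd N d 1 β N0 hg one_ne_zero
  have u := Gu.du h
  have α := Gu.al_ne h.toPz1 rn
  have α' : a p - p - 1 ≠ 0 := by exact_mod_cast α
  obtain ⟨s, hs⟩ := (Ar.ws_row N N0).2.2.2.2.1 _ (bd1 N p d β h).2.1
  obtain ⟨g, g0, g1⟩ := deg (ae plc fun_row) Ar.ws_row N a D N0
  obtain ⟨f, J, ι, A⟩ := aro N G a D p d β s V g rn h hs pl ⟨g0, g1⟩
  obtain ⟨q1, q2⟩ := yq1 N G a D d β s₀ rn hAL hV hg hs₀
  obtain ⟨v, -, hv⟩ := Dg.ex_cov D.par.lat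
  obtain ⟨y, hy, -, gz⟩ := gzx_all N G a D d β s₀ v V rn hAL hV hg hs₀ hv pl
  have e6 := degv N G a D g v rn ⟨g0, g1⟩ hv
  obtain ⟨b, -, b2⟩ := H.ex_bil _ (H.hh_par (a := D.A) (b := D.B) (Gl.pl_vq pl) (by
    simp only [map_intCast]
    exact_mod_cast mul_ne_zero (by norm_num) D.par.disc))
  have hh : (i ^ 2 * H.hh (Gl.vq V) P : ℝ) = j ^ 2 * H.hh (Gl.vq V) y := by
    have := congrArg (fun x => b x x) (Gl.iE_inj (e.trans (by rw [← hy, map_zsmul])) : i • P = j • y)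
    simp only [map_zsmul, AddMonoidHom.zsmul_apply, zsmul_eq_mul, b2] at this
    linear_combination this / 2
  let R : Rt D.A D.B := ⟨iE P, fun σ => by
    obtain ⟨t, ht⟩ := H.ex_res σ
    rw [H.sp_iE ht, hP]⟩
  let Y : Rt D.A D.B := (a p - p - 1) • ⟨_, q2⟩
  have hY : Y.1 = yK D (B1 N p d β) s := (yk N G a D p d β s s₀ rn h hs hs₀).symm
  have eR : (i * (a p - p - 1)) • R = j • Y := Subtype.ext (by
    change _ • iE P = j • _ • yK _ _ _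
    rw [smul_comm j, ← e, mul_comm, mul_smul, map_zsmul])
  have Y0 : ∀ k : ℤ, k ≠ 0 → k • Y ≠ 0 := fun k k0 q => hi
    (isOfFinAddOrder_iff_zsmul_eq_zero.2 ⟨_, mul_ne_zero k0 α', Gl.iE_inj (by
      have : (k • (i * (a p - p - 1)) • R).1 = 0 := by rw [eR, smul_comm, q, smul_zero]; rfl
      rw [map_zero, ← this, map_zsmul, map_zsmul, mul_comm i, mul_smul, mul_smul]
      rfl)⟩)
  have i0 : i ≠ 0 := fun q => hi (by rw [q, zero_zsmul]; exact IsOfFinAddOrder.zero)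
  obtain ⟨Q, Q0, hQ⟩ := proj N (2 * N * 1) G a rn (by positivity) ⟨2, by ring⟩
  obtain ⟨κ, c, κ0, hc, ci, c1, c2⟩ := Ci.cint u rn (S := 2 * N * 1) (by positivity) (dvd_mul_right _ _)
  obtain ⟨k, n, F, t, r, U, M, k0, n1, n2, n3, n4, n5, n6, n7, n8, n9, M0, eU, eM⟩ :=
    setup bd1 genx wn rn h hs A ⟨g0, g1⟩ hQ Q0 q1 Y hY Y0 hc ci κ0 c2
  obtain ⟨θ, xm, -, X⟩ := cx1 bd1 act1 D h hs
  obtain ⟨L, hL⟩ := t2 N G a D _ s θ xm n F t r 1 Y U rn X (cm_s bd1 h hs) n2 n3 n4 n5 n6 n7 n8 n9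
    (hY.trans (one_smul _ _).symm)
  obtain ⟨Γ, Γ1, Γ2, Γ3⟩ := spl_cm N0 s fun b hb => (cm_s bd1 h hs b hb).ex
  obtain ⟨_, x, hx, he, x1⟩ := shadow (mm_adm hc) c1
  have m1 : (k : ℂ) • act 1 Q c ∈ MM N 1 d := Submodule.smul_mem _ _ (mm_act Q c hc)
  have m2 : IsInt ((k : ℂ) • act 1 Q c) := by
    rw [Nat.cast_smul_eq_nsmul]
    exact (nsmul_mem (io_lift (δ' := d) Q c ⟨ci, mm_off hc⟩) k).1
  have m3 : ∀ y, IsS 1 y → pr y ((k : ℂ) • act 1 Q c) = (k * lmb a Q : ℤ) * B y x := fun y hy => by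
    rw [pr_smul, show pr y (act 1 Q c) = _ from
      pr_act1 (dvd_mul_right _ _) hx.s he Q c 1 (by simpa using x1) y hy]
    push_cast
    ring
  have m4 : cs n = Zc 1 (U1 p ((k : ℂ) • act 1 Q c)) := by
    rw [n1, map_smul, ← act_u1 h.pr]
    funext z
    exact (pr_smul (fun n r => (Zd N 1 n r z : ℂ)) _ _).symm
  generalize (k : ℂ) • act 1 Q c = c' at m1 m2 m3 m4
  refine ⟨p, L + c'.support.sup (fun i => p ^ 4 * d * i.1) + 2 * N * p * d +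
    (2 * (4 * D.A ^ 3 + 27 * D.B ^ 2)).natAbs, 16 * M ^ 2 * (i * (a p - p - 1)) ^ 2, Γ, h.pr,
    by positivity, Γ1, Γ2, fun l m W σ I φ ρ lt o fb hφ w wp w0 σ0 σ1 hρ dn => ?_⟩
  have hl := o.1
  have : Fact l.Prime := ⟨hl⟩
  have nd : ¬ l ∣ 2 * N * p * d := Nat.not_dvd_of_pos_of_lt (by
    have := h.pr.pos
    have := u.ok.odd.pos
    positivity) (by omega)
  have l2 : ¬ l ∣ 2 * N := fun q => nd ((q.mul_right p).mul_right d)
  have gr : Gr D.A D.B l := fun q => Nat.not_dvd_of_pos_of_lt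
    (Int.natAbs_pos.2 (mul_ne_zero two_ne_zero D.par.disc)) (by omega) (Int.natCast_dvd.1 q)
  have wm : ∀ x : ZMod l, x ≠ 0 → W x = 0 → ∀ j, σ (W (x * j)) = σ (W j) := fun x x0 q j => by
    rcases eq_or_ne j 0 with rfl | j0
    · rw [mul_zero]
    · rw [w.mul _ _ x0 j0, q, zero_add]
  obtain ⟨z, κ', T, z1, z2, z3, z4, z5⟩ := tk N p d l m β W (fun j => σ (W j)) h hl nd w wp
    (fun j => σ1 _) c' m2 fun i hi => by
      have := Finset.le_sup (f := fun i : ℕ × ZMod (2 * N) => p ^ 4 * d * i.1) hi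
      omega
  have e1 := To.val rn h hl nd (w := fun j => σ (W j)) (by simp [w.zero, σ0])
    (fun j => by simpa using wm (-1) (by simp) w.neg j) (wm p (fun q => nd (((ZMod.natCast_eq_zero_iff
      _ _).1 q).mul_left _ |>.mul_right d)) wp) m1 hx.s he m3
    (fun y hy ey => (x1 y hy).symm.trans (c2 y hy ey)) z1
  obtain ⟨k1, k2⟩ := kap bd1 div1 genx Z.ker rn h hs A pl X m1 m2 hx.s he m3 m4 hl l2
    (fun _ => rfl) z2
  obtain ⟨t1, t3⟩ := hL l m W _ T κ' (by omega) hl (Γ3 l I φ o fb hφ) w w0 (fun _ => rfl) k1 z3 z4 k2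
  have ov := ov_of pl hl
  have eρ : xp ((a l - l - 1) • R.1) = ρ := by
    rw [← xp_neg, ← neg_zsmul, show -(a l - l - 1) = l + 1 - a l by ring]
    change xp (_ • iE P) = _
    rw [← map_zsmul, iE, (P004M.TE.xp_pm _ _ _ _).1, hρ, map_ratCast]
  have e2 := dd ov gr w w0 (t1 _ ov) (.inr (eρ ▸ (Hq.big ov ρ).2 dn)) eR (eU ▸ t3)
  rw [show xq ((a l - l - 1) • R.1) = ρ from Rat.cast_injective (α := ℂ)
    ((Hq.xq_eq fix ((a l - l - 1) • R).2).trans eρ), ← z5] at e2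
  refine ⟨4 * M * j ^ 2 * z, ?_, ?_⟩
  · have e3 := congrArg (fun x : ℤ => (x : ℂ)) eM
    have e4 := congrArg (fun x : ℝ => (x : ℂ)) hh
    have n3 := pet2_ne rn
    have π0 : (π : ℂ) ≠ 0 := ofReal_ne_zero.2 Real.pi_ne_zero
    have g' : (g : ℂ) ≠ 0 := Nat.cast_ne_zero.2 g0.ne'
    push_cast at e1 e3 e4 gz ⊢
    refine mul_left_cancel₀ (mul_ne_zero (mul_ne_zero n3 (pow_ne_zero 2 π0)) g') ?_
    linear_combination 4 * M * j ^ 2 * π ^ 2 * g * L1 a * e1 - (4 * M * j ^ 2 * k * lmb a Q * κ *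
      (a p - p - 1) ^ 2 * ∑ j ∈ Finset.range l, σ (W j) * Ms G (j / l)) *
      (g * gz - 2 * H.hh (Gl.vq V) y * e6) - (16 * M * π ^ 2 * pet2 N G G * (a p - p - 1) ^ 2 *
      ∑ j ∈ Finset.range l, σ (W j) * Ms G (j / l)) * (j ^ 2 * H.hh (Gl.vq V) y * e3 + M * g * e4)
  · push_cast at e2 ⊢
    linear_combination -M * e2

end Vale.Agent.P014T.Tg
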